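import Vale.Agent.P062.Cert

namespace Vale.Agent.P062.Data
open Vale.Agent.P062

noncomputable def t0_0 : Tree := (Tree.br (nat_lit 64) (Tree.br (nat_lit 32) (Tree.br (nat_lit 16) (Tree.br (nat_lit 8) (Tree.br (nat_lit 4) (Tree.br (nat_lit 2) (Tree.br (nat_lit 1) (Tree.tip (nat_lit 0) (Node.hit (nat_lit 0x2000002000002000003000001) (nat_lit 7) (nat_lit 129) (nat_lit 132))) (Tree.tip (nat_lit 1) (Node.mv (nat_lit 0x2000002000002000003000000) (nat_lit 1) (nat_lit 0) (nat_lit 0) (nat_lit 16408)))) (Tree.br (nat_lit 3) (Tree.tip (nat_lit 2) (Node.mv (nat_lit 0x2000002000002000002000001) (nat_lit 0x1000000) (nat_lit 24) (nat_lit 0) (nat_lit 16408))) (Tree.tip (nat_lit 3) (Node.mv (nat_lit 0x2000002000002000002000002000000) (nat_lit 0x1000001000001) (nat_lit 24) (nat_lit 1) (nat_lit 0x24118000000014018))))) (Tree.br (nat_lit 6) (Tree.br (nat_lit 5) (Tree.tip (nat_lit 4) (Node.img (nat_lit 0x1000001000001000001000001000000) (nat_lit 0x2000002000002) (nat_lit 3) (nat_lit 1) (nat_lit 129) (nat_lit 128)))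 (Tree.tip (nat_lit 5) (Node.mv (nat_lit 0x2000002000002000002000000000000) (nat_lit 0x5000007000005) (nat_lit 25) (nat_lit 1) (nat_lit 0x44019000000034018)))) (Tree.br (nat_lit 7) (Tree.tip (nat_lit 6) (Node.mv (nat_lit 0x2000002000002000002000000) (nat_lit 0x2000000000000000005000005000005) (nat_lit 121) (nat_lit 1) (nat_lit 0x44019000000034018))) (Tree.tip (nat_lit 7) (Node.img (nat_lit 0x1000003000002000002000002) (nat_lit 0) (nat_lit 0) (nat_lit 2) (nat_lit 128) (nat_lit 132)))))) (Tree.br (nat_lit 12) (Tree.br (nat_lit 10) (Tree.br (nat_lit 9) (Tree.tip (nat_lit 8) (Node.mv (nat_lit 0x1000003000002000002000000) (nat_lit 2) (nat_lit 1) (nat_lit 0) (nat_lit 0x74018))) (Tree.tip (nat_lit 9) (Node.img (nat_lit 0x1000001000001000003000002) (nat_lit 0) (nat_lit 0) (nat_lit 1) (nat_lit 129) (nat_lit 128)))) (Tree.br (nat_lit 11) (Tree.tip (nat_lit 10) (Node.mv (nat_lit 0x1000001000001000002000002) (nat_lit 0x1000000) (nat_lit 24) (nat_lit 0) (nat_lit 0x94018))) (Tree.tip (nat_lit 11) (Node.img (nat_lit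 0x1000001000003000002) (nat_lit 0x1000000000000000000000000) (nat_lit 8) (nat_lit 3) (nat_lit 129) (nat_lit 132))))) (Tree.br (nat_lit 14) (Tree.br (nat_lit 13) (Tree.tip (nat_lit 12) (Node.mv (nat_lit 0x1000003000002000002) (nat_lit 0x1000001000000000000000001000000) (nat_lit 96) (nat_lit 1) (nat_lit 0xb41180000000a4018))) (Tree.tip (nat_lit 13) (Node.mv (nat_lit 0x3000002000002000000) (nat_lit 0x1000001000001000000000001000000000002) (nat_lit 96) (nat_lit 1) (nat_lit 0xc4118000000084018)))) (Tree.br (nat_lit 15) (Tree.tip (nat_lit 14) (Node.img (nat_lit 0x3000002000002000002) (nat_lit 0x1000000000000000000000000) (nat_lit 1) (nat_lit 2) (nat_lit 128) (nat_lit 132))) (Tree.tip (nat_lit 15) (Node.mv (nat_lit 0x2000003000002000002000000) (nat_lit 0x1000001000000000000000000000002) (nat_lit 96) (nat_lit 1) (nat_lit 0xe4118000000084018))))))) (Tree.br (nat_lit 24) (Tree.br (nat_lit 20) (Tree.br (nat_lit 18) (Tree.br (nat_lit 17) (Tree.tip (nat_lit 16) (Node.img (nat_lit 0x2000002000002000002000002)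 (nat_lit 0x1000001000001000000000000000000) (nat_lit 3) (nat_lit 2) (nat_lit 128) (nat_lit 133))) (Tree.tip (nat_lit 17) (Node.mv (nat_lit 0x2000002000002000002000000000000) (nat_lit 0x1000001000001000000000004000006000004) (nat_lit 25) (nat_lit 1) (nat_lit 0x104118000000044019)))) (Tree.br (nat_lit 19) (Tree.tip (nat_lit 18) (Node.mv (nat_lit 0x2000002000002000002000000000000) (nat_lit 0x1000001000001000000000001000003000001) (nat_lit 25) (nat_lit 1) (nat_lit 0x104118000000034018))) (Tree.tip (nat_lit 19) (Node.img (nat_lit 0x18000007) (nat_lit 8) (nat_lit 10) (nat_lit 6) (nat_lit 132) (nat_lit 128))))) (Tree.br (nat_lit 22) (Tree.br (nat_lit 21) (Tree.tip (nat_lit 20) (Node.img (nat_lit 0x1c000003) (nat_lit 0x2000000) (nat_lit 10) (nat_lit 5) (nat_lit 128) (nat_lit 129))) (Tree.tip (nat_lit 21) (Node.mv (nat_lit 0xc000007) (nat_lit 0x12000008) (nat_lit 28) (nat_lit 1) (nat_lit 0x144018000000134018)))) (Tree.br (nat_lit 23) (Tree.tip (nat_lit 22) (Node.img (nat_lit 0x1800000e) (nat_lit 1) (nat_lit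 8) (nat_lit 5) (nat_lit 128) (nat_lit 129))) (Tree.tip (nat_lit 23) (Node.mv (nat_lit 0x800000e) (nat_lit 0x34000011) (nat_lit 28) (nat_lit 1) (nat_lit 0x154019000000164018)))))) (Tree.br (nat_lit 28) (Tree.br (nat_lit 26) (Tree.br (nat_lit 25) (Tree.tip (nat_lit 24) (Node.img (nat_lit 0xe000003) (nat_lit 0x10000000) (nat_lit 8) (nat_lit 6) (nat_lit 132) (nat_lit 128))) (Tree.tip (nat_lit 25) (Node.mv (nat_lit 0xc000007) (nat_lit 0x30000008) (nat_lit 28) (nat_lit 1) (nat_lit 0x184019000000134018)))) (Tree.br (nat_lit 27) (Tree.tip (nat_lit 26) (Node.mv (nat_lit 0x800000e) (nat_lit 0x70000011) (nat_lit 28) (nat_lit 1) (nat_lit 0x194019000000164018))) (Tree.tip (nat_lit 27) (Node.img (nat_lit 0x2000001000001000001000001) (nat_lit 0x2000000000000000000) (nat_lit 2) (nat_lit 3) (nat_lit 129) (nat_lit 132))))) (Tree.br (nat_lit 30) (Tree.br (nat_lit 29) (Tree.tip (nat_lit 28) (Node.mv (nat_lit 0x6000002000002000002000000000000) (nat_lit 0x4000000000001000003000001) (nat_lit 25) (nat_lit 1) (nat_lit 0x340180000001b4119)))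 (Tree.tip (nat_lit 29) (Node.mv (nat_lit 0x3000001000001000001000000000000) (nat_lit 0x2000000000002000003000002) (nat_lit 24) (nat_lit 1) (nat_lit 0x440180000001b4118)))) (Tree.br (nat_lit 31) (Tree.tip (nat_lit 30) (Node.mv (nat_lit 0x1800000c) (nat_lit 0x24000013) (nat_lit 1) (nat_lit 1) (nat_lit 0x154019000000164018))) (Tree.tip (nat_lit 31) (Node.mv (nat_lit 0x1800000c) (nat_lit 0x60000013) (nat_lit 1) (nat_lit 1) (nat_lit 0x194019000000164018)))))))) (Tree.br (nat_lit 48) (Tree.br (nat_lit 40) (Tree.br (nat_lit 36) (Tree.br (nat_lit 34) (Tree.br (nat_lit 33) (Tree.tip (nat_lit 32) (Node.img (nat_lit 0xf000010) (nat_lit 8) (nat_lit 2) (nat_lit 6) (nat_lit 132) (nat_lit 128))) (Tree.tip (nat_lit 33) (Node.img (nat_lit 0x1000000f) (nat_lit 0x8000000) (nat_lit 2) (nat_lit 7) (nat_lit 132) (nat_lit 129)))) (Tree.br (nat_lit 35) (Tree.tip (nat_lit 34) (Node.mv (nat_lit 0x1000000e000010) (nat_lit 0x8000001000008) (nat_lit 24) (nat_lit 1) (nat_lit 0x214118000000204018))) (Tree.tip (nat_lit 35) (Node.mv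 (nat_lit 0x1c00000c) (nat_lit 0x20000003) (nat_lit 1) (nat_lit 1) (nat_lit 0x184019000000164018))))) (Tree.br (nat_lit 38) (Tree.br (nat_lit 37) (Tree.tip (nat_lit 36) (Node.img (nat_lit 0x200001e) (nat_lit 0x1000000) (nat_lit 1) (nat_lit 5) (nat_lit 128) (nat_lit 129))) (Tree.tip (nat_lit 37) (Node.img (nat_lit 0x300000e) (nat_lit 16) (nat_lit 8) (nat_lit 7) (nat_lit 132) (nat_lit 129)))) (Tree.br (nat_lit 39) (Tree.tip (nat_lit 38) (Node.mv (nat_lit 0x600000e) (nat_lit 0x1000030) (nat_lit 4) (nat_lit 1) (nat_lit 0x254019000000244018))) (Tree.tip (nat_lit 39) (Node.img (nat_lit 0xe000018) (nat_lit 0x1000000) (nat_lit 8) (nat_lit 4) (nat_lit 128) (nat_lit 128)))))) (Tree.br (nat_lit 44) (Tree.br (nat_lit 42) (Tree.br (nat_lit 41) (Tree.tip (nat_lit 40) (Node.img (nat_lit 0xf000008) (nat_lit 16) (nat_lit 1) (nat_lit 6) (nat_lit 132) (nat_lit 128))) (Tree.tip (nat_lit 41) (Node.mv (nat_lit 0x1a000018) (nat_lit 0x5000020) (nat_lit 26) (nat_lit 1) (nat_lit 0x284019000000274018)))) (Tree.br (nat_lit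 43) (Tree.tip (nat_lit 42) (Node.img (nat_lit 0x800000f) (nat_lit 0x10000000) (nat_lit 1) (nat_lit 7) (nat_lit 132) (nat_lit 129))) (Tree.tip (nat_lit 43) (Node.mv (nat_lit 0x1000001c000018) (nat_lit 0x20000003000000) (nat_lit 25) (nat_lit 1) (nat_lit 0x2a4119000000274018))))) (Tree.br (nat_lit 46) (Tree.br (nat_lit 45) (Tree.tip (nat_lit 44) (Node.img (nat_lit 0xf000018) (nat_lit 0) (nat_lit 0) (nat_lit 6) (nat_lit 132) (nat_lit 128))) (Tree.tip (nat_lit 45) (Node.mv (nat_lit 0xd000018) (nat_lit 0x2000000) (nat_lit 25) (nat_lit 0) (nat_lit 0x2c4018)))) (Tree.br (nat_lit 47) (Tree.tip (nat_lit 46) (Node.img (nat_lit 0x3000003000002000000000000) (nat_lit 0x1000000000000000000000002000002) (nat_lit 38) (nat_lit 7) (nat_lit 129) (nat_lit 133))) (Tree.tip (nat_lit 47) (Node.mv (nat_lit 0x400000e000004000000000000) (nat_lit 0x2000003000030000000000004000004) (nat_lit 97) (nat_lit 1) (nat_lit 0x2643180000002e4019))))))) (Tree.br (nat_lit 56) (Tree.br (nat_lit 52) (Tree.br (nat_lit 50) (Tree.br (nat_lit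 49) (Tree.tip (nat_lit 48) (Node.img (nat_lit 0x1000002000002000002000002) (nat_lit 0x1000000000000000000) (nat_lit 2) (nat_lit 2) (nat_lit 128) (nat_lit 132))) (Tree.tip (nat_lit 49) (Node.img (nat_lit 0x3000001000001000001) (nat_lit 0x2000000000000000000000000) (nat_lit 1) (nat_lit 3) (nat_lit 129) (nat_lit 132)))) (Tree.br (nat_lit 51) (Tree.tip (nat_lit 50) (Node.mv (nat_lit 0x1000006000002000002000000) (nat_lit 0x4000001000000000000000002) (nat_lit 1) (nat_lit 1) (nat_lit 0x314019000000304018))) (Tree.tip (nat_lit 51) (Node.mv (nat_lit 0x7000002000002000000) (nat_lit 0x5000000000000000000000002) (nat_lit 1) (nat_lit 1) (nat_lit 0x3140190000000e4018))))) (Tree.br (nat_lit 54) (Tree.br (nat_lit 53) (Tree.tip (nat_lit 52) (Node.img (nat_lit 0x3000002000002000002000000000000) (nat_lit 0x1000000000001000003000001) (nat_lit 29) (nat_lit 1) (nat_lit 129) (nat_lit 128))) (Tree.tip (nat_lit 53) (Node.mv (nat_lit 0x3000002000002000000000000000000) (nat_lit 0x1000000000001000000000003000003000001) (nat_lit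 49) (nat_lit 1) (nat_lit 0x3440180000000e4218)))) (Tree.br (nat_lit 55) (Tree.tip (nat_lit 54) (Node.mv (nat_lit 0x6000002000002000000000000000000) (nat_lit 0x4000000000004000000000003000003000001) (nat_lit 49) (nat_lit 1) (nat_lit 0x1c4018000000314219))) (Tree.tip (nat_lit 55) (Node.img (nat_lit 0x2000003000003000000000000) (nat_lit 0x2000000000000000000000001000001) (nat_lit 35) (nat_lit 4) (nat_lit 128) (nat_lit 128)))))) (Tree.br (nat_lit 60) (Tree.br (nat_lit 58) (Tree.br (nat_lit 57) (Tree.tip (nat_lit 56) (Node.mv (nat_lit 0x800001c000008000000000000) (nat_lit 0x8000000000020000007000004000004) (nat_lit 50) (nat_lit 1) (nat_lit 0x23421800000037401a))) (Tree.tip (nat_lit 57) (Node.img (nat_lit 0x1000001000001000003000000) (nat_lit 2) (nat_lit 1) (nat_lit 1) (nat_lit 129) (nat_lit 128)))) (Tree.br (nat_lit 59) (Tree.tip (nat_lit 58) (Node.img (nat_lit 0x2000002000003000002000000) (nat_lit 0x2000000000000000000000001000001) (nat_lit 15) (nat_lit 2) (nat_lit 128) (nat_lit 133))) (Tree.tip (nat_lit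 59) (Node.mv (nat_lit 0x2000003000006000000) (nat_lit 0x2000002000000000000000001000005) (nat_lit 97) (nat_lit 1) (nat_lit 0x3a4018000000394019))))) (Tree.br (nat_lit 62) (Tree.br (nat_lit 61) (Tree.tip (nat_lit 60) (Node.mv (nat_lit 0x2000002000002000003000000) (nat_lit 0x2000000000000000005000004000004) (nat_lit 121) (nat_lit 1) (nat_lit 0x44019000000024118))) (Tree.tip (nat_lit 61) (Node.mv (nat_lit 0x2000002000003000000) (nat_lit 0x2000002000000000005000004000005) (nat_lit 97) (nat_lit 1) (nat_lit 0x3c4018000000014018)))) (Tree.br (nat_lit 63) (Tree.tip (nat_lit 62) (Node.mv (nat_lit 0x2800000e) (nat_lit 0x10000011) (nat_lit 28) (nat_lit 1) (nat_lit 0x134019000000164018))) (Tree.tip (nat_lit 63) (Node.mv (nat_lit 0x14000007) (nat_lit 0xa000008) (nat_lit 27) (nat_lit 1) (nat_lit 0x144018000000134018))))))))) (Tree.br (nat_lit 96) (Tree.br (nat_lit 80) (Tree.br (nat_lit 72) (Tree.br (nat_lit 68) (Tree.br (nat_lit 66) (Tree.br (nat_lit 65) (Tree.tip (nat_lit 64) (Node.mv (nat_lit 0x800000800000e000008000000)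 (nat_lit 0x1000010000010) (nat_lit 28) (nat_lit 1) (nat_lit 0x27411800000039401b))) (Tree.tip (nat_lit 65) (Node.img (nat_lit 0x2000003000001000001000000) (nat_lit 1) (nat_lit 8) (nat_lit 1) (nat_lit 129) (nat_lit 128)))) (Tree.br (nat_lit 67) (Tree.tip (nat_lit 66) (Node.mv (nat_lit 0x3000003000001000002000000) (nat_lit 0x1000003) (nat_lit 24) (nat_lit 1) (nat_lit 0x394018000000414018))) (Tree.tip (nat_lit 67) (Node.img (nat_lit 0x1000001000001000001000002) (nat_lit 0x2000000) (nat_lit 2) (nat_lit 1) (nat_lit 129) (nat_lit 128))))) (Tree.br (nat_lit 70) (Tree.br (nat_lit 69) (Tree.tip (nat_lit 68) (Node.img (nat_lit 0x2000002000003000001) (nat_lit 0x2000000000000000000000000) (nat_lit 8) (nat_lit 2) (nat_lit 128) (nat_lit 132))) (Tree.tip (nat_lit 69) (Node.mv (nat_lit 0x2000003000003000004) (nat_lit 0x2000002000000000000000004000000) (nat_lit 97) (nat_lit 1) (nat_lit 0x444118000000434019)))) (Tree.br (nat_lit 71) (Tree.tip (nat_lit 70) (Node.img (nat_lit 0x3000003000001000000000000) (nat_lit 0x2000000000000000000000001000001)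 (nat_lit 38) (nat_lit 5) (nat_lit 128) (nat_lit 133))) (Tree.tip (nat_lit 71) (Node.img (nat_lit 0x600000e000002) (nat_lit 0x30000001) (nat_lit 43) (nat_lit 3) (nat_lit 133) (nat_lit 130)))))) (Tree.br (nat_lit 76) (Tree.br (nat_lit 74) (Tree.br (nat_lit 73) (Tree.tip (nat_lit 72) (Node.mv (nat_lit 0x600000e000000000000000000) (nat_lit 0x4000000000030000003000002000002) (nat_lit 49) (nat_lit 1) (nat_lit 0x474218000000464019))) (Tree.tip (nat_lit 73) (Node.mv (nat_lit 0x7000006000000000002000000) (nat_lit 0x1000000000000000002000000000002) (nat_lit 49) (nat_lit 1) (nat_lit 0xe4118000000414019)))) (Tree.br (nat_lit 75) (Tree.tip (nat_lit 74) (Node.img (nat_lit 0x1800000f) (nat_lit 0) (nat_lit 0) (nat_lit 7) (nat_lit 132) (nat_lit 129))) (Tree.tip (nat_lit 75) (Node.mv (nat_lit 0x1800000b) (nat_lit 4) (nat_lit 2) (nat_lit 0) (nat_lit 0x4a4018))))) (Tree.br (nat_lit 78) (Tree.br (nat_lit 77) (Tree.tip (nat_lit 76) (Node.mv (nat_lit 0x1c00000a) (nat_lit 0x2000005) (nat_lit 0) (nat_lit 1) (nat_lit 0x1440180000004b4018)))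 (Tree.tip (nat_lit 77) (Node.img (nat_lit 0xe00000c) (nat_lit 0x1000030) (nat_lit 35) (nat_lit 1) (nat_lit 133) (nat_lit 128)))) (Tree.br (nat_lit 79) (Tree.tip (nat_lit 78) (Node.img (nat_lit 0x7000006000002000000000000) (nat_lit 0x1000000000000000000000002000002) (nat_lit 43) (nat_lit 6) (nat_lit 130) (nat_lit 128))) (Tree.tip (nat_lit 79) (Node.mv (nat_lit 0xc00000c000004000000000000) (nat_lit 0x2000003000030000000000004000004) (nat_lit 97) (nat_lit 1) (nat_lit 0x4e40190000004d4318))))))) (Tree.br (nat_lit 88) (Tree.br (nat_lit 84) (Tree.br (nat_lit 82) (Tree.br (nat_lit 81) (Tree.tip (nat_lit 80) (Node.mv (nat_lit 0x200001c000010) (nat_lit 0x1000002000020) (nat_lit 25) (nat_lit 1) (nat_lit 0x244118000000284019))) (Tree.tip (nat_lit 81) (Node.mv (nat_lit 0xa00001c) (nat_lit 0x5000020) (nat_lit 26) (nat_lit 1) (nat_lit 0x274018000000254019)))) (Tree.br (nat_lit 83) (Tree.tip (nat_lit 82) (Node.img (nat_lit 0x800001e) (nat_lit 0x30000001) (nat_lit 15) (nat_lit 5) (nat_lit 128) (nat_lit 129))) (Tree.tip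 (nat_lit 83) (Node.img (nat_lit 0x1e000000) (nat_lit 0x20000077) (nat_lit 18) (nat_lit 6) (nat_lit 134) (nat_lit 128))))) (Tree.br (nat_lit 86) (Tree.br (nat_lit 85) (Tree.tip (nat_lit 84) (Node.mv (nat_lit 0x800001c000000) (nat_lit 0x30000023000077) (nat_lit 25) (nat_lit 1) (nat_lit 0x534018000000524118))) (Tree.tip (nat_lit 85) (Node.mv (nat_lit 0x2000000000002000007000000) (nat_lit 0x2000000000000000005) (nat_lit 73) (nat_lit 1) (nat_lit 0x394019000000014018)))) (Tree.br (nat_lit 87) (Tree.tip (nat_lit 86) (Node.mv (nat_lit 0x800000e000000) (nat_lit 0x30000031000077) (nat_lit 28) (nat_lit 1) (nat_lit 0x534018000000524118))) (Tree.tip (nat_lit 87) (Node.img (nat_lit 0x2000003c000000) (nat_lit 0x10000002000007) (nat_lit 28) (nat_lit 4) (nat_lit 128) (nat_lit 128)))))) (Tree.br (nat_lit 92) (Tree.br (nat_lit 90) (Tree.br (nat_lit 89) (Tree.tip (nat_lit 88) (Node.img (nat_lit 0x1e000000) (nat_lit 0x7000020000007) (nat_lit 6) (nat_lit 4) (nat_lit 128) (nat_lit 128))) (Tree.tip (nat_lit 89) (Node.img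 (nat_lit 0x2000003c) (nat_lit 0x17000002) (nat_lit 29) (nat_lit 4) (nat_lit 128) (nat_lit 128)))) (Tree.br (nat_lit 91) (Tree.tip (nat_lit 90) (Node.mv (nat_lit 0x20000038000000) (nat_lit 0x1f00004600000f) (nat_lit 26) (nat_lit 2) (nat_lit 0x594118000000584019000000574018))) (Tree.tip (nat_lit 91) (Node.mv (nat_lit 0x3000002000002000000000000000000) (nat_lit 0x1000000000000000000000007000007000005) (nat_lit 49) (nat_lit 1) (nat_lit 0x540180000000e4218))))) (Tree.br (nat_lit 94) (Tree.br (nat_lit 93) (Tree.tip (nat_lit 92) (Node.mv (nat_lit 0x3000003000000000003000000) (nat_lit 0x1000000000003) (nat_lit 48) (nat_lit 1) (nat_lit 0x394018000000414018))) (Tree.tip (nat_lit 93) (Node.img (nat_lit 0x5000002000002000002000000) (nat_lit 0x5000000000000000002) (nat_lit 34) (nat_lit 4) (nat_lit 128) (nat_lit 128)))) (Tree.br (nat_lit 95) (Tree.tip (nat_lit 94) (Node.mv (nat_lit 0x7000002000002000000000000) (nat_lit 0x4000000000005000000000002000002) (nat_lit 25) (nat_lit 1) (nat_lit 0x5d4018000000314119)))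 (Tree.tip (nat_lit 95) (Node.img (nat_lit 0x1e000008) (nat_lit 0x1000030) (nat_lit 15) (nat_lit 4) (nat_lit 128) (nat_lit 128)))))))) (Tree.br (nat_lit 112) (Tree.br (nat_lit 104) (Tree.br (nat_lit 100) (Tree.br (nat_lit 98) (Tree.br (nat_lit 97) (Tree.tip (nat_lit 96) (Node.mv (nat_lit 0x1c000008) (nat_lit 0x7000023000037) (nat_lit 25) (nat_lit 1) (nat_lit 0x5840180000005f4018))) (Tree.tip (nat_lit 97) (Node.mv (nat_lit 0xf00000c000004) (nat_lit 0x8000018000000000000000000) (nat_lit 75) (nat_lit 1) (nat_lit 0x2a421800000044401a)))) (Tree.br (nat_lit 99) (Tree.tip (nat_lit 98) (Node.mv (nat_lit 0x1c000018000008) (nat_lit 0x10000030000003000000000000) (nat_lit 49) (nat_lit 1) (nat_lit 0x614019000000274118))) (Tree.tip (nat_lit 99) (Node.mv (nat_lit 0xc00000c000004000004) (nat_lit 0x2000003000030000000000000) (nat_lit 73) (nat_lit 1) (nat_lit 0x4d42180000000e4019))))) (Tree.br (nat_lit 102) (Tree.br (nat_lit 101) (Tree.tip (nat_lit 100) (Node.mv (nat_lit 0x400000c000004000004) (nat_lit 0xa00000b000030000000000000)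 (nat_lit 75) (nat_lit 1) (nat_lit 0x63401800000031401a))) (Tree.tip (nat_lit 101) (Node.mv (nat_lit 0x6000002000002000002000000) (nat_lit 0x2000000000004000005000005000007) (nat_lit 74) (nat_lit 1) (nat_lit 0x64018000000414019)))) (Tree.br (nat_lit 103) (Tree.tip (nat_lit 102) (Node.mv (nat_lit 0x6000002000002000000000000) (nat_lit 0x6000000000004000005000007000007) (nat_lit 25) (nat_lit 1) (nat_lit 0x654018000000314119))) (Tree.tip (nat_lit 103) (Node.img (nat_lit 0x1e000002) (nat_lit 1) (nat_lit 1) (nat_lit 4) (nat_lit 128) (nat_lit 128)))))) (Tree.br (nat_lit 108) (Tree.br (nat_lit 106) (Tree.br (nat_lit 105) (Tree.tip (nat_lit 104) (Node.mv (nat_lit 0x1c00000a) (nat_lit 0x3000031) (nat_lit 25) (nat_lit 1) (nat_lit 0x5f4018000000674018))) (Tree.tip (nat_lit 105) (Node.img (nat_lit 62) (nat_lit 0x7000000) (nat_lit 3) (nat_lit 5) (nat_lit 128) (nat_lit 129)))) (Tree.br (nat_lit 107) (Tree.tip (nat_lit 106) (Node.mv (nat_lit 0x3c000008) (nat_lit 0x7000003000030) (nat_lit 25) (nat_lit 1) (nat_lit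 0x6941180000005f4018))) (Tree.tip (nat_lit 107) (Node.img (nat_lit 0x1e000006000004) (nat_lit 0x2000003000000000000000000) (nat_lit 97) (nat_lit 1) (nat_lit 132) (nat_lit 128))))) (Tree.br (nat_lit 110) (Tree.br (nat_lit 109) (Tree.tip (nat_lit 108) (Node.mv (nat_lit 0x1e000004000004) (nat_lit 0x2000003000000000003000000) (nat_lit 25) (nat_lit 1) (nat_lit 0x6b4018000000674118))) (Tree.tip (nat_lit 109) (Node.mv (nat_lit 0x1e000004000004) (nat_lit 0x2000002000003000000000002000000) (nat_lit 73) (nat_lit 1) (nat_lit 0xc4019000000244218)))) (Tree.br (nat_lit 111) (Tree.tip (nat_lit 110) (Node.img (nat_lit 0x3e000000) (nat_lit 7) (nat_lit 3) (nat_lit 4) (nat_lit 128) (nat_lit 128))) (Tree.tip (nat_lit 111) (Node.mv (nat_lit 0x3c000008) (nat_lit 0x3000037) (nat_lit 25) (nat_lit 1) (nat_lit 0x5f40180000006e4018))))))) (Tree.br (nat_lit 120) (Tree.br (nat_lit 116) (Tree.br (nat_lit 114) (Tree.br (nat_lit 113) (Tree.tip (nat_lit 112) (Node.mv (nat_lit 0x38000008000008) (nat_lit 0x4000007000007000037000000)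 (nat_lit 50) (nat_lit 2) (nat_lit 0x6f41180000006a41180000006c4019))) (Tree.tip (nat_lit 113) (Node.img (nat_lit 0x38000008) (nat_lit 0x44000007) (nat_lit 26) (nat_lit 3) (nat_lit 134) (nat_lit 129)))) (Tree.br (nat_lit 115) (Tree.tip (nat_lit 114) (Node.img (nat_lit 0xe000002) (nat_lit 0x30000075) (nat_lit 53) (nat_lit 6) (nat_lit 134) (nat_lit 128))) (Tree.tip (nat_lit 115) (Node.img (nat_lit 0xe000002) (nat_lit 0x7800003100007c) (nat_lit 90) (nat_lit 3) (nat_lit 134) (nat_lit 130))))) (Tree.br (nat_lit 118) (Tree.br (nat_lit 117) (Tree.tip (nat_lit 116) (Node.mv (nat_lit 0x18000008000008) (nat_lit 0x40001e70000e70001f7000000) (nat_lit 53) (nat_lit 3) (nat_lit 0x70401800000073411a00000072411a000000714118))) (Tree.tip (nat_lit 117) (Node.img (nat_lit 0xf000004000004000000) (nat_lit 0x18000000000000000000000004) (nat_lit 64) (nat_lit 6) (nat_lit 132) (nat_lit 128)))) (Tree.br (nat_lit 119) (Tree.tip (nat_lit 118) (Node.mv (nat_lit 0x1c000008000008000000) (nat_lit 0x30000003000030000000000008) (nat_lit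 73) (nat_lit 1) (nat_lit 0x7540190000005f4218))) (Tree.tip (nat_lit 119) (Node.img (nat_lit 0x1f000000) (nat_lit 56) (nat_lit 3) (nat_lit 6) (nat_lit 133) (nat_lit 128)))))) (Tree.br (nat_lit 124) (Tree.br (nat_lit 122) (Tree.br (nat_lit 121) (Tree.tip (nat_lit 120) (Node.mv (nat_lit 0x1e000002000002000000) (nat_lit 0x5000001000038000000000002) (nat_lit 72) (nat_lit 1) (nat_lit 0x774218000000334018))) (Tree.tip (nat_lit 121) (Node.img (nat_lit 31) (nat_lit 0x38000000) (nat_lit 3) (nat_lit 7) (nat_lit 133) (nat_lit 129)))) (Tree.br (nat_lit 123) (Tree.tip (nat_lit 122) (Node.mv (nat_lit 0x1e000002000002000000) (nat_lit 0x3d000001000000000000000002) (nat_lit 72) (nat_lit 1) (nat_lit 0x794318000000334018))) (Tree.tip (nat_lit 123) (Node.img (nat_lit 0x1e000000) (nat_lit 0x38000001000038) (nat_lit 6) (nat_lit 6) (nat_lit 133) (nat_lit 128))))) (Tree.br (nat_lit 126) (Tree.br (nat_lit 125) (Tree.tip (nat_lit 124) (Node.img (nat_lit 0xf000000) (nat_lit 0x38000010000038) (nat_lit 5) (nat_lit 6) (nat_lit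 133) (nat_lit 128))) (Tree.tip (nat_lit 125) (Node.mv (nat_lit 0xe000002000002000000) (nat_lit 0x7d000031000078000000000002) (nat_lit 76) (nat_lit 3) (nat_lit 0x7a40180000007840180000007c42190000007b4218)))) (Tree.br (nat_lit 127) (Tree.tip (nat_lit 126) (Node.img (nat_lit 0x3000001000001000000) (nat_lit 0x2000002000002000000000002000000000001) (nat_lit 13) (nat_lit 1) (nat_lit 129) (nat_lit 128))) (Tree.tip (nat_lit 127) (Node.mv (nat_lit 0x7000001000001000000) (nat_lit 0x200000200003a00001800003a000000000001) (nat_lit 75) (nat_lit 1) (nat_lit 0x7c42180000007e4018))))))))))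
noncomputable def t0_1 : Tree := (Tree.br (nat_lit 192) (Tree.br (nat_lit 160) (Tree.br (nat_lit 144) (Tree.br (nat_lit 136) (Tree.br (nat_lit 132) (Tree.br (nat_lit 130) (Tree.br (nat_lit 129) (Tree.tip (nat_lit 128) (Node.img (nat_lit 0x7000003000002000000000000) (nat_lit 0x4000000000000000000000002000002) (nat_lit 43) (nat_lit 4) (nat_lit 128) (nat_lit 128))) (Tree.tip (nat_lit 129) (Node.mv (nat_lit 0x1e000004000004000000000000) (nat_lit 0x8000000000003000000000004000004) (nat_lit 73) (nat_lit 1) (nat_lit 0x804019000000674318)))) (Tree.br (nat_lit 131) (Tree.tip (nat_lit 130) (Node.mv (nat_lit 0x1c000004000004000000000000) (nat_lit 0x200000b000002000003000000000004000004) (nat_lit 97) (nat_lit 2) (nat_lit 0x8140180000006c4218000000334119))) (Tree.tip (nat_lit 131) (Node.img (nat_lit 0xe000002) (nat_lit 0x70000030000071) (nat_lit 91) (nat_lit 6) (nat_lit 134) (nat_lit 128))))) (Tree.br (nat_lit 134) (Tree.br (nat_lit 133) (Tree.tip (nat_lit 132) (Node.mv (nat_lit 0xc000004000004000000000000)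 (nat_lit 0x20000fb0000720000f3000000000004000004) (nat_lit 100) (nat_lit 2) (nat_lit 0x7d4119000000824018000000834319))) (Tree.tip (nat_lit 133) (Node.mv (nat_lit 0x6000002000002000000000000000000) (nat_lit 0x74000038000075000000000003000003000001) (nat_lit 123) (nat_lit 2) (nat_lit 0x834418000000364018000000724418)))) (Tree.br (nat_lit 135) (Tree.tip (nat_lit 134) (Node.mv (nat_lit 0x400001e000004000004) (nat_lit 0x2000003000000000000000000) (nat_lit 73) (nat_lit 1) (nat_lit 0x2442180000000e4019))) (Tree.tip (nat_lit 135) (Node.img (nat_lit 0x1000003000002000002) (nat_lit 0x1000001000002000000000000000000) (nat_lit 25) (nat_lit 6) (nat_lit 129) (nat_lit 128)))))) (Tree.br (nat_lit 140) (Tree.br (nat_lit 138) (Tree.br (nat_lit 137) (Tree.tip (nat_lit 136) (Node.mv (nat_lit 0x1e000004000004) (nat_lit 0x2000002000007000000000000000000) (nat_lit 73) (nat_lit 1) (nat_lit 0x874019000000244218))) (Tree.tip (nat_lit 137) (Node.img (nat_lit 0x1800001c) (nat_lit 0x20000003) (nat_lit 38) (nat_lit 1) (nat_lit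 133) (nat_lit 128)))) (Tree.br (nat_lit 139) (Tree.tip (nat_lit 138) (Node.mv (nat_lit 0x800001c000008000008) (nat_lit 0x10000030000003000000000000) (nat_lit 76) (nat_lit 1) (nat_lit 0x89421800000031401b))) (Tree.tip (nat_lit 139) (Node.img (nat_lit 0x400000e000004000004) (nat_lit 0x2000003000030000000000000) (nat_lit 138) (nat_lit 1) (nat_lit 133) (nat_lit 128))))) (Tree.br (nat_lit 142) (Tree.br (nat_lit 141) (Tree.tip (nat_lit 140) (Node.mv (nat_lit 0x8000018000008000008) (nat_lit 0x14000036000067000000000000) (nat_lit 50) (nat_lit 1) (nat_lit 0x8b40190000008a4018))) (Tree.tip (nat_lit 141) (Node.img (nat_lit 0x1000001000003000001000000) (nat_lit 0x1000000000000000000000002000002) (nat_lit 15) (nat_lit 3) (nat_lit 129) (nat_lit 133)))) (Tree.br (nat_lit 143) (Tree.tip (nat_lit 142) (Node.mv (nat_lit 0x400000e000004000004000000) (nat_lit 0x4000000000001000038000008000008) (nat_lit 51) (nat_lit 1) (nat_lit 0x4d42180000008d401a))) (Tree.tip (nat_lit 143) (Node.mv (nat_lit 0x400000c000004000004000000)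 (nat_lit 0x6000003000033000038000008000008) (nat_lit 73) (nat_lit 1) (nat_lit 0x8e40180000008b4118))))))) (Tree.br (nat_lit 152) (Tree.br (nat_lit 148) (Tree.br (nat_lit 146) (Tree.br (nat_lit 145) (Tree.tip (nat_lit 144) (Node.img (nat_lit 0x2000002000002000002000000) (nat_lit 0x1000003000001000000000004000004000004) (nat_lit 17) (nat_lit 3) (nat_lit 130) (nat_lit 134))) (Tree.tip (nat_lit 145) (Node.mv (nat_lit 0x2000002000002000002000000) (nat_lit 0x1000007000005000000000004000004000004) (nat_lit 98) (nat_lit 1) (nat_lit 0x904018000000314119)))) (Tree.br (nat_lit 147) (Tree.tip (nat_lit 146) (Node.mv (nat_lit 0x2000006000006000002000000000000) (nat_lit 0x1000003000003) (nat_lit 25) (nat_lit 1) (nat_lit 0x34018000000414019))) (Tree.tip (nat_lit 147) (Node.mv (nat_lit 0x2000006000002000002000000000000) (nat_lit 0x2000000000000000004000005000007000003) (nat_lit 74) (nat_lit 1) (nat_lit 0x9240180000008d4119))))) (Tree.br (nat_lit 150) (Tree.br (nat_lit 149) (Tree.tip (nat_lit 148) (Node.img (nat_lit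 0x1000006000006000002000000000000) (nat_lit 0x1000000000000000002000002) (nat_lit 69) (nat_lit 3) (nat_lit 130) (nat_lit 133))) (Tree.tip (nat_lit 149) (Node.mv (nat_lit 0x2000006000006000002000000000000) (nat_lit 0x1000001000001000000000000000002000002) (nat_lit 120) (nat_lit 1) (nat_lit 0x9440180000000e4218)))) (Tree.br (nat_lit 151) (Tree.tip (nat_lit 150) (Node.mv (nat_lit 0x2000002000003000002) (nat_lit 0x1000003000001000000000000000001) (nat_lit 97) (nat_lit 1) (nat_lit 0x104018000000014018))) (Tree.tip (nat_lit 151) (Node.mv (nat_lit 0x2000002000002000002000000000000) (nat_lit 0x1000001000000000000000005000007000005) (nat_lit 120) (nat_lit 1) (nat_lit 0x540180000000e4218)))))) (Tree.br (nat_lit 156) (Tree.br (nat_lit 154) (Tree.br (nat_lit 153) (Tree.tip (nat_lit 152) (Node.mv (nat_lit 0x600000c000004000004) (nat_lit 0x8000009000030000000000000) (nat_lit 75) (nat_lit 1) (nat_lit 0x4d421800000031401a))) (Tree.tip (nat_lit 153) (Node.img (nat_lit 0x1000003000001000001000000) (nat_lit 0x2000002000000000000000000000001)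 (nat_lit 15) (nat_lit 1) (nat_lit 129) (nat_lit 128)))) (Tree.br (nat_lit 155) (Tree.tip (nat_lit 154) (Node.mv (nat_lit 0xc000004000004000000000000) (nat_lit 0xa00000f00003000000000000a00000e00000a) (nat_lit 122) (nat_lit 2) (nat_lit 0x64421800000097401900000099411a))) (Tree.tip (nat_lit 155) (Node.mv (nat_lit 0x2000002000002000002000000) (nat_lit 0x3000001000000000005000005000005) (nat_lit 96) (nat_lit 1) (nat_lit 0x640180000000e4118))))) (Tree.br (nat_lit 158) (Tree.br (nat_lit 157) (Tree.tip (nat_lit 156) (Node.img (nat_lit 0x1000001000001000001000000) (nat_lit 0x2000003000002000000000002000002000002) (nat_lit 18) (nat_lit 3) (nat_lit 129) (nat_lit 134))) (Tree.tip (nat_lit 157) (Node.mv (nat_lit 0x2000002000002000002000000) (nat_lit 0x4000006000004000000000004000005000005) (nat_lit 0) (nat_lit 1) (nat_lit 0x9c4019000000024018)))) (Tree.br (nat_lit 159) (Tree.tip (nat_lit 158) (Node.mv (nat_lit 0x1000003000003000001000000000000) (nat_lit 0x2000003000003) (nat_lit 25) (nat_lit 1) (nat_lit 0x424018000000434118)))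 (Tree.tip (nat_lit 159) (Node.img (nat_lit 0x2000006000006000002) (nat_lit 0x3000003000001000000000000000000) (nat_lit 146) (nat_lit 2) (nat_lit 128) (nat_lit 133)))))))) (Tree.br (nat_lit 176) (Tree.br (nat_lit 168) (Tree.br (nat_lit 164) (Tree.br (nat_lit 162) (Tree.br (nat_lit 161) (Tree.tip (nat_lit 160) (Node.mv (nat_lit 0x2000006000002000002000000000000) (nat_lit 0x3000003000001000000000004000004000006000006) (nat_lit 74) (nat_lit 2) (nat_lit 0x9e40190000009f42180000008d4119))) (Tree.tip (nat_lit 161) (Node.mv (nat_lit 0x6000002000002000000000000) (nat_lit 0x3000007000007000000000004000004000006000006) (nat_lit 121) (nat_lit 2) (nat_lit 0x914118000000a04018000000994119)))) (Tree.br (nat_lit 163) (Tree.tip (nat_lit 162) (Node.mv (nat_lit 0x2000002000002000005000000) (nat_lit 0x2000005) (nat_lit 25) (nat_lit 1) (nat_lit 0x394019000000014018))) (Tree.tip (nat_lit 163) (Node.mv (nat_lit 0x2000002000002000002000001000000) (nat_lit 0x4000006000005) (nat_lit 26) (nat_lit 1) (nat_lit 0xa24018000000434119)))))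 (Tree.br (nat_lit 166) (Tree.br (nat_lit 165) (Tree.tip (nat_lit 164) (Node.img (nat_lit 0x2000006000006000002000000) (nat_lit 0x2000002000000000000000001000001000001) (nat_lit 149) (nat_lit 2) (nat_lit 128) (nat_lit 134))) (Tree.tip (nat_lit 165) (Node.mv (nat_lit 0x2000006000002000002000000000000) (nat_lit 0x3000003000001000000000005000001000003000003) (nat_lit 74) (nat_lit 2) (nat_lit 0x9240180000009f4218000000a44118)))) (Tree.br (nat_lit 167) (Tree.tip (nat_lit 166) (Node.mv (nat_lit 0x2000002000002000002000000) (nat_lit 0x1000003000001000000000004000005000005) (nat_lit 0) (nat_lit 1) (nat_lit 0x904018000000024018))) (Tree.tip (nat_lit 167) (Node.mv (nat_lit 0x6000002000002000000000000) (nat_lit 0x3000003000003000000000005000005000007000007) (nat_lit 121) (nat_lit 3) (nat_lit 0xa54018000000a04018000000a64118000000054018)))))) (Tree.br (nat_lit 172) (Tree.br (nat_lit 170) (Tree.br (nat_lit 169) (Tree.tip (nat_lit 168) (Node.img (nat_lit 0x1800000c) (nat_lit 0x64000003) (nat_lit 31) (nat_lit 3)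 (nat_lit 134) (nat_lit 129))) (Tree.tip (nat_lit 169) (Node.mv (nat_lit 0x800000800000800000c000000) (nat_lit 0x8000000000000000074000013000010) (nat_lit 52) (nat_lit 1) (nat_lit 0xa841180000008d401b)))) (Tree.br (nat_lit 171) (Tree.tip (nat_lit 170) (Node.mv (nat_lit 0x8000008000008000008000000) (nat_lit 0x8000000000000000074000017000014) (nat_lit 26) (nat_lit 1) (nat_lit 0xa9401800000001401a))) (Tree.tip (nat_lit 171) (Node.mv (nat_lit 0x4000004000006000006000000) (nat_lit 0x1000038000008) (nat_lit 27) (nat_lit 1) (nat_lit 0x26411800000039401a))))) (Tree.br (nat_lit 174) (Tree.br (nat_lit 173) (Tree.tip (nat_lit 172) (Node.mv (nat_lit 0x4000004000004000006000000) (nat_lit 0x4000000000000000003000038000008) (nat_lit 49) (nat_lit 1) (nat_lit 0xab4018000000444119))) (Tree.tip (nat_lit 173) (Node.mv (nat_lit 0x4000004000004000004000000) (nat_lit 0x400000000000000000300003a00000a) (nat_lit 25) (nat_lit 1) (nat_lit 0xac4018000000014019)))) (Tree.br (nat_lit 175) (Tree.tip (nat_lit 174) (Node.mv (nat_lit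 0x1000002000002000002000002000000) (nat_lit 0x1000002000000000000000001000001000001) (nat_lit 121) (nat_lit 1) (nat_lit 0x340180000000e4218))) (Tree.tip (nat_lit 175) (Node.mv (nat_lit 0xc000007000004000004) (nat_lit 0x2000012000000000000000000) (nat_lit 73) (nat_lit 1) (nat_lit 0x1842180000000e4019))))))) (Tree.br (nat_lit 184) (Tree.br (nat_lit 180) (Tree.br (nat_lit 178) (Tree.br (nat_lit 177) (Tree.tip (nat_lit 176) (Node.img (nat_lit 0x1e000004) (nat_lit 0x20000003) (nat_lit 15) (nat_lit 6) (nat_lit 133) (nat_lit 128))) (Tree.tip (nat_lit 177) (Node.mv (nat_lit 0x1c000004000004000004) (nat_lit 0x2000022000003000000000000) (nat_lit 73) (nat_lit 1) (nat_lit 0xb042180000000e4019)))) (Tree.br (nat_lit 179) (Tree.tip (nat_lit 178) (Node.mv (nat_lit 0x800000800001800000c000000) (nat_lit 0x20000013000010) (nat_lit 28) (nat_lit 1) (nat_lit 0x89411800000039401b))) (Tree.tip (nat_lit 179) (Node.img (nat_lit 0xc000018) (nat_lit 0x13000060) (nat_lit 31) (nat_lit 2) (nat_lit 128) (nat_lit 129))))) (Tree.br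 (nat_lit 182) (Tree.br (nat_lit 181) (Tree.tip (nat_lit 180) (Node.mv (nat_lit 0x800000800000c000008000000) (nat_lit 0x13000070000010) (nat_lit 28) (nat_lit 1) (nat_lit 0xb3411800000039401b))) (Tree.tip (nat_lit 181) (Node.mv (nat_lit 0x800000800001c000008000000) (nat_lit 0x20000007000004) (nat_lit 26) (nat_lit 1) (nat_lit 0x23411800000001401a)))) (Tree.br (nat_lit 183) (Tree.tip (nat_lit 182) (Node.mv (nat_lit 0x100000e000002000002) (nat_lit 0x1000002000010000000000000) (nat_lit 73) (nat_lit 1) (nat_lit 0x2542180000000e4018))) (Tree.tip (nat_lit 183) (Node.img (nat_lit 0x1000003000003000000000000) (nat_lit 0x1000000000000000000000002000002) (nat_lit 35) (nat_lit 6) (nat_lit 129) (nat_lit 128)))))) (Tree.br (nat_lit 188) (Tree.br (nat_lit 186) (Tree.br (nat_lit 185) (Tree.tip (nat_lit 184) (Node.img (nat_lit 0x4000006000006000000) (nat_lit 0x4000004000000000001000038000008) (nat_lit 72) (nat_lit 6) (nat_lit 133) (nat_lit 128))) (Tree.tip (nat_lit 185) (Node.mv (nat_lit 0x6000006000002000000000000)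 (nat_lit 0x400000600000000000100003c00000c000004) (nat_lit 50) (nat_lit 1) (nat_lit 0xb84118000000b74019)))) (Tree.br (nat_lit 187) (Tree.tip (nat_lit 186) (Node.mv (nat_lit 0x2000001000001000003000000) (nat_lit 0x2000001000000000000000000000002) (nat_lit 96) (nat_lit 1) (nat_lit 0x314118000000394018))) (Tree.tip (nat_lit 187) (Node.img (nat_lit 0x3800000c) (nat_lit 19) (nat_lit 12) (nat_lit 6) (nat_lit 133) (nat_lit 128))))) (Tree.br (nat_lit 190) (Tree.br (nat_lit 189) (Tree.tip (nat_lit 188) (Node.mv (nat_lit 0x2800000c) (nat_lit 0x50000013) (nat_lit 28) (nat_lit 1) (nat_lit 0xbb401800000018401a))) (Tree.tip (nat_lit 189) (Node.mv (nat_lit 0x12000016) (nat_lit 0x21000008) (nat_lit 3) (nat_lit 1) (nat_lit 0x2a4019000000244018)))) (Tree.br (nat_lit 191) (Tree.tip (nat_lit 190) (Node.img (nat_lit 0xb00000b) (nat_lit 0x14000010) (nat_lit 92) (nat_lit 7) (nat_lit 132) (nat_lit 129))) (Tree.tip (nat_lit 191) (Node.img (nat_lit 0x6000016) (nat_lit 0x1000028) (nat_lit 41) (nat_lit 3) (nat_lit 133) (nat_lit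 129))))))))) (Tree.br (nat_lit 224) (Tree.br (nat_lit 208) (Tree.br (nat_lit 200) (Tree.br (nat_lit 196) (Tree.br (nat_lit 194) (Tree.br (nat_lit 193) (Tree.tip (nat_lit 192) (Node.mv (nat_lit 0x16000006) (nat_lit 0x29000038) (nat_lit 4) (nat_lit 2) (nat_lit 0xbf4018000000be4019000000bd4018))) (Tree.tip (nat_lit 193) (Node.mv (nat_lit 0x800000d00000e) (nat_lit 0x10000002000010) (nat_lit 25) (nat_lit 1) (nat_lit 0x2a4118000000254018)))) (Tree.br (nat_lit 195) (Tree.tip (nat_lit 194) (Node.img (nat_lit 0x1a00001c) (nat_lit 0x1000003) (nat_lit 66) (nat_lit 4) (nat_lit 128) (nat_lit 128))) (Tree.tip (nat_lit 195) (Node.mv (nat_lit 0x1000001800001c) (nat_lit 0x20000007000023) (nat_lit 25) (nat_lit 2) (nat_lit 0xc14019000000c24018000000514018))))) (Tree.br (nat_lit 198) (Tree.br (nat_lit 197) (Tree.tip (nat_lit 196) (Node.img (nat_lit 0x1a000003) (nat_lit 0x4000000) (nat_lit 75) (nat_lit 3) (nat_lit 132) (nat_lit 129))) (Tree.tip (nat_lit 197) (Node.mv (nat_lit 0xa00000b) (nat_lit 0x14000004) (nat_lit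 28) (nat_lit 1) (nat_lit 0xc440180000004b4018)))) (Tree.br (nat_lit 199) (Tree.tip (nat_lit 198) (Node.mv (nat_lit 0x400000e000006000000000000) (nat_lit 0x4000000000001000038000008000008) (nat_lit 51) (nat_lit 1) (nat_lit 0x264218000000b7401a))) (Tree.tip (nat_lit 199) (Node.img (nat_lit 0x400001e) (nat_lit 0x3000020) (nat_lit 15) (nat_lit 7) (nat_lit 133) (nat_lit 129)))))) (Tree.br (nat_lit 204) (Tree.br (nat_lit 202) (Tree.br (nat_lit 201) (Tree.tip (nat_lit 200) (Node.img (nat_lit 0x400000400000f000000) (nat_lit 0x4000000000000000000000018) (nat_lit 64) (nat_lit 7) (nat_lit 132) (nat_lit 132))) (Tree.tip (nat_lit 201) (Node.mv (nat_lit 0x800000c00000e000000) (nat_lit 0x8000000000003000030000030) (nat_lit 28) (nat_lit 1) (nat_lit 0xc84019000000c74118)))) (Tree.br (nat_lit 203) (Tree.tip (nat_lit 202) (Node.mv (nat_lit 0x1400001c) (nat_lit 0x23000022) (nat_lit 1) (nat_lit 1) (nat_lit 0xc740180000002a4019))) (Tree.tip (nat_lit 203) (Node.mv (nat_lit 0x10000014000018000000000000) (nat_lit 0x1000002000000b000000000008000008)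 (nat_lit 75) (nat_lit 1) (nat_lit 0x2b421800000037401b))))) (Tree.br (nat_lit 206) (Tree.br (nat_lit 205) (Tree.tip (nat_lit 204) (Node.mv (nat_lit 0x800000800000800001c) (nat_lit 0x8000000000000000030000003) (nat_lit 28) (nat_lit 1) (nat_lit 0x8940180000000b401b))) (Tree.tip (nat_lit 205) (Node.mv (nat_lit 0x800000800000800000c000000) (nat_lit 0x8000000000000000030000013000010) (nat_lit 28) (nat_lit 1) (nat_lit 0xcc411800000039401b)))) (Tree.br (nat_lit 207) (Tree.tip (nat_lit 206) (Node.mv (nat_lit 0x800000800000c000000) (nat_lit 0x8000008000000000030000013000014) (nat_lit 99) (nat_lit 1) (nat_lit 0xcd401800000001401a))) (Tree.tip (nat_lit 207) (Node.mv (nat_lit 0x400000400000c000007000000) (nat_lit 0x10000008000008) (nat_lit 27) (nat_lit 1) (nat_lit 0x2a411800000039401a))))))) (Tree.br (nat_lit 216) (Tree.br (nat_lit 212) (Tree.br (nat_lit 210) (Tree.br (nat_lit 209) (Tree.tip (nat_lit 208) (Node.mv (nat_lit 0x800000800001c000000000000) (nat_lit 0x8000000000030000003000010000010) (nat_lit 76)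 (nat_lit 1) (nat_lit 0x894218000000b7401b))) (Tree.tip (nat_lit 209) (Node.mv (nat_lit 0x400000400000500000e) (nat_lit 0x4000000000000000002000010) (nat_lit 25) (nat_lit 1) (nat_lit 0x444019000000254018)))) (Tree.br (nat_lit 211) (Tree.tip (nat_lit 210) (Node.img (nat_lit 0x800000800000800000e000000) (nat_lit 0x30000011000010) (nat_lit 177) (nat_lit 3) (nat_lit 133) (nat_lit 132))) (Tree.tip (nat_lit 211) (Node.img (nat_lit 0x2000002000002000002) (nat_lit 0x5000007000005000000000000000000) (nat_lit 5) (nat_lit 2) (nat_lit 128) (nat_lit 133))))) (Tree.br (nat_lit 214) (Tree.br (nat_lit 213) (Tree.tip (nat_lit 212) (Node.mv (nat_lit 0x800000800000e000000) (nat_lit 0x1400001c00001c000000000030000011000010) (nat_lit 99) (nat_lit 1) (nat_lit 0xd3411a000000d24018))) (Tree.tip (nat_lit 213) (Node.mv (nat_lit 0x1000001000001e000000) (nat_lit 0x10000000000000000020000067) (nat_lit 29) (nat_lit 1) (nat_lit 0xc8401a0000006e4018)))) (Tree.br (nat_lit 215) (Tree.tip (nat_lit 214) (Node.mv (nat_lit 0x20000020000038000000)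 (nat_lit 0x200000000000170000460000cf) (nat_lit 26) (nat_lit 2) (nat_lit 0xd54019000000594118000000574018))) (Tree.tip (nat_lit 215) (Node.img (nat_lit 30) (nat_lit 0x77000020) (nat_lit 18) (nat_lit 7) (nat_lit 134) (nat_lit 129)))))) (Tree.br (nat_lit 220) (Tree.br (nat_lit 218) (Tree.br (nat_lit 217) (Tree.tip (nat_lit 216) (Node.mv (nat_lit 0x800000800000e000000) (nat_lit 0x8000000000077000030000030) (nat_lit 28) (nat_lit 1) (nat_lit 0xd74118000000c84019))) (Tree.tip (nat_lit 217) (Node.img (nat_lit 0x20000038000000) (nat_lit 0x50000006000007) (nat_lit 54) (nat_lit 4) (nat_lit 128) (nat_lit 128)))) (Tree.br (nat_lit 219) (Tree.tip (nat_lit 218) (Node.mv (nat_lit 0x20000020000030000000) (nat_lit 0x500000700000700000000001df0000ce0000cf) (nat_lit 27) (nat_lit 3) (nat_lit 0xd64018000000d4401a000000d8401a000000d94018))) (Tree.tip (nat_lit 219) (Node.img (nat_lit 0x3c000000) (nat_lit 0x7000002000007) (nat_lit 5) (nat_lit 4) (nat_lit 128) (nat_lit 128))))) (Tree.br (nat_lit 222) (Tree.br (nat_lit 221)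 (Tree.tip (nat_lit 220) (Node.img (nat_lit 0x1e000000) (nat_lit 0x7000020000070) (nat_lit 17) (nat_lit 7) (nat_lit 134) (nat_lit 130))) (Tree.tip (nat_lit 221) (Node.mv (nat_lit 0x1c000000) (nat_lit 0xf0000620000ef) (nat_lit 29) (nat_lit 2) (nat_lit 0xdc4019000000db4018000000534019)))) (Tree.br (nat_lit 223) (Tree.tip (nat_lit 222) (Node.img (nat_lit 0x400000400000f000000000000) (nat_lit 0x18000000000018000008) (nat_lit 108) (nat_lit 3) (nat_lit 132) (nat_lit 132))) (Tree.tip (nat_lit 223) (Node.mv (nat_lit 0x800000800000e000000000000) (nat_lit 0x37000030000037000010) (nat_lit 52) (nat_lit 1) (nat_lit 0x584118000000de4019)))))))) (Tree.br (nat_lit 240) (Tree.br (nat_lit 232) (Tree.br (nat_lit 228) (Tree.br (nat_lit 226) (Tree.br (nat_lit 225) (Tree.tip (nat_lit 224) (Node.mv (nat_lit 0x800000e000000) (nat_lit 0x37000031000070) (nat_lit 28) (nat_lit 1) (nat_lit 0xdc4018000000524118))) (Tree.tip (nat_lit 225) (Node.mv (nat_lit 0x20000020000030000000000000) (nat_lit 0xde0000ce0001df000040) (nat_lit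 51) (nat_lit 4) (nat_lit 0xdf401a000000e0411a000000dd411900000056411a000000d94118)))) (Tree.br (nat_lit 227) (Tree.tip (nat_lit 226) (Node.img (nat_lit 0x2000002000003000000) (nat_lit 0x1000003000003000000000001000000000001) (nat_lit 53) (nat_lit 2) (nat_lit 128) (nat_lit 134))) (Tree.tip (nat_lit 227) (Node.mv (nat_lit 0x20000030000000000000) (nat_lit 0x500000700000700000200001df0000ce0001df000040) (nat_lit 101) (nat_lit 3) (nat_lit 0xda4118000000ce411a000000e14018000000e2411c))))) (Tree.br (nat_lit 230) (Tree.br (nat_lit 229) (Tree.tip (nat_lit 228) (Node.mv (nat_lit 0x2800000e) (nat_lit 0x14000001) (nat_lit 28) (nat_lit 1) (nat_lit 0x144019000000164018))) (Tree.tip (nat_lit 229) (Node.img (nat_lit 0xc000038) (nat_lit 0x13000000) (nat_lit 12) (nat_lit 7) (nat_lit 133) (nat_lit 129)))) (Tree.br (nat_lit 231) (Tree.tip (nat_lit 230) (Node.mv (nat_lit 0xc00001800000c) (nat_lit 0x13000060000000) (nat_lit 29) (nat_lit 1) (nat_lit 0xe5411800000018401a))) (Tree.tip (nat_lit 231) (Node.mv (nat_lit 0xe000014000006)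 (nat_lit 0x1000028000000) (nat_lit 27) (nat_lit 1) (nat_lit 0x274118000000184019)))))) (Tree.br (nat_lit 236) (Tree.br (nat_lit 234) (Tree.br (nat_lit 233) (Tree.tip (nat_lit 232) (Node.mv (nat_lit 0xe00000c000006) (nat_lit 0x1000030000000) (nat_lit 28) (nat_lit 1) (nat_lit 0x274118000000184019))) (Tree.tip (nat_lit 233) (Node.mv (nat_lit 0x6000000000002000003000000) (nat_lit 0x4000000000002000000000000000001) (nat_lit 73) (nat_lit 1) (nat_lit 0x314119000000014018)))) (Tree.br (nat_lit 235) (Tree.tip (nat_lit 234) (Node.img (nat_lit 0x2000002000002000002000000) (nat_lit 0x1000003000001000000000001000001000001) (nat_lit 18) (nat_lit 2) (nat_lit 128) (nat_lit 134))) (Tree.tip (nat_lit 235) (Node.mv (nat_lit 0x6000006000002000000000000) (nat_lit 0x1000003000001000000000001000003000003) (nat_lit 25) (nat_lit 1) (nat_lit 0xea4018000000414019))))) (Tree.br (nat_lit 238) (Tree.br (nat_lit 237) (Tree.tip (nat_lit 236) (Node.img (nat_lit 0x3c000018) (nat_lit 0x7000003000000) (nat_lit 146) (nat_lit 5) (nat_lit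 128) (nat_lit 130))) (Tree.tip (nat_lit 237) (Node.mv (nat_lit 0x1c000018) (nat_lit 0x7000063000006) (nat_lit 29) (nat_lit 1) (nat_lit 0xec4018000000234019)))) (Tree.br (nat_lit 239) (Tree.tip (nat_lit 238) (Node.img (nat_lit 0x100000e000006) (nat_lit 0x2000030000000) (nat_lit 69) (nat_lit 4) (nat_lit 128) (nat_lit 128))) (Tree.tip (nat_lit 239) (Node.mv (nat_lit 0x200000e00000c) (nat_lit 0x5000070000000) (nat_lit 28) (nat_lit 1) (nat_lit 0xee4019000000244118))))))) (Tree.br (nat_lit 248) (Tree.br (nat_lit 244) (Tree.br (nat_lit 242) (Tree.br (nat_lit 241) (Tree.tip (nat_lit 240) (Node.mv (nat_lit 0x200001c000018) (nat_lit 0x1000003000000) (nat_lit 25) (nat_lit 1) (nat_lit 0x244118000000274018))) (Tree.tip (nat_lit 241) (Node.img (nat_lit 0x1800000d) (nat_lit 2) (nat_lit 45) (nat_lit 2) (nat_lit 128) (nat_lit 129)))) (Tree.br (nat_lit 243) (Tree.tip (nat_lit 242) (Node.mv (nat_lit 0x3e000018) (nat_lit 7) (nat_lit 1) (nat_lit 1) (nat_lit 0xf14019000000674018))) (Tree.tip (nat_lit 243) (Node.img (nat_lit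 0xe000006) (nat_lit 0x30000001) (nat_lit 38) (nat_lit 2) (nat_lit 128) (nat_lit 129))))) (Tree.br (nat_lit 246) (Tree.br (nat_lit 245) (Tree.tip (nat_lit 244) (Node.mv (nat_lit 0x1e000018) (nat_lit 0x70000e0000004) (nat_lit 29) (nat_lit 1) (nat_lit 0x694118000000f3401a))) (Tree.tip (nat_lit 245) (Node.mv (nat_lit 0x1c000018) (nat_lit 0x70000e3000004) (nat_lit 25) (nat_lit 1) (nat_lit 0xf44018000000274018)))) (Tree.br (nat_lit 247) (Tree.tip (nat_lit 246) (Node.mv (nat_lit 0x2000001c000002) (nat_lit 0x10000002000001) (nat_lit 25) (nat_lit 1) (nat_lit 0x214119000000674018))) (Tree.tip (nat_lit 247) (Node.img (nat_lit 0x5000002000002000002) (nat_lit 0x5000002000000000000000000) (nat_lit 162) (nat_lit 2) (nat_lit 128) (nat_lit 132)))))) (Tree.br (nat_lit 252) (Tree.br (nat_lit 250) (Tree.br (nat_lit 249) (Tree.tip (nat_lit 248) (Node.mv (nat_lit 0x5000003000002000000000000) (nat_lit 0x5000002000000000000000002000002) (nat_lit 25) (nat_lit 1) (nat_lit 0xf74118000000084018))) (Tree.tip (nat_lit 249) (Node.mv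 (nat_lit 0x3a000000) (nat_lit 0x7000004000007) (nat_lit 26) (nat_lit 1) (nat_lit 0x6941180000006e4018)))) (Tree.br (nat_lit 251) (Tree.tip (nat_lit 250) (Node.mv (nat_lit 0x800003c000000) (nat_lit 0x30000003000070) (nat_lit 25) (nat_lit 1) (nat_lit 0x524118000000774019))) (Tree.tip (nat_lit 251) (Node.img (nat_lit 0x700000c) (nat_lit 0x8000030) (nat_lit 25) (nat_lit 2) (nat_lit 128) (nat_lit 129))))) (Tree.br (nat_lit 254) (Tree.br (nat_lit 253) (Tree.tip (nat_lit 252) (Node.mv (nat_lit 0xa000018) (nat_lit 0x15000060) (nat_lit 26) (nat_lit 1) (nat_lit 0xfb4019000000274018))) (Tree.tip (nat_lit 253) (Node.img (nat_lit 0x1000002000003000003) (nat_lit 0x3000002000000000000000000) (nat_lit 66) (nat_lit 3) (nat_lit 129) (nat_lit 132)))) (Tree.br (nat_lit 255) (Tree.tip (nat_lit 254) (Node.mv (nat_lit 0x800000000001c000018) (nat_lit 0x18000010000030000003000000) (nat_lit 52) (nat_lit 1) (nat_lit 0xfd401b0000002b4018))) (Tree.tip (nat_lit 255) (Node.img (nat_lit 0x2000003000001000001) (nat_lit 0x2000001000000000002000000)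 (nat_lit 21) (nat_lit 4) (nat_lit 128) (nat_lit 128))))))))))
noncomputable def t0_2 : Tree := (Tree.br (nat_lit 320) (Tree.br (nat_lit 288) (Tree.br (nat_lit 272) (Tree.br (nat_lit 264) (Tree.br (nat_lit 260) (Tree.br (nat_lit 258) (Tree.br (nat_lit 257) (Tree.tip (nat_lit 256) (Node.mv (nat_lit 0x5000007000002000000000000) (nat_lit 0x4000002000000000004000002000002) (nat_lit 25) (nat_lit 1) (nat_lit 0xff4119000000084018))) (Tree.tip (nat_lit 257) (Node.img (nat_lit 0x700000c) (nat_lit 50) (nat_lit 12) (nat_lit 4) (nat_lit 128) (nat_lit 128)))) (Tree.br (nat_lit 259) (Tree.tip (nat_lit 258) (Node.mv (nat_lit 0x4000007000004000000) (nat_lit 0x400000400000000000800003a00000a) (nat_lit 27) (nat_lit 2) (nat_lit 0xfb41180000003b4019000001014118))) (Tree.tip (nat_lit 259) (Node.mv (nat_lit 0x1000002000002000002000002000000) (nat_lit 0x1000002000000000000000004000004000004) (nat_lit 121) (nat_lit 1) (nat_lit 0x440190000000e4218))))) (Tree.br (nat_lit 262) (Tree.br (nat_lit 261) (Tree.tip (nat_lit 260)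 (Node.img (nat_lit 0x1000003000002000002) (nat_lit 0x1000002000000000001000000) (nat_lit 21) (nat_lit 6) (nat_lit 129) (nat_lit 128))) (Tree.tip (nat_lit 261) (Node.mv (nat_lit 0x1000003000000000002000000) (nat_lit 0x1000002000000000003000000000002) (nat_lit 49) (nat_lit 1) (nat_lit 0x1044118000000084018)))) (Tree.br (nat_lit 263) (Tree.tip (nat_lit 262) (Node.img (nat_lit 0x8000038) (nat_lit 0x17000040) (nat_lit 13) (nat_lit 7) (nat_lit 134) (nat_lit 129))) (Tree.tip (nat_lit 263) (Node.img (nat_lit 0x1000003000000000002000000) (nat_lit 0x1000001000000000000000003000000000002) (nat_lit 188) (nat_lit 5) (nat_lit 128) (nat_lit 134)))))) (Tree.br (nat_lit 268) (Tree.br (nat_lit 266) (Tree.br (nat_lit 265) (Tree.tip (nat_lit 264) (Node.mv (nat_lit 0x38000000000010000000) (nat_lit 0x800000800001f000040000018000000000010) (nat_lit 99) (nat_lit 2) (nat_lit 0x107401b00000106431800000105401b))) (Tree.tip (nat_lit 265) (Node.mv (nat_lit 0x18000018000008000000000000) (nat_lit 0x8000020000027000007000004000004)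 (nat_lit 74) (nat_lit 1) (nat_lit 0x384018000000894318)))) (Tree.br (nat_lit 267) (Tree.tip (nat_lit 266) (Node.mv (nat_lit 0x18000018000000000000000000) (nat_lit 0x1800002000002700000f00000c00000c) (nat_lit 51) (nat_lit 1) (nat_lit 0x109401800000046401b))) (Tree.tip (nat_lit 267) (Node.mv (nat_lit 0x3c00000c) (nat_lit 0x7000003000030) (nat_lit 25) (nat_lit 1) (nat_lit 0x6941180000004d4018))))) (Tree.br (nat_lit 270) (Tree.br (nat_lit 269) (Tree.tip (nat_lit 268) (Node.img (nat_lit 0x2000000000003000003000000) (nat_lit 0x2000000000002000000000000000001) (nat_lit 41) (nat_lit 5) (nat_lit 128) (nat_lit 133))) (Tree.tip (nat_lit 269) (Node.mv (nat_lit 0x800000000001c000008000000) (nat_lit 0x8000000000008000020000007000004) (nat_lit 26) (nat_lit 1) (nat_lit 0x2341180000010c401a)))) (Tree.br (nat_lit 271) (Tree.tip (nat_lit 270) (Node.mv (nat_lit 0x2000000000006000003000000) (nat_lit 0x2000000000002000000000004000005) (nat_lit 73) (nat_lit 1) (nat_lit 0x8d4019000000014018))) (Tree.tip (nat_lit 271) (Node.mv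 (nat_lit 0x2000002000002000001) (nat_lit 0x1000003000003000000000004000005000004) (nat_lit 97) (nat_lit 1) (nat_lit 0x904018000000024018))))))) (Tree.br (nat_lit 280) (Tree.br (nat_lit 276) (Tree.br (nat_lit 274) (Tree.br (nat_lit 273) (Tree.tip (nat_lit 272) (Node.mv (nat_lit 0x800000b000008) (nat_lit 0x10000004000010) (nat_lit 26) (nat_lit 1) (nat_lit 0x2a4118000000284018))) (Tree.tip (nat_lit 273) (Node.mv (nat_lit 0x1000001c000010000000000000) (nat_lit 0x10000020000003000008000008000008) (nat_lit 51) (nat_lit 1) (nat_lit 0x2b421800000037401b)))) (Tree.br (nat_lit 275) (Tree.tip (nat_lit 274) (Node.mv (nat_lit 0x3c000010) (nat_lit 0x7000002000020) (nat_lit 25) (nat_lit 1) (nat_lit 0x694118000000284019))) (Tree.tip (nat_lit 275) (Node.mv (nat_lit 0xc00000800000e000000000000) (nat_lit 0x4000000000000000001000018000010) (nat_lit 27) (nat_lit 1) (nat_lit 0x4040180000000e411a))))) (Tree.br (nat_lit 278) (Tree.br (nat_lit 277) (Tree.tip (nat_lit 276) (Node.img (nat_lit 0x200000200000e000001000000)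 (nat_lit 0x10000002000001) (nat_lit 182) (nat_lit 2) (nat_lit 128) (nat_lit 132))) (Tree.tip (nat_lit 277) (Node.mv (nat_lit 0x200000200000200000e000000000000) (nat_lit 0x11000003000001) (nat_lit 24) (nat_lit 1) (nat_lit 0x1144018000000024118)))) (Tree.br (nat_lit 279) (Tree.tip (nat_lit 278) (Node.mv (nat_lit 0x2000001000001000001000002000000) (nat_lit 0x2000000000000000001000002) (nat_lit 24) (nat_lit 1) (nat_lit 0x1b4118000000394018))) (Tree.tip (nat_lit 279) (Node.mv (nat_lit 0xa000018000008000008) (nat_lit 0x4000005000000000000000000) (nat_lit 74) (nat_lit 1) (nat_lit 0x2742180000000e401a)))))) (Tree.br (nat_lit 284) (Tree.br (nat_lit 282) (Tree.br (nat_lit 281) (Tree.tip (nat_lit 280) (Node.mv (nat_lit 0xe000004000004000004000000) (nat_lit 0x1000038000000000000000004) (nat_lit 75) (nat_lit 1) (nat_lit 0x4d431800000041401a))) (Tree.tip (nat_lit 281) (Node.mv (nat_lit 0x6000004000004000004000000) (nat_lit 0x8000009000038000000000000000004) (nat_lit 99) (nat_lit 1) (nat_lit 0x118401800000031411a))))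 (Tree.br (nat_lit 283) (Tree.tip (nat_lit 282) (Node.mv (nat_lit 0x6000004000004000000000000) (nat_lit 0xa000009000038000000000004000004) (nat_lit 26) (nat_lit 1) (nat_lit 0x11940180000000e4119))) (Tree.tip (nat_lit 283) (Node.mv (nat_lit 0x2000002000006000006000000000000000000) (nat_lit 0x4000000000001000003000003000002) (nat_lit 49) (nat_lit 1) (nat_lit 0x34118000000464019))))) (Tree.br (nat_lit 286) (Tree.br (nat_lit 285) (Tree.tip (nat_lit 284) (Node.img (nat_lit 0x7000003000001000002) (nat_lit 0x5000000000000000002000000) (nat_lit 193) (nat_lit 4) (nat_lit 128) (nat_lit 128))) (Tree.tip (nat_lit 285) (Node.mv (nat_lit 0xc00000c000004000008) (nat_lit 0x14000030000003000008000000) (nat_lit 76) (nat_lit 1) (nat_lit 0x11c401a000000234218)))) (Tree.br (nat_lit 287) (Tree.tip (nat_lit 286) (Node.mv (nat_lit 0xe00000c000000000000) (nat_lit 0x600000700003000000000000c00000c) (nat_lit 98) (nat_lit 1) (nat_lit 0x2f4018000000b7401a))) (Tree.tip (nat_lit 287) (Node.img (nat_lit 0x3c000000) (nat_lit 0x2000077)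 (nat_lit 18) (nat_lit 4) (nat_lit 128) (nat_lit 128)))))))) (Tree.br (nat_lit 304) (Tree.br (nat_lit 296) (Tree.br (nat_lit 292) (Tree.br (nat_lit 290) (Tree.br (nat_lit 289) (Tree.tip (nat_lit 288) (Node.mv (nat_lit 0x20000038000000) (nat_lit 0x40000006000077) (nat_lit 26) (nat_lit 1) (nat_lit 0x11f40180000002a411a))) (Tree.tip (nat_lit 289) (Node.mv (nat_lit 0x3c00000c) (nat_lit 0x70000003000030) (nat_lit 25) (nat_lit 1) (nat_lit 0x7941190000004d4018)))) (Tree.br (nat_lit 291) (Tree.tip (nat_lit 290) (Node.img (nat_lit 0xc00000e) (nat_lit 0x30000001) (nat_lit 35) (nat_lit 3) (nat_lit 133) (nat_lit 129))) (Tree.tip (nat_lit 291) (Node.mv (nat_lit 0x400000e000004000000000000) (nat_lit 0x8000038000001000000000004000004) (nat_lit 99) (nat_lit 1) (nat_lit 0x122431800000046401a))))) (Tree.br (nat_lit 294) (Tree.br (nat_lit 293) (Tree.tip (nat_lit 292) (Node.mv (nat_lit 0x1e000008000004000000000000) (nat_lit 0x2000020000007000000000004000004) (nat_lit 74) (nat_lit 1) (nat_lit 0x4e4019000000234318)))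 (Tree.tip (nat_lit 293) (Node.img (nat_lit 0xb00000a) (nat_lit 0x4000014) (nat_lit 197) (nat_lit 2) (nat_lit 128) (nat_lit 129)))) (Tree.br (nat_lit 295) (Tree.tip (nat_lit 294) (Node.img (nat_lit 0xb00000b) (nat_lit 0x10000014) (nat_lit 92) (nat_lit 6) (nat_lit 132) (nat_lit 128))) (Tree.tip (nat_lit 295) (Node.mv (nat_lit 0x300000b) (nat_lit 0x1c000014) (nat_lit 27) (nat_lit 3) (nat_lit 0x1264018000000be4018000001254018000000c54018)))))) (Tree.br (nat_lit 300) (Tree.br (nat_lit 298) (Tree.br (nat_lit 297) (Tree.tip (nat_lit 296) (Node.mv (nat_lit 0xf00000c000000000000000000) (nat_lit 0x800001a000000000000000004000004000004) (nat_lit 50) (nat_lit 1) (nat_lit 0x6142180000004e4019))) (Tree.tip (nat_lit 297) (Node.mv (nat_lit 0xf000004000000000000000000) (nat_lit 0x800001a000000000018000004000004000004) (nat_lit 75) (nat_lit 1) (nat_lit 0x1284018000000284318)))) (Tree.br (nat_lit 299) (Tree.tip (nat_lit 298) (Node.mv (nat_lit 0x7e000008) (nat_lit 0x81000010) (nat_lit 4) (nat_lit 1) (nat_lit 0x18401b000000274018)))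 (Tree.tip (nat_lit 299) (Node.mv (nat_lit 46) (nat_lit 0x77000010) (nat_lit 4) (nat_lit 1) (nat_lit 0x794019000000694018))))) (Tree.br (nat_lit 302) (Tree.br (nat_lit 301) (Tree.tip (nat_lit 300) (Node.img (nat_lit 0x1e000001) (nat_lit 2) (nat_lit 2) (nat_lit 4) (nat_lit 128) (nat_lit 128))) (Tree.tip (nat_lit 301) (Node.mv (nat_lit 0x2e000001) (nat_lit 0x70000010000002) (nat_lit 28) (nat_lit 1) (nat_lit 0x7941190000012c4018)))) (Tree.br (nat_lit 303) (Tree.tip (nat_lit 302) (Node.mv (nat_lit 0xf000004000004000004000000) (nat_lit 0x18000000000000000004) (nat_lit 75) (nat_lit 1) (nat_lit 0x28431800000041401a))) (Tree.tip (nat_lit 303) (Node.mv (nat_lit 0x700000c000004000004000000) (nat_lit 0x8000010000000000000000004) (nat_lit 99) (nat_lit 1) (nat_lit 0x28431800000041401a))))))) (Tree.br (nat_lit 312) (Tree.br (nat_lit 308) (Tree.br (nat_lit 306) (Tree.br (nat_lit 305) (Tree.tip (nat_lit 304) (Node.mv (nat_lit 0xe000008000008000008000000) (nat_lit 0x11000030000000000000000008) (nat_lit 76) (nat_lit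 1) (nat_lit 0x12f4019000000274318))) (Tree.tip (nat_lit 305) (Node.mv (nat_lit 0x7000004000004000004000000) (nat_lit 0x8000008000018000000000000000004) (nat_lit 99) (nat_lit 1) (nat_lit 0x12e401800000031411a)))) (Tree.br (nat_lit 307) (Tree.tip (nat_lit 306) (Node.mv (nat_lit 0x1c000010) (nat_lit 0x7000022000027) (nat_lit 25) (nat_lit 1) (nat_lit 0x584018000000284019))) (Tree.tip (nat_lit 307) (Node.img (nat_lit 0x2000003000001000000000001) (nat_lit 0x1000000) (nat_lit 45) (nat_lit 6) (nat_lit 129) (nat_lit 128))))) (Tree.br (nat_lit 310) (Tree.br (nat_lit 309) (Tree.tip (nat_lit 308) (Node.mv (nat_lit 0xf000004000000000004) (nat_lit 0x18000000000000000004000000) (nat_lit 99) (nat_lit 1) (nat_lit 0x2a431800000133401a))) (Tree.tip (nat_lit 309) (Node.img (nat_lit 0x1000003000002000000000002) (nat_lit 0x2000000) (nat_lit 45) (nat_lit 4) (nat_lit 128) (nat_lit 128)))) (Tree.br (nat_lit 311) (Tree.tip (nat_lit 310) (Node.mv (nat_lit 0x1e000008000000000008) (nat_lit 0x7000020000000000008000000) (nat_lit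 98) (nat_lit 1) (nat_lit 0xc7431800000135401a))) (Tree.tip (nat_lit 311) (Node.mv (nat_lit 0x3000001000002000003000000) (nat_lit 0x2000000000000000003) (nat_lit 73) (nat_lit 1) (nat_lit 0x84018000000014018)))))) (Tree.br (nat_lit 316) (Tree.br (nat_lit 314) (Tree.br (nat_lit 313) (Tree.tip (nat_lit 312) (Node.mv (nat_lit 0x6000002000000000002000000000000) (nat_lit 0x4000000000000000002000005000007000005) (nat_lit 73) (nat_lit 1) (nat_lit 0x54018000000314219))) (Tree.tip (nat_lit 313) (Node.img (nat_lit 0x1800001c000010) (nat_lit 0x3000020) (nat_lit 43) (nat_lit 2) (nat_lit 128) (nat_lit 130)))) (Tree.br (nat_lit 315) (Tree.tip (nat_lit 314) (Node.mv (nat_lit 0x1000001c000010000000000000) (nat_lit 0x8000008000003000020000010000010) (nat_lit 99) (nat_lit 1) (nat_lit 0x13942180000002e401b))) (Tree.tip (nat_lit 315) (Node.mv (nat_lit 0x1000001c000010000000000000) (nat_lit 0x8000028000003000000000010000010) (nat_lit 99) (nat_lit 1) (nat_lit 0x8943180000002e401b))))) (Tree.br (nat_lit 318) (Tree.br (nat_lit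 317) (Tree.tip (nat_lit 316) (Node.mv (nat_lit 0x800000e000008000008000000) (nat_lit 0x8000000000001000010000010000010) (nat_lit 52) (nat_lit 1) (nat_lit 0x8d401b000000274218))) (Tree.tip (nat_lit 317) (Node.mv (nat_lit 0x4000007000004000004000000) (nat_lit 0x4000000000008000038000008000008) (nat_lit 51) (nat_lit 1) (nat_lit 0xfb42180000008d401a)))) (Tree.br (nat_lit 319) (Tree.tip (nat_lit 318) (Node.img (nat_lit 0x8000007000004000004000000) (nat_lit 0x10000008000000000000000004) (nat_lit 182) (nat_lit 5) (nat_lit 128) (nat_lit 132))) (Tree.tip (nat_lit 319) (Node.mv (nat_lit 0x4000007000004000004000000) (nat_lit 0x8000018000008000000000000000004) (nat_lit 99) (nat_lit 1) (nat_lit 0x13e401800000031411a))))))))) (Tree.br (nat_lit 352) (Tree.br (nat_lit 336) (Tree.br (nat_lit 328) (Tree.br (nat_lit 324) (Tree.br (nat_lit 322) (Tree.br (nat_lit 321) (Tree.tip (nat_lit 320) (Node.mv (nat_lit 0x18000016000010) (nat_lit 0x9000020) (nat_lit 27) (nat_lit 1) (nat_lit 0x164118000000284019))) (Tree.tip (nat_lit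 321) (Node.mv (nat_lit 0x800000800000a000008000000) (nat_lit 0x15000070000010) (nat_lit 28) (nat_lit 1) (nat_lit 0xfc411800000039401b)))) (Tree.br (nat_lit 323) (Tree.tip (nat_lit 322) (Node.mv (nat_lit 0x1e000004000004) (nat_lit 0x2000007000000000002000000) (nat_lit 73) (nat_lit 1) (nat_lit 0x1044019000000244218))) (Tree.tip (nat_lit 323) (Node.img (nat_lit 0x400000f000004000004) (nat_lit 0x8000018000000000000000000) (nat_lit 134) (nat_lit 1) (nat_lit 132) (nat_lit 128))))) (Tree.br (nat_lit 326) (Tree.br (nat_lit 325) (Tree.tip (nat_lit 324) (Node.mv (nat_lit 0x800001c000008000008) (nat_lit 0x10000030000003000030000000) (nat_lit 49) (nat_lit 1) (nat_lit 0x14340190000005f4118))) (Tree.tip (nat_lit 325) (Node.mv (nat_lit 0x800000c000008000008) (nat_lit 0x10000034000013000000000000) (nat_lit 76) (nat_lit 1) (nat_lit 0x1e421800000031401b)))) (Tree.br (nat_lit 327) (Tree.tip (nat_lit 326) (Node.img (nat_lit 0x8000038) (nat_lit 0x7000044) (nat_lit 26) (nat_lit 1) (nat_lit 134) (nat_lit 128))) (Tree.tip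 (nat_lit 327) (Node.mv (nat_lit 0x38000010000010) (nat_lit 0x800000800000f000044000008000000) (nat_lit 75) (nat_lit 1) (nat_lit 0x14642180000000c401b)))))) (Tree.br (nat_lit 332) (Tree.br (nat_lit 330) (Tree.br (nat_lit 329) (Tree.tip (nat_lit 328) (Node.img (nat_lit 0x8000008000018000018000000) (nat_lit 0x20000007000004) (nat_lit 171) (nat_lit 1) (nat_lit 133) (nat_lit 128))) (Tree.tip (nat_lit 329) (Node.mv (nat_lit 0x8000008000018000008000000) (nat_lit 0x20000017000014) (nat_lit 28) (nat_lit 1) (nat_lit 0x148401800000039401b)))) (Tree.br (nat_lit 331) (Tree.tip (nat_lit 330) (Node.img (nat_lit 0x2000002000002000002000000000000) (nat_lit 0x4000004000000000000000005000007000005) (nat_lit 151) (nat_lit 1) (nat_lit 130) (nat_lit 128))) (Tree.tip (nat_lit 331) (Node.mv (nat_lit 0x3000002000002000000000000) (nat_lit 0x5000007000007000000000000000005000007000005) (nat_lit 121) (nat_lit 2) (nat_lit 0xd342180000014a40180000000f4118))))) (Tree.br (nat_lit 334) (Tree.br (nat_lit 333) (Tree.tip (nat_lit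 332) (Node.mv (nat_lit 0x800000c000008000008000000) (nat_lit 0x8000000000013000070000010000010) (nat_lit 52) (nat_lit 1) (nat_lit 0xb342180000008d401b))) (Tree.tip (nat_lit 333) (Node.img (nat_lit 0x2000002000002000002000000000000) (nat_lit 0x4000004000004000000000001000003000001) (nat_lit 17) (nat_lit 1) (nat_lit 130) (nat_lit 128)))) (Tree.br (nat_lit 335) (Tree.tip (nat_lit 334) (Node.mv (nat_lit 0xc000008000008000000000000) (nat_lit 0x1000001800001800001300007000001400001c000004) (nat_lit 123) (nat_lit 2) (nat_lit 0x14c41180000014d401a0000009c411b))) (Tree.tip (nat_lit 335) (Node.mv (nat_lit 0xc000008000008000000) (nat_lit 0xc00000c000013000070000010000018) (nat_lit 99) (nat_lit 1) (nat_lit 0x14c40180000000f401a))))))) (Tree.br (nat_lit 344) (Tree.br (nat_lit 340) (Tree.br (nat_lit 338) (Tree.br (nat_lit 337) (Tree.tip (nat_lit 336) (Node.mv (nat_lit 0x200000200000200001e000000) (nat_lit 0x1000003) (nat_lit 0) (nat_lit 1) (nat_lit 0x240180000012c4018))) (Tree.tip (nat_lit 337) (Node.img (nat_lit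 0x100000f000000) (nat_lit 0x2000010000038) (nat_lit 28) (nat_lit 6) (nat_lit 133) (nat_lit 128)))) (Tree.br (nat_lit 339) (Tree.tip (nat_lit 338) (Node.mv (nat_lit 0x200000200000200000e000000) (nat_lit 0x4000031000073) (nat_lit 28) (nat_lit 1) (nat_lit 0x1514019000001504018))) (Tree.tip (nat_lit 339) (Node.img (nat_lit 0x800003c) (nat_lit 0x37000003) (nat_lit 111) (nat_lit 2) (nat_lit 128) (nat_lit 129))))) (Tree.br (nat_lit 342) (Tree.br (nat_lit 341) (Tree.tip (nat_lit 340) (Node.mv (nat_lit 0x8000008000008000038000000) (nat_lit 0x37000007000004) (nat_lit 26) (nat_lit 1) (nat_lit 0x153411800000001401a))) (Tree.tip (nat_lit 341) (Node.mv (nat_lit 0xd000008000008000008000008000008) (nat_lit 0x2000010000010000000000000000000) (nat_lit 100) (nat_lit 1) (nat_lit 0x2d44180000001b401b)))) (Tree.br (nat_lit 343) (Tree.tip (nat_lit 342) (Node.mv (nat_lit 0xd000008000008000008000008000000000000) (nat_lit 0x2000010000010000000000010000018000010) (nat_lit 27) (nat_lit 1) (nat_lit 0x155411800000004401b)))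 (Tree.tip (nat_lit 343) (Node.mv (nat_lit 0xd000008000008000008000000000000000000) (nat_lit 0x200001000001000000400001c00001c000010) (nat_lit 51) (nat_lit 1) (nat_lit 0x156401800000003411a)))))) (Tree.br (nat_lit 348) (Tree.br (nat_lit 346) (Tree.br (nat_lit 345) (Tree.tip (nat_lit 344) (Node.mv (nat_lit 0x1a000010000010000010) (nat_lit 0x27000024000007000000000000) (nat_lit 77) (nat_lit 1) (nat_lit 0xf9421800000031401c))) (Tree.tip (nat_lit 345) (Node.mv (nat_lit 0x12000010000010000010) (nat_lit 0x2f00002c000007000000000000) (nat_lit 75) (nat_lit 1) (nat_lit 0x15840180000000e401b)))) (Tree.br (nat_lit 347) (Tree.tip (nat_lit 346) (Node.mv (nat_lit 0xc000004000004000004000000) (nat_lit 0x2000003000038000000000000000004) (nat_lit 75) (nat_lit 1) (nat_lit 0x63411800000041401a))) (Tree.tip (nat_lit 347) (Node.mv (nat_lit 0x4000004000004000004000000) (nat_lit 0xa00000b000038000000000000000004) (nat_lit 99) (nat_lit 1) (nat_lit 0x15a401800000031411a))))) (Tree.br (nat_lit 350) (Tree.br (nat_lit 349)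 (Tree.tip (nat_lit 348) (Node.mv (nat_lit 0x8000008000008000038) (nat_lit 0x4000004000000000017000040) (nat_lit 74) (nat_lit 1) (nat_lit 0x10640180000000e401a))) (Tree.tip (nat_lit 349) (Node.mv (nat_lit 0x200000200000200000e000000000000) (nat_lit 0x1000001000000000000000011000003000001) (nat_lit 120) (nat_lit 1) (nat_lit 0x11540180000000e4218)))) (Tree.br (nat_lit 351) (Tree.tip (nat_lit 350) (Node.img (nat_lit 0x400000400000400001c000000) (nat_lit 0x3000022000002) (nat_lit 177) (nat_lit 2) (nat_lit 128) (nat_lit 132))) (Tree.tip (nat_lit 351) (Node.mv (nat_lit 0x8000008000008000018000000000000) (nat_lit 0x400000400000000003700006700000c000004) (nat_lit 53) (nat_lit 3) (nat_lit 0x15441180000015d401a0000015c42180000015e4119)))))))) (Tree.br (nat_lit 368) (Tree.br (nat_lit 360) (Tree.br (nat_lit 356) (Tree.br (nat_lit 354) (Tree.br (nat_lit 353) (Tree.tip (nat_lit 352) (Node.img (nat_lit 0x200000e000000) (nat_lit 0x5000030000070) (nat_lit 54) (nat_lit 6) (nat_lit 134) (nat_lit 128))) (Tree.tip (nat_lit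 353) (Node.mv (nat_lit 0x8000008000008000018000000) (nat_lit 0x370000e70001cc) (nat_lit 29) (nat_lit 3) (nat_lit 0x154401800000152401a00000160401a0000015e4019)))) (Tree.br (nat_lit 355) (Tree.tip (nat_lit 354) (Node.mv (nat_lit 0x200000200000200001e000000) (nat_lit 0x1000039) (nat_lit 24) (nat_lit 1) (nat_lit 0x774018000000014018))) (Tree.tip (nat_lit 355) (Node.img (nat_lit 0x100000f) (nat_lit 0x3a000010) (nat_lit 29) (nat_lit 6) (nat_lit 133) (nat_lit 128))))) (Tree.br (nat_lit 358) (Tree.br (nat_lit 357) (Tree.tip (nat_lit 356) (Node.mv (nat_lit 0x200000200000200000e000000) (nat_lit 0x74000031000079) (nat_lit 28) (nat_lit 2) (nat_lit 0x1624018000001634119000001514019))) (Tree.tip (nat_lit 357) (Node.mv (nat_lit 0x8000008000008000018000000) (nat_lit 0x1f70000e70001e4) (nat_lit 29) (nat_lit 3) (nat_lit 0x164401a00000154401800000160401a0000015e4019)))) (Tree.br (nat_lit 359) (Tree.tip (nat_lit 358) (Node.mv (nat_lit 0x4000004000004000004000000) (nat_lit 0xa00000b00003800000000000800000c) (nat_lit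 27) (nat_lit 1) (nat_lit 0x15b401800000039401a))) (Tree.tip (nat_lit 359) (Node.mv (nat_lit 0x8000008000008000008000000) (nat_lit 0x1f70000f70001f4) (nat_lit 28) (nat_lit 1) (nat_lit 0x165401800000039401b)))))) (Tree.br (nat_lit 364) (Tree.br (nat_lit 362) (Tree.br (nat_lit 361) (Tree.tip (nat_lit 360) (Node.mv (nat_lit 0x100000100000100000e) (nat_lit 0x1000000000000000002000010) (nat_lit 25) (nat_lit 1) (nat_lit 0xb4018000000254018))) (Tree.tip (nat_lit 361) (Node.mv (nat_lit 0x200000200000200000e) (nat_lit 0x2000000000000000005000030) (nat_lit 4) (nat_lit 1) (nat_lit 0x1684019000000244018)))) (Tree.br (nat_lit 363) (Tree.tip (nat_lit 362) (Node.mv (nat_lit 0x200000200000200000e000000) (nat_lit 0x1000011000003) (nat_lit 28) (nat_lit 1) (nat_lit 0x1504018000000244118))) (Tree.tip (nat_lit 363) (Node.mv (nat_lit 0x200000200000200000e000000) (nat_lit 0x2000000000000000004000031000003) (nat_lit 28) (nat_lit 1) (nat_lit 0x1504018000001684119))))) (Tree.br (nat_lit 366) (Tree.br (nat_lit 365) (Tree.tip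 (nat_lit 364) (Node.img (nat_lit 0x400000400000400001c000000) (nat_lit 0x4000000000000000003000002000002) (nat_lit 305) (nat_lit 3) (nat_lit 132) (nat_lit 133))) (Tree.tip (nat_lit 365) (Node.mv (nat_lit 0x400000400000400000c000000) (nat_lit 0x400000000000000000b000072000006) (nat_lit 28) (nat_lit 3) (nat_lit 0x16b40190000016a40190000016941190000016c4018)))) (Tree.br (nat_lit 367) (Tree.tip (nat_lit 366) (Node.mv (nat_lit 0x4000004000004000004000000) (nat_lit 0x400000000000000000b00007a00000e) (nat_lit 27) (nat_lit 1) (nat_lit 0x16d401800000039401a))) (Tree.tip (nat_lit 367) (Node.mv (nat_lit 0x8000008000008000008000000000000) (nat_lit 0x400000400000000003700007700001c000004) (nat_lit 52) (nat_lit 1) (nat_lit 0x15f401800000039411b))))))) (Tree.br (nat_lit 376) (Tree.br (nat_lit 372) (Tree.br (nat_lit 370) (Tree.br (nat_lit 369) (Tree.tip (nat_lit 368) (Node.mv (nat_lit 0x8000008000008000000000000000000) (nat_lit 0x400000c0000040000000000370000ff00001c000004) (nat_lit 51) (nat_lit 3) (nat_lit 0x16f40180000016e411900000090411a000000ea411a)))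 (Tree.tip (nat_lit 369) (Node.mv (nat_lit 0x8000008000008000008000000) (nat_lit 0x370000f70001dc) (nat_lit 28) (nat_lit 1) (nat_lit 0x161401800000039401b)))) (Tree.br (nat_lit 371) (Tree.tip (nat_lit 370) (Node.img (nat_lit 0x2000002000002000002000000) (nat_lit 0x4000006000004000000000001000001000001) (nat_lit 17) (nat_lit 2) (nat_lit 128) (nat_lit 134))) (Tree.tip (nat_lit 371) (Node.mv (nat_lit 0x8000008000008000000000000) (nat_lit 0x100000180000100000000000370000ff0001dc) (nat_lit 27) (nat_lit 3) (nat_lit 0x17140180000009c401b00000172401a00000006401a))))) (Tree.br (nat_lit 374) (Tree.br (nat_lit 373) (Tree.tip (nat_lit 372) (Node.mv (nat_lit 0x1e000002000002000002) (nat_lit 0x1000001000038000000000000) (nat_lit 72) (nat_lit 1) (nat_lit 0x7742180000000e4018))) (Tree.tip (nat_lit 373) (Node.img (nat_lit 0xf000001) (nat_lit 0x1000003a) (nat_lit 29) (nat_lit 7) (nat_lit 133) (nat_lit 129)))) (Tree.br (nat_lit 375) (Tree.tip (nat_lit 374) (Node.img (nat_lit 0xf000001) (nat_lit 0x38000010000002) (nat_lit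 28) (nat_lit 7) (nat_lit 133) (nat_lit 130))) (Tree.tip (nat_lit 375) (Node.mv (nat_lit 0xe000002000002000002) (nat_lit 0x7100003100007c000000000000) (nat_lit 76) (nat_lit 2) (nat_lit 0x1744018000001764219000001754219)))))) (Tree.br (nat_lit 380) (Tree.br (nat_lit 378) (Tree.br (nat_lit 377) (Tree.tip (nat_lit 376) (Node.img (nat_lit 0x38000008) (nat_lit 0x40000017) (nat_lit 13) (nat_lit 6) (nat_lit 134) (nat_lit 128))) (Tree.tip (nat_lit 377) (Node.mv (nat_lit 0x18000008000008000008000000) (nat_lit 0x400000c000064000017000010000010000010) (nat_lit 101) (nat_lit 1) (nat_lit 0x90401a000001784318)))) (Tree.br (nat_lit 379) (Tree.tip (nat_lit 378) (Node.mv (nat_lit 0x8000008000008000008000000) (nat_lit 0x400001c000074000017000010000010000010) (nat_lit 100) (nat_lit 1) (nat_lit 0x179401800000031411b))) (Tree.tip (nat_lit 379) (Node.mv (nat_lit 0x1000001000001000003000001000000000000) (nat_lit 0x1000000000002000002000000000000000001000001) (nat_lit 97) (nat_lit 1) (nat_lit 0x4640180000000b4318))))) (Tree.br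 (nat_lit 382) (Tree.br (nat_lit 381) (Tree.tip (nat_lit 380) (Node.mv (nat_lit 0x2000002000002000006000000000000000000) (nat_lit 0x3000001000005000004000000000002000002000002) (nat_lit 49) (nat_lit 1) (nat_lit 0x17b4019000000104218))) (Tree.tip (nat_lit 381) (Node.mv (nat_lit 0x2000002000002000002000000000000000000) (nat_lit 0x3000001000005000004000004000006000002000002) (nat_lit 74) (nat_lit 1) (nat_lit 0x17c4018000000394219)))) (Tree.br (nat_lit 383) (Tree.tip (nat_lit 382) (Node.img (nat_lit 0x2000002000001000001000001) (nat_lit 0x1000000000000000000) (nat_lit 10) (nat_lit 2) (nat_lit 128) (nat_lit 132))) (Tree.tip (nat_lit 383) (Node.mv (nat_lit 0x2000002000002000001000001000000) (nat_lit 0x1000001000000000000000001) (nat_lit 72) (nat_lit 1) (nat_lit 0x17e4118000000414018))))))))))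
noncomputable def t0_3 : Tree := (Tree.br (nat_lit 448) (Tree.br (nat_lit 416) (Tree.br (nat_lit 400) (Tree.br (nat_lit 392) (Tree.br (nat_lit 388) (Tree.br (nat_lit 386) (Tree.br (nat_lit 385) (Tree.tip (nat_lit 384) (Node.img (nat_lit 0x400000f000000000008000000) (nat_lit 0x18000000000008) (nat_lit 279) (nat_lit 4) (nat_lit 128) (nat_lit 128))) (Tree.tip (nat_lit 385) (Node.mv (nat_lit 0x800001c000000000010000000) (nat_lit 0x30000003000030000000000010) (nat_lit 73) (nat_lit 1) (nat_lit 0x1804019000000524318)))) (Tree.br (nat_lit 387) (Tree.tip (nat_lit 386) (Node.mv (nat_lit 0x200000200001200000e000000) (nat_lit 0x8000001000001) (nat_lit 24) (nat_lit 1) (nat_lit 0x214118000000014018))) (Tree.tip (nat_lit 387) (Node.mv (nat_lit 0x1800000c000018) (nat_lit 0x60000013000000) (nat_lit 25) (nat_lit 1) (nat_lit 0x194119000000274018))))) (Tree.br (nat_lit 390) (Tree.br (nat_lit 389) (Tree.tip (nat_lit 388) (Node.img (nat_lit 0x8000008000008000018000000) (nat_lit 0x8000000000000000030000007000004) (nat_lit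 172) (nat_lit 1) (nat_lit 133) (nat_lit 128))) (Tree.tip (nat_lit 389) (Node.mv (nat_lit 0x8000008000018000000) (nat_lit 0x8000008000000000030000007000014) (nat_lit 99) (nat_lit 1) (nat_lit 0x184401800000039401b)))) (Tree.br (nat_lit 391) (Tree.tip (nat_lit 390) (Node.mv (nat_lit 0x8000008000018000006000000) (nat_lit 0x9000004) (nat_lit 27) (nat_lit 1) (nat_lit 0x16411800000001401a))) (Tree.tip (nat_lit 391) (Node.img (nat_lit 0x3800000c) (nat_lit 0x4000003) (nat_lit 25) (nat_lit 3) (nat_lit 133) (nat_lit 129)))))) (Tree.br (nat_lit 396) (Tree.br (nat_lit 394) (Tree.br (nat_lit 393) (Tree.tip (nat_lit 392) (Node.mv (nat_lit 0x3000000c) (nat_lit 0x4c000003) (nat_lit 27) (nat_lit 1) (nat_lit 0x187401800000018401a))) (Tree.tip (nat_lit 393) (Node.img (nat_lit 0x2000002000003000001000000000000) (nat_lit 0x2000001000001) (nat_lit 25) (nat_lit 7) (nat_lit 129) (nat_lit 133)))) (Tree.br (nat_lit 395) (Tree.tip (nat_lit 394) (Node.mv (nat_lit 0x400000400000c000003000000000000) (nat_lit 0x12000004000002000002)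 (nat_lit 73) (nat_lit 1) (nat_lit 0x1894019000000184218))) (Tree.tip (nat_lit 395) (Node.mv (nat_lit 0x10000010000030000008000000000000) (nat_lit 0x4c000017000008000008) (nat_lit 50) (nat_lit 2) (nat_lit 0x18a401a000001884218000001864119))))) (Tree.br (nat_lit 398) (Tree.br (nat_lit 397) (Tree.tip (nat_lit 396) (Node.mv (nat_lit 0x2000002000006000001000000) (nat_lit 0x2000000000000000000000006000005) (nat_lit 25) (nat_lit 1) (nat_lit 0x8d4019000000014018))) (Tree.tip (nat_lit 397) (Node.img (nat_lit 0x2000002000006000001) (nat_lit 0x2000000000000000001000004) (nat_lit 50) (nat_lit 2) (nat_lit 128) (nat_lit 132)))) (Tree.br (nat_lit 399) (Tree.tip (nat_lit 398) (Node.mv (nat_lit 0x10000010000030000000000000000000) (nat_lit 0x1000000000000000004c00003f000028000008) (nat_lit 51) (nat_lit 2) (nat_lit 0x18c411b0000018b40180000018d421b))) (Tree.tip (nat_lit 399) (Node.mv (nat_lit 0x800000800001800000c) (nat_lit 0x8000000000000000024000003) (nat_lit 26) (nat_lit 1) (nat_lit 0x23401800000044401a)))))))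 (Tree.br (nat_lit 408) (Tree.br (nat_lit 404) (Tree.br (nat_lit 402) (Tree.br (nat_lit 401) (Tree.tip (nat_lit 400) (Node.mv (nat_lit 0x8000008000018000004000000) (nat_lit 0x800000000000000002400000b000004) (nat_lit 27) (nat_lit 1) (nat_lit 0x18f411800000001401a))) (Tree.tip (nat_lit 401) (Node.mv (nat_lit 0x8000008000018000004000000) (nat_lit 0x6400000b000004) (nat_lit 27) (nat_lit 1) (nat_lit 0xa8411800000001401a)))) (Tree.br (nat_lit 403) (Tree.tip (nat_lit 402) (Node.img (nat_lit 0x2000002000002000002000001000000) (nat_lit 0x1000001000001000000000000000002000001) (nat_lit 174) (nat_lit 2) (nat_lit 128) (nat_lit 134))) (Tree.tip (nat_lit 403) (Node.img (nat_lit 0x1000001000001000003) (nat_lit 0x2000003000002000000000002000000) (nat_lit 29) (nat_lit 2) (nat_lit 128) (nat_lit 133))))) (Tree.br (nat_lit 406) (Tree.br (nat_lit 405) (Tree.tip (nat_lit 404) (Node.mv (nat_lit 0x2000002000006000001000000) (nat_lit 0x4000007000007000001000004000000000002000001) (nat_lit 121) (nat_lit 1) (nat_lit 0x1934219000001924018)))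 (Tree.tip (nat_lit 405) (Node.img (nat_lit 0x1000001000003000001000000000000) (nat_lit 0x2000002000000000002000003000003) (nat_lit 111) (nat_lit 6) (nat_lit 129) (nat_lit 128)))) (Tree.br (nat_lit 407) (Tree.tip (nat_lit 406) (Node.img (nat_lit 0x8000008000018000008000000) (nat_lit 0x64000007000004) (nat_lit 180) (nat_lit 1) (nat_lit 134) (nat_lit 128))) (Tree.tip (nat_lit 407) (Node.mv (nat_lit 0x8000008000018000000000000000000) (nat_lit 0x1000001000006400001f00001c000018) (nat_lit 51) (nat_lit 2) (nat_lit 0x196411800000195401b000001494118)))))) (Tree.br (nat_lit 412) (Tree.br (nat_lit 410) (Tree.br (nat_lit 409) (Tree.tip (nat_lit 408) (Node.mv (nat_lit 0x2000002000006000002000000000000) (nat_lit 0x3000003000005000004000000000000000002000002) (nat_lit 98) (nat_lit 1) (nat_lit 0x9f4218000000464019))) (Tree.tip (nat_lit 409) (Node.mv (nat_lit 0x2000002000006000000000000000000) (nat_lit 0x3000003000005000004000000000006000006000006) (nat_lit 49) (nat_lit 2) (nat_lit 0x19540190000019840180000008d4119))))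 (Tree.br (nat_lit 411) (Tree.tip (nat_lit 410) (Node.mv (nat_lit 0x400000e000010000008000000) (nat_lit 0x1000008000000000008) (nat_lit 51) (nat_lit 1) (nat_lit 0x27421800000008401a))) (Tree.tip (nat_lit 411) (Node.mv (nat_lit 0x400001e000000000008000000) (nat_lit 0x1000038000000000008) (nat_lit 52) (nat_lit 1) (nat_lit 0x19a4018000000284219))))) (Tree.br (nat_lit 414) (Tree.br (nat_lit 413) (Tree.tip (nat_lit 412) (Node.img (nat_lit 0x2000003000003000002) (nat_lit 0x3000003000001000000000000000000) (nat_lit 158) (nat_lit 3) (nat_lit 129) (nat_lit 133))) (Tree.tip (nat_lit 413) (Node.img (nat_lit 0x2000003000003000002000000000000) (nat_lit 0x4000006000006) (nat_lit 146) (nat_lit 1) (nat_lit 130) (nat_lit 128)))) (Tree.br (nat_lit 415) (Tree.tip (nat_lit 414) (Node.mv (nat_lit 0x2000003000003000000000000000000) (nat_lit 0x3000003000001000000000000000006000006000006) (nat_lit 49) (nat_lit 2) (nat_lit 0x19d40180000019c42180000002e4018))) (Tree.tip (nat_lit 415) (Node.img (nat_lit 0x1000001000001000001000000000000)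 (nat_lit 0x2000002000002000000000002000003000002) (nat_lit 18) (nat_lit 1) (nat_lit 129) (nat_lit 128)))))))) (Tree.br (nat_lit 432) (Tree.br (nat_lit 424) (Tree.br (nat_lit 420) (Tree.br (nat_lit 418) (Tree.br (nat_lit 417) (Tree.tip (nat_lit 416) (Node.mv (nat_lit 0x2000002000002000002000000000000) (nat_lit 0x4000004000004000000000005000007000004) (nat_lit 48) (nat_lit 1) (nat_lit 0x19f4019000000014118))) (Tree.tip (nat_lit 417) (Node.mv (nat_lit 0x200000f000000) (nat_lit 0x74000030000038) (nat_lit 28) (nat_lit 1) (nat_lit 0x1634119000000774018)))) (Tree.br (nat_lit 419) (Tree.tip (nat_lit 418) (Node.mv (nat_lit 0x800000800000800000e000000) (nat_lit 0x77000030000010) (nat_lit 28) (nat_lit 1) (nat_lit 0xd7411800000039401b))) (Tree.tip (nat_lit 419) (Node.img (nat_lit 0x2000002000003000002000000000000) (nat_lit 0x1000001000000000004000006000006) (nat_lit 106) (nat_lit 4) (nat_lit 128) (nat_lit 128))))) (Tree.br (nat_lit 422) (Tree.br (nat_lit 421) (Tree.tip (nat_lit 420) (Node.mv (nat_lit 0x4000002000002000003000000000000000000)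 (nat_lit 0x5000001000000000006000006000006) (nat_lit 49) (nat_lit 1) (nat_lit 0x1a340180000001b4219))) (Tree.tip (nat_lit 421) (Node.mv (nat_lit 0x2000002000002000003000000000000000000) (nat_lit 0x4000004000005000001000000000006000006000006) (nat_lit 146) (nat_lit 1) (nat_lit 0x1a44018000000314319)))) (Tree.br (nat_lit 423) (Tree.tip (nat_lit 422) (Node.img (nat_lit 0x2000002000002000003) (nat_lit 0x1000003000001000000000001000000) (nat_lit 29) (nat_lit 3) (nat_lit 129) (nat_lit 133))) (Tree.tip (nat_lit 423) (Node.mv (nat_lit 0x2000002000003000000000000) (nat_lit 0x1000003000003000001000005000004000006000004) (nat_lit 121) (nat_lit 2) (nat_lit 0x1a642180000001140180000003c4118)))))) (Tree.br (nat_lit 428) (Tree.br (nat_lit 426) (Tree.br (nat_lit 425) (Tree.tip (nat_lit 424) (Node.img (nat_lit 0x7000018) (nat_lit 0x8000000) (nat_lit 10) (nat_lit 7) (nat_lit 132) (nat_lit 129))) (Tree.tip (nat_lit 425) (Node.mv (nat_lit 0x700000c000006) (nat_lit 0x8000030000000) (nat_lit 28) (nat_lit 1) (nat_lit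 0x1a84118000000184019)))) (Tree.br (nat_lit 427) (Tree.tip (nat_lit 426) (Node.mv (nat_lit 0xe00000800000c) (nat_lit 0x11000070000000) (nat_lit 28) (nat_lit 1) (nat_lit 0x1a94019000000274118))) (Tree.tip (nat_lit 427) (Node.img (nat_lit 0x1800000a) (nat_lit 0x24000015) (nat_lit 261) (nat_lit 5) (nat_lit 128) (nat_lit 129))))) (Tree.br (nat_lit 430) (Tree.br (nat_lit 429) (Tree.tip (nat_lit 428) (Node.mv (nat_lit 0x800000800000a000008000000) (nat_lit 0x10000010000034000015000000000008) (nat_lit 76) (nat_lit 1) (nat_lit 0x1ab421800000099401b))) (Tree.tip (nat_lit 429) (Node.img (nat_lit 0x1800000a) (nat_lit 0x60000015) (nat_lit 252) (nat_lit 2) (nat_lit 128) (nat_lit 129)))) (Tree.br (nat_lit 431) (Tree.tip (nat_lit 430) (Node.mv (nat_lit 0x800000800000a000008000000) (nat_lit 0x10000010000070000015000000000008) (nat_lit 76) (nat_lit 1) (nat_lit 0x1ad421800000099401b))) (Tree.tip (nat_lit 431) (Node.mv (nat_lit 0x800000800000a000008000000) (nat_lit 0x8000000000000000005000014000014) (nat_lit 50) (nat_lit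 1) (nat_lit 0x4040180000003a401a))))))) (Tree.br (nat_lit 440) (Tree.br (nat_lit 436) (Tree.br (nat_lit 434) (Tree.br (nat_lit 433) (Tree.tip (nat_lit 432) (Node.img (nat_lit 0x1000001000001c000010000000) (nat_lit 0x20000003000008000008) (nat_lit 129) (nat_lit 4) (nat_lit 128) (nat_lit 128))) (Tree.tip (nat_lit 433) (Node.img (nat_lit 0x4000004000007000004000000) (nat_lit 0x1a00000a) (nat_lit 108) (nat_lit 4) (nat_lit 128) (nat_lit 128)))) (Tree.br (nat_lit 435) (Tree.tip (nat_lit 434) (Node.mv (nat_lit 0x10000010000014000010000000) (nat_lit 0x2000000b000068000028) (nat_lit 51) (nat_lit 2) (nat_lit 0x1b1401a000001b04018000000404019))) (Tree.tip (nat_lit 435) (Node.mv (nat_lit 0x10000010000010000010000000) (nat_lit 0x2800003800002800002000000f000068000028) (nat_lit 50) (nat_lit 2) (nat_lit 0xd3411b000001b2401800000172401b))))) (Tree.br (nat_lit 438) (Tree.br (nat_lit 437) (Tree.tip (nat_lit 436) (Node.img (nat_lit 0xc000007) (nat_lit 0x32000000) (nat_lit 12) (nat_lit 5) (nat_lit 128) (nat_lit 129)))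 (Tree.tip (nat_lit 437) (Node.mv (nat_lit 0x4000004000007000004000000) (nat_lit 0x800000800003a000000000000000004) (nat_lit 75) (nat_lit 1) (nat_lit 0x1b4421800000099401a)))) (Tree.br (nat_lit 439) (Tree.tip (nat_lit 438) (Node.mv (nat_lit 0x800000800000a000008000000) (nat_lit 0x10000010000074000005000010000018) (nat_lit 50) (nat_lit 1) (nat_lit 0x1b54019000000404018))) (Tree.tip (nat_lit 439) (Node.img (nat_lit 0x3000002000002000002000000000000) (nat_lit 0x1000000000004000006000004) (nat_lit 28) (nat_lit 1) (nat_lit 130) (nat_lit 128)))))) (Tree.br (nat_lit 444) (Tree.br (nat_lit 442) (Tree.br (nat_lit 441) (Tree.tip (nat_lit 440) (Node.mv (nat_lit 0x3000002000002000002000000000000) (nat_lit 0x2000000000001000001000005000007000004) (nat_lit 72) (nat_lit 1) (nat_lit 0x1b740180000003a4118))) (Tree.tip (nat_lit 441) (Node.mv (nat_lit 0x2000002000002000002000000000000) (nat_lit 0x3000001000001000001000005000007000004) (nat_lit 120) (nat_lit 1) (nat_lit 0x1b840180000000e4218)))) (Tree.br (nat_lit 443)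 (Tree.tip (nat_lit 442) (Node.img (nat_lit 0x400000400001e000000000000) (nat_lit 0x3000000000003000002) (nat_lit 108) (nat_lit 2) (nat_lit 128) (nat_lit 132))) (Tree.tip (nat_lit 443) (Node.mv (nat_lit 0x400000400000e000000000000) (nat_lit 0x73000030000073000002) (nat_lit 52) (nat_lit 2) (nat_lit 0x1ba40180000007c4119000000c74218))))) (Tree.br (nat_lit 446) (Tree.br (nat_lit 445) (Tree.tip (nat_lit 444) (Node.mv (nat_lit 0x800001c000000) (nat_lit 0x36000063000070) (nat_lit 29) (nat_lit 1) (nat_lit 0xfa4018000000c74119))) (Tree.tip (nat_lit 445) (Node.img (nat_lit 0x10000010000038000000000000) (nat_lit 0x67000006000067000020) (nat_lit 443) (nat_lit 1) (nat_lit 134) (nat_lit 128)))) (Tree.br (nat_lit 447) (Tree.tip (nat_lit 446) (Node.img (nat_lit 0x800001c000000) (nat_lit 0x6000062000077) (nat_lit 84) (nat_lit 1) (nat_lit 134) (nat_lit 128))) (Tree.tip (nat_lit 447) (Node.img (nat_lit 0x800001c000000) (nat_lit 0x37000023000007) (nat_lit 96) (nat_lit 2) (nat_lit 128) (nat_lit 130))))))))) (Tree.br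 (nat_lit 480) (Tree.br (nat_lit 464) (Tree.br (nat_lit 456) (Tree.br (nat_lit 452) (Tree.br (nat_lit 450) (Tree.br (nat_lit 449) (Tree.tip (nat_lit 448) (Node.mv (nat_lit 0x10000010000018000000000000) (nat_lit 0x1ef0000e60001ef000028) (nat_lit 53) (nat_lit 5) (nat_lit 0x1bf4119000001be4119000001bc4119000001bd4018000001bb401a000000544119))) (Tree.tip (nat_lit 449) (Node.img (nat_lit 0x1e000000) (nat_lit 0x70000020000007) (nat_lit 17) (nat_lit 6) (nat_lit 134) (nat_lit 128)))) (Tree.br (nat_lit 451) (Tree.tip (nat_lit 450) (Node.mv (nat_lit 0x10000038000000) (nat_lit 0xe700004600000f) (nat_lit 26) (nat_lit 2) (nat_lit 0x1c14019000000db4018000000524119))) (Tree.tip (nat_lit 451) (Node.img (nat_lit 0x2000002000007000000) (nat_lit 0x2000000000000000000000005) (nat_lit 51) (nat_lit 2) (nat_lit 128) (nat_lit 132))))) (Tree.br (nat_lit 454) (Tree.br (nat_lit 453) (Tree.tip (nat_lit 452) (Node.img (nat_lit 0x800000800001c000000) (nat_lit 0x8000000000030000003000030) (nat_lit 118) (nat_lit 2) (nat_lit 128)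 (nat_lit 132))) (Tree.tip (nat_lit 453) (Node.mv (nat_lit 0x10000010000018000000) (nat_lit 0x100000000000e700006600006f) (nat_lit 29) (nat_lit 2) (nat_lit 0x1c44019000001c24018000001c3401b)))) (Tree.br (nat_lit 455) (Tree.tip (nat_lit 454) (Node.mv (nat_lit 0x10000038000000) (nat_lit 0xef000046000007) (nat_lit 26) (nat_lit 2) (nat_lit 0xd74119000000db4018000000524119))) (Tree.tip (nat_lit 455) (Node.mv (nat_lit 0x3a000010) (nat_lit 0x4000027) (nat_lit 26) (nat_lit 1) (nat_lit 0x6e4018000000284019)))))) (Tree.br (nat_lit 460) (Tree.br (nat_lit 458) (Tree.br (nat_lit 457) (Tree.tip (nat_lit 456) (Node.img (nat_lit 0x1e000008000008000000) (nat_lit 0x7000020000000000000000008) (nat_lit 316) (nat_lit 4) (nat_lit 128) (nat_lit 128))) (Tree.tip (nat_lit 457) (Node.mv (nat_lit 0x1c000008000008000000) (nat_lit 0x7000023000030000000000008) (nat_lit 73) (nat_lit 1) (nat_lit 0x1c840180000005f4218)))) (Tree.br (nat_lit 459) (Tree.tip (nat_lit 458) (Node.img (nat_lit 0xe000004000004) (nat_lit 0x8000008000078000011000008000000)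 (nat_lit 327) (nat_lit 1) (nat_lit 134) (nat_lit 128))) (Tree.tip (nat_lit 459) (Node.mv (nat_lit 0xc000008000008000000) (nat_lit 0x100000100000f7000033000030000000000008) (nat_lit 76) (nat_lit 2) (nat_lit 0x1c94018000001ca411900000033401a))))) (Tree.br (nat_lit 462) (Tree.br (nat_lit 461) (Tree.tip (nat_lit 460) (Node.mv (nat_lit 0x1c000008) (nat_lit 0xe00000630000f7) (nat_lit 29) (nat_lit 2) (nat_lit 0x6f40180000007c401a000000b04019))) (Tree.tip (nat_lit 461) (Node.img (nat_lit 60) (nat_lit 0x77000002) (nat_lit 18) (nat_lit 5) (nat_lit 128) (nat_lit 129)))) (Tree.br (nat_lit 463) (Tree.tip (nat_lit 462) (Node.mv (nat_lit 0x1c000000) (nat_lit 0xff0000620000e0) (nat_lit 29) (nat_lit 2) (nat_lit 0x7c401a000000dc4019000001cd4118))) (Tree.tip (nat_lit 463) (Node.mv (nat_lit 0x2000002000002000000000000) (nat_lit 0x4000006000006000004000005000005000007000001) (nat_lit 121) (nat_lit 2) (nat_lit 0x9c41190000014d4018000000064118))))))) (Tree.br (nat_lit 472) (Tree.br (nat_lit 468) (Tree.br (nat_lit 466)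 (Tree.br (nat_lit 465) (Tree.tip (nat_lit 464) (Node.mv (nat_lit 0x3000002000002000000000000) (nat_lit 0x1000007000007000004000004000005000007000001) (nat_lit 121) (nat_lit 2) (nat_lit 0x9141180000014d40180000000f4118))) (Tree.tip (nat_lit 465) (Node.img (nat_lit 0x800000c000008000008) (nat_lit 0x10000070000013000000000000) (nat_lit 180) (nat_lit 2) (nat_lit 128) (nat_lit 132)))) (Tree.br (nat_lit 467) (Tree.tip (nat_lit 466) (Node.mv (nat_lit 0xc000008000008000000) (nat_lit 0x18000078000013000014000014000014) (nat_lit 99) (nat_lit 1) (nat_lit 0x1d1411800000006401a))) (Tree.tip (nat_lit 467) (Node.mv (nat_lit 0x1800000c000008000008000000) (nat_lit 0x20000013000000000000000008) (nat_lit 73) (nat_lit 1) (nat_lit 0x13e4019000000164318))))) (Tree.br (nat_lit 470) (Tree.br (nat_lit 469) (Tree.tip (nat_lit 468) (Node.mv (nat_lit 0x800000c000008000008000000) (nat_lit 0x10000030000013000000000000000008) (nat_lit 100) (nat_lit 1) (nat_lit 0x1d3401800000031411b))) (Tree.tip (nat_lit 469) (Node.mv (nat_lit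 0x2000002000002000002000000) (nat_lit 0x5000007000007000000000000000001000001000001) (nat_lit 121) (nat_lit 1) (nat_lit 0xd34218000000034018)))) (Tree.br (nat_lit 471) (Tree.tip (nat_lit 470) (Node.mv (nat_lit 0x2000003000002000002000000000000) (nat_lit 0x1000003000003000000000000000001000005000007000005) (nat_lit 145) (nat_lit 2) (nat_lit 0x54018000000964318000000034118))) (Tree.tip (nat_lit 471) (Node.mv (nat_lit 0x800000c000008000008000000000000) (nat_lit 0x7000001300000000001400001c000014) (nat_lit 124) (nat_lit 1) (nat_lit 0x5401a0000001f4418)))))) (Tree.br (nat_lit 476) (Tree.br (nat_lit 474) (Tree.br (nat_lit 473) (Tree.tip (nat_lit 472) (Node.img (nat_lit 0x2000002000002000002000000) (nat_lit 0x5000007000007000000000000000004000004000004) (nat_lit 469) (nat_lit 1) (nat_lit 130) (nat_lit 128))) (Tree.tip (nat_lit 473) (Node.mv (nat_lit 0x2000002000002000000000000) (nat_lit 0x5000007000007000002000000000005000005000007000005) (nat_lit 121) (nat_lit 3) (nat_lit 0x1d54118000001d84118000000054018000000064118))))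 (Tree.br (nat_lit 475) (Tree.tip (nat_lit 474) (Node.mv (nat_lit 0x2000003000002000002000000) (nat_lit 0x1000003000003000000000000000005000004000004) (nat_lit 121) (nat_lit 1) (nat_lit 0x964218000000044019))) (Tree.tip (nat_lit 475) (Node.mv (nat_lit 0xc000008000008000000) (nat_lit 0x1800003c000013000014000014000014) (nat_lit 99) (nat_lit 1) (nat_lit 0x145411800000006401a))))) (Tree.br (nat_lit 478) (Tree.br (nat_lit 477) (Tree.tip (nat_lit 476) (Node.mv (nat_lit 0x800000e000004) (nat_lit 0x30000031000003) (nat_lit 28) (nat_lit 1) (nat_lit 0x524118000000b04018))) (Tree.tip (nat_lit 477) (Node.img (nat_lit 0x2000003000001000001) (nat_lit 0x2000002000000000000000002000000) (nat_lit 12) (nat_lit 1) (nat_lit 129) (nat_lit 128)))) (Tree.br (nat_lit 479) (Tree.tip (nat_lit 478) (Node.mv (nat_lit 0xe000004000004) (nat_lit 0x800000800003800003100000b000000) (nat_lit 75) (nat_lit 1) (nat_lit 0x1dc4118000001dd401a))) (Tree.tip (nat_lit 479) (Node.img (nat_lit 0xe000004000004000000) (nat_lit 0x3000030000003000000000004)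 (nat_lit 118) (nat_lit 1) (nat_lit 133) (nat_lit 128)))))))) (Tree.br (nat_lit 496) (Tree.br (nat_lit 488) (Tree.br (nat_lit 484) (Tree.br (nat_lit 482) (Tree.br (nat_lit 481) (Tree.tip (nat_lit 480) (Node.mv (nat_lit 0x6000004000004000000) (nat_lit 0x800000800003b00003900000b000000000004) (nat_lit 75) (nat_lit 2) (nat_lit 0x1df4018000001de4118000000334019))) (Tree.tip (nat_lit 481) (Node.img (nat_lit 0x2000003000002000002000000000000) (nat_lit 0x1000000000000000001000003000001) (nat_lit 150) (nat_lit 2) (nat_lit 128) (nat_lit 133)))) (Tree.br (nat_lit 483) (Tree.tip (nat_lit 482) (Node.mv (nat_lit 0x2000003000002000002000000000000) (nat_lit 0x4000005000000000000000001000003000001) (nat_lit 122) (nat_lit 1) (nat_lit 0x1e14018000000314219))) (Tree.tip (nat_lit 483) (Node.img (nat_lit 0x2000003000002000002000000000000) (nat_lit 0x1000000000000000004000006000004) (nat_lit 274) (nat_lit 4) (nat_lit 128) (nat_lit 128))))) (Tree.br (nat_lit 486) (Tree.br (nat_lit 485) (Tree.tip (nat_lit 484) (Node.mv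 (nat_lit 0x2000003000002000002000000000000) (nat_lit 0x4000005000000000000000004000006000004) (nat_lit 122) (nat_lit 1) (nat_lit 0x1e34018000000314219))) (Tree.tip (nat_lit 485) (Node.img (nat_lit 0x4000003000002000002000000) (nat_lit 0x1000004000000000000000002) (nat_lit 50) (nat_lit 1) (nat_lit 130) (nat_lit 128)))) (Tree.br (nat_lit 487) (Tree.tip (nat_lit 486) (Node.mv (nat_lit 0x2000003000002000002000000) (nat_lit 0x4000005000004000000000000000002) (nat_lit 98) (nat_lit 1) (nat_lit 0x1e54018000000314119))) (Tree.tip (nat_lit 487) (Node.mv (nat_lit 0x2000003000002000002000000000000) (nat_lit 0x1000000000000000005000007000004) (nat_lit 48) (nat_lit 1) (nat_lit 0x1e34018000000014118)))))) (Tree.br (nat_lit 492) (Tree.br (nat_lit 490) (Tree.br (nat_lit 489) (Tree.tip (nat_lit 488) (Node.img (nat_lit 0xc000018) (nat_lit 0x3000064) (nat_lit 31) (nat_lit 1) (nat_lit 134) (nat_lit 128))) (Tree.tip (nat_lit 489) (Node.mv (nat_lit 0x800000c000008000008000000) (nat_lit 0x8000000000003000074000010000010)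 (nat_lit 52) (nat_lit 1) (nat_lit 0x1e842180000008d401b)))) (Tree.br (nat_lit 491) (Tree.tip (nat_lit 490) (Node.img (nat_lit 0x200001c000004000004000000) (nat_lit 0x1000002000000000000000004) (nat_lit 182) (nat_lit 7) (nat_lit 132) (nat_lit 132))) (Tree.tip (nat_lit 491) (Node.mv (nat_lit 0x1c000004000004000000) (nat_lit 0x2000007000022000000000000000004) (nat_lit 97) (nat_lit 1) (nat_lit 0xb64119000001ea4018))))) (Tree.br (nat_lit 494) (Tree.br (nat_lit 493) (Tree.tip (nat_lit 492) (Node.mv (nat_lit 0x1c000008000000000008) (nat_lit 0x30000003000030000008000000) (nat_lit 73) (nat_lit 1) (nat_lit 0x13440190000005f4218))) (Tree.tip (nat_lit 493) (Node.mv (nat_lit 0x2e000000) (nat_lit 0x7000010000070) (nat_lit 28) (nat_lit 1) (nat_lit 0x694118000000774019)))) (Tree.br (nat_lit 495) (Tree.tip (nat_lit 494) (Node.img (nat_lit 0x1000001000001000001000001) (nat_lit 0x2000002000002000000000000000000) (nat_lit 3) (nat_lit 3) (nat_lit 129) (nat_lit 133))) (Tree.tip (nat_lit 495) (Node.img (nat_lit 0x2000002000003000002000002000002000000)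 (nat_lit 0x2000000000000000000000001000000000000000002) (nat_lit 298) (nat_lit 5) (nat_lit 128) (nat_lit 135))))))) (Tree.br (nat_lit 504) (Tree.br (nat_lit 500) (Tree.br (nat_lit 498) (Tree.br (nat_lit 497) (Tree.tip (nat_lit 496) (Node.mv (nat_lit 0x2000003000002000002000002000000) (nat_lit 0x6000006000004000000000001000000000000000002) (nat_lit 145) (nat_lit 1) (nat_lit 0x1ef4018000001ee4219))) (Tree.tip (nat_lit 497) (Node.img (nat_lit 0x6000006000002000002) (nat_lit 0x2000003000003000001000000000004000000) (nat_lit 283) (nat_lit 2) (nat_lit 128) (nat_lit 134)))) (Tree.br (nat_lit 499) (Tree.tip (nat_lit 498) (Node.mv (nat_lit 0x2000006000002000002) (nat_lit 0x2000003000007000005000000000004000000) (nat_lit 74) (nat_lit 1) (nat_lit 0x1f14018000000314019))) (Tree.tip (nat_lit 499) (Node.mv (nat_lit 0x1000000e000004000004) (nat_lit 0x8000008000008000001000008000000) (nat_lit 75) (nat_lit 1) (nat_lit 0x1dd401a000000164218))))) (Tree.br (nat_lit 502) (Tree.br (nat_lit 501) (Tree.tip (nat_lit 500)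 (Node.mv (nat_lit 0x1000000e) (nat_lit 0x68000011) (nat_lit 27) (nat_lit 1) (nat_lit 0x194019000000164018))) (Tree.tip (nat_lit 501) (Node.mv (nat_lit 0x1000000e000004) (nat_lit 0x20000030000003) (nat_lit 28) (nat_lit 1) (nat_lit 0xb040180000002a4119)))) (Tree.br (nat_lit 503) (Tree.tip (nat_lit 502) (Node.img (nat_lit 0x800000c000008000008) (nat_lit 0x14000034000003000000000000) (nat_lit 100) (nat_lit 1) (nat_lit 133) (nat_lit 128))) (Tree.tip (nat_lit 503) (Node.mv (nat_lit 0xc000008000008000000000000) (nat_lit 0x1400003c000013000000000010000018000010) (nat_lit 123) (nat_lit 2) (nat_lit 0x1f642180000019f401b0000000f411a)))))) (Tree.br (nat_lit 508) (Tree.br (nat_lit 506) (Tree.br (nat_lit 505) (Tree.tip (nat_lit 504) (Node.mv (nat_lit 0xc000008000008000000) (nat_lit 0xc00000c000003000074000010000018) (nat_lit 99) (nat_lit 1) (nat_lit 0x1e940180000000f401a))) (Tree.tip (nat_lit 505) (Node.mv (nat_lit 0x300000c000004000004000000) (nat_lit 0x12000000000000000004) (nat_lit 73) (nat_lit 1) (nat_lit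 0x254318000000084019)))) (Tree.br (nat_lit 507) (Tree.tip (nat_lit 506) (Node.img (nat_lit 0x800000e000010000010) (nat_lit 0x8000000000001000008000000) (nat_lit 505) (nat_lit 4) (nat_lit 128) (nat_lit 128))) (Tree.tip (nat_lit 507) (Node.mv (nat_lit 0x1e000010000010000000) (nat_lit 0x8000008000001000008000000000010) (nat_lit 99) (nat_lit 1) (nat_lit 0x1fa411800000008401b))))) (Tree.br (nat_lit 510) (Tree.br (nat_lit 509) (Tree.tip (nat_lit 508) (Node.mv (nat_lit 0xe000008000008000000) (nat_lit 0x30000011000030000000000008) (nat_lit 76) (nat_lit 1) (nat_lit 0x7540190000005f4218))) (Tree.tip (nat_lit 509) (Node.img (nat_lit 0x6000002000002000002000000) (nat_lit 0x1000001000005000000000000000002) (nat_lit 60) (nat_lit 3) (nat_lit 130) (nat_lit 133)))) (Tree.br (nat_lit 511) (Tree.tip (nat_lit 510) (Node.mv (nat_lit 0x6000002000002000000000000000000) (nat_lit 0x1000003000001000005000004000007000007000001) (nat_lit 49) (nat_lit 2) (nat_lit 0x1c4018000000904118000001fd4118))) (Tree.tip (nat_lit 511) (Node.img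 (nat_lit 0x7000003000001000000000000) (nat_lit 0x5000000000000000002000003000003) (nat_lit 195) (nat_lit 4) (nat_lit 128) (nat_lit 128))))))))))
noncomputable def t0_4 : Tree := (Tree.br (nat_lit 576) (Tree.br (nat_lit 544) (Tree.br (nat_lit 528) (Tree.br (nat_lit 520) (Tree.br (nat_lit 516) (Tree.br (nat_lit 514) (Tree.br (nat_lit 513) (Tree.tip (nat_lit 512) (Node.mv (nat_lit 0xc00000c000004000000000000) (nat_lit 0x1400003000000300000800000c00000c) (nat_lit 100) (nat_lit 1) (nat_lit 0x1ff401a000000234318))) (Tree.tip (nat_lit 513) (Node.img (nat_lit 0x1c000008000008) (nat_lit 0x10000010000038000003000030000000) (nat_lit 258) (nat_lit 6) (nat_lit 133) (nat_lit 128)))) (Tree.br (nat_lit 515) (Tree.tip (nat_lit 514) (Node.img (nat_lit 0xe000004000004) (nat_lit 0x2000002000007000030000003000000) (nat_lit 258) (nat_lit 4) (nat_lit 128) (nat_lit 128))) (Tree.tip (nat_lit 515) (Node.mv (nat_lit 0x18000008000008) (nat_lit 0x1400001400003f000067000037000000) (nat_lit 50) (nat_lit 2) (nat_lit 0x604118000002024019000002014018)))))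 (Tree.br (nat_lit 518) (Tree.br (nat_lit 517) (Tree.tip (nat_lit 516) (Node.img (nat_lit 0x800000e000010) (nat_lit 0x10000001000008) (nat_lit 50) (nat_lit 4) (nat_lit 128) (nat_lit 128))) (Tree.tip (nat_lit 517) (Node.mv (nat_lit 0x800001c000010) (nat_lit 0x10000003000028) (nat_lit 25) (nat_lit 1) (nat_lit 0x2044018000000284019)))) (Tree.br (nat_lit 519) (Tree.tip (nat_lit 518) (Node.mv (nat_lit 0x800000e000008000000000000) (nat_lit 0x8000030000031000007000004000004) (nat_lit 76) (nat_lit 1) (nat_lit 0x384018000000524318))) (Tree.tip (nat_lit 519) (Node.img (nat_lit 0x2000003000002000002000002000000) (nat_lit 0x2000002000000000000000001000001000000000002) (nat_lit 379) (nat_lit 3) (nat_lit 129) (nat_lit 135)))))) (Tree.br (nat_lit 524) (Tree.br (nat_lit 522) (Tree.br (nat_lit 521) (Tree.tip (nat_lit 520) (Node.mv (nat_lit 0x3000002000002000002000000) (nat_lit 0x2000006000006000004000001000001000000000002) (nat_lit 121) (nat_lit 1) (nat_lit 0x2074018000001ee4119))) (Tree.tip (nat_lit 521) (Node.img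 (nat_lit 0x1000001000001000003000001000001000000) (nat_lit 0x1000000000000000002000000000000000000000001) (nat_lit 298) (nat_lit 6) (nat_lit 129) (nat_lit 128)))) (Tree.br (nat_lit 523) (Tree.tip (nat_lit 522) (Node.mv (nat_lit 0x2000002000006000002000002000000) (nat_lit 0x3000003000001000004000000000000000000000002) (nat_lit 145) (nat_lit 1) (nat_lit 0x2094019000000104218))) (Tree.tip (nat_lit 523) (Node.mv (nat_lit 0x2000002000002000001) (nat_lit 0x5000007000007000000000000000001000000) (nat_lit 97) (nat_lit 1) (nat_lit 0xd34118000000024018))))) (Tree.br (nat_lit 526) (Tree.br (nat_lit 525) (Tree.tip (nat_lit 524) (Node.img (nat_lit 0x2000002000003000001000000000000) (nat_lit 0x1000000000000000001000001) (nat_lit 12) (nat_lit 2) (nat_lit 128) (nat_lit 133))) (Tree.tip (nat_lit 525) (Node.mv (nat_lit 0x2000002000002000001000000000000) (nat_lit 0x2000000000001000001000000000001000001) (nat_lit 72) (nat_lit 1) (nat_lit 0x20c4018000000444218)))) (Tree.br (nat_lit 527) (Tree.tip (nat_lit 526) (Node.mv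 (nat_lit 0xc000008000008000000) (nat_lit 0x1400001c00003c000003000004000004000004) (nat_lit 99) (nat_lit 2) (nat_lit 0xea401a000001f6411800000172401a))) (Tree.tip (nat_lit 527) (Node.mv (nat_lit 0xf00000800000c000000) (nat_lit 0x18000000000000000000000004) (nat_lit 99) (nat_lit 1) (nat_lit 0x2a431800000001401a))))))) (Tree.br (nat_lit 536) (Tree.br (nat_lit 532) (Tree.br (nat_lit 530) (Tree.br (nat_lit 529) (Tree.tip (nat_lit 528) (Node.img (nat_lit 0x1c000018) (nat_lit 0x3000020) (nat_lit 38) (nat_lit 3) (nat_lit 133) (nat_lit 129))) (Tree.tip (nat_lit 529) (Node.mv (nat_lit 0x1c000010000008000000000000) (nat_lit 0x4000003000028000000000008000008) (nat_lit 75) (nat_lit 1) (nat_lit 0x4e401a000002104318)))) (Tree.br (nat_lit 531) (Tree.tip (nat_lit 530) (Node.mv (nat_lit 0x1e000008000008000008000000) (nat_lit 0x1000010000000000000000008) (nat_lit 76) (nat_lit 1) (nat_lit 0x27431800000041401b))) (Tree.tip (nat_lit 531) (Node.mv (nat_lit 0xe000008000008000008000000) (nat_lit 0x10000011000010000000000000000008)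 (nat_lit 100) (nat_lit 1) (nat_lit 0x212401800000031411b))))) (Tree.br (nat_lit 534) (Tree.br (nat_lit 533) (Tree.tip (nat_lit 532) (Node.mv (nat_lit 0x6000006000000000003000000) (nat_lit 0x2000000000003) (nat_lit 49) (nat_lit 1) (nat_lit 0x414019000000014018))) (Tree.tip (nat_lit 533) (Node.mv (nat_lit 0x1a000018000008) (nat_lit 0x10000030000005000000000000) (nat_lit 50) (nat_lit 1) (nat_lit 0x614019000000274118)))) (Tree.br (nat_lit 535) (Tree.tip (nat_lit 534) (Node.img (nat_lit 0x2000002000002000001000001) (nat_lit 0x2000000) (nat_lit 10) (nat_lit 1) (nat_lit 129) (nat_lit 128))) (Tree.tip (nat_lit 535) (Node.mv (nat_lit 0x2000002000002000001000000000000) (nat_lit 0x1000001000002000001000001) (nat_lit 24) (nat_lit 1) (nat_lit 0x17f4018000002164118)))))) (Tree.br (nat_lit 540) (Tree.br (nat_lit 538) (Tree.br (nat_lit 537) (Tree.tip (nat_lit 536) (Node.mv (nat_lit 0x2000002000002000002) (nat_lit 0x1000007000007000004000004000004000004) (nat_lit 97) (nat_lit 1) (nat_lit 0x904018000001ee4019)))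 (Tree.tip (nat_lit 537) (Node.mv (nat_lit 0x2000003000006000002000000000000) (nat_lit 0x4000001000004000006000006) (nat_lit 25) (nat_lit 1) (nat_lit 0x44019000000324018)))) (Tree.br (nat_lit 539) (Tree.tip (nat_lit 538) (Node.mv (nat_lit 0xa00001c000004000004) (nat_lit 0x2000005000000000000000000) (nat_lit 74) (nat_lit 1) (nat_lit 0x2742180000000e4019))) (Tree.tip (nat_lit 539) (Node.mv (nat_lit 0x2000002000003000000000000) (nat_lit 0x1000003000001000000000004000007000004) (nat_lit 121) (nat_lit 1) (nat_lit 0x114018000000014118))))) (Tree.br (nat_lit 542) (Tree.br (nat_lit 541) (Tree.tip (nat_lit 540) (Node.mv (nat_lit 0x2000003000002000003000002000000) (nat_lit 0x2000000000000000001000000000000000002) (nat_lit 72) (nat_lit 1) (nat_lit 0x444218000000084018))) (Tree.tip (nat_lit 541) (Node.img (nat_lit 0x1000001000001e000000000000) (nat_lit 0x1000038000008) (nat_lit 305) (nat_lit 5) (nat_lit 128) (nat_lit 132)))) (Tree.br (nat_lit 543) (Tree.tip (nat_lit 542) (Node.mv (nat_lit 0x1000001000001c000000000000)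 (nat_lit 0x20000003000038000008) (nat_lit 49) (nat_lit 1) (nat_lit 0x21d40180000002a4219))) (Tree.tip (nat_lit 543) (Node.img (nat_lit 0x400001e000004000000000000) (nat_lit 0x4000000000000000003000002000002) (nat_lit 181) (nat_lit 4) (nat_lit 128) (nat_lit 128)))))))) (Tree.br (nat_lit 560) (Tree.br (nat_lit 552) (Tree.br (nat_lit 548) (Tree.br (nat_lit 546) (Tree.br (nat_lit 545) (Tree.tip (nat_lit 544) (Node.mv (nat_lit 0x400000e000004000000000000) (nat_lit 0x4000003000030000003000002000002) (nat_lit 76) (nat_lit 2) (nat_lit 0x21f4018000000c74318000000b04218))) (Tree.tip (nat_lit 545) (Node.img (nat_lit 0x2000002000004000007000000) (nat_lit 0x2000000000000000002000000000001) (nat_lit 320) (nat_lit 5) (nat_lit 128) (nat_lit 133)))) (Tree.br (nat_lit 547) (Tree.tip (nat_lit 546) (Node.mv (nat_lit 0x6000004000007000000) (nat_lit 0x2000002000000000002000000000005) (nat_lit 97) (nat_lit 1) (nat_lit 0x2214018000000084019))) (Tree.tip (nat_lit 547) (Node.img (nat_lit 0x1e000004000004000000) (nat_lit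 0x3000000000000000000000004) (nat_lit 64) (nat_lit 4) (nat_lit 128) (nat_lit 128))))) (Tree.br (nat_lit 550) (Tree.br (nat_lit 549) (Tree.tip (nat_lit 548) (Node.mv (nat_lit 0x3c000004000004000000) (nat_lit 0x3000002000070000000000004) (nat_lit 73) (nat_lit 1) (nat_lit 0x2234018000000774219))) (Tree.tip (nat_lit 549) (Node.mv (nat_lit 0x1c000004000004000000) (nat_lit 0xe30000620000f8000000000004) (nat_lit 77) (nat_lit 2) (nat_lit 0x224401800000176421a00000175421a)))) (Tree.br (nat_lit 551) (Tree.tip (nat_lit 550) (Node.mv (nat_lit 0x1c000008000000000008) (nat_lit 0x7000023000030000008000000) (nat_lit 73) (nat_lit 1) (nat_lit 0x13640180000005f4218))) (Tree.tip (nat_lit 551) (Node.img (nat_lit 0x7000002000000000002) (nat_lit 0x5000000000000000002000000) (nat_lit 85) (nat_lit 2) (nat_lit 128) (nat_lit 132)))))) (Tree.br (nat_lit 556) (Tree.br (nat_lit 554) (Tree.br (nat_lit 553) (Tree.tip (nat_lit 552) (Node.img (nat_lit 0x1c000008) (nat_lit 0x77000023000030) (nat_lit 84) (nat_lit 2) (nat_lit 128)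 (nat_lit 130))) (Tree.tip (nat_lit 553) (Node.mv (nat_lit 0x1c000008000000000000) (nat_lit 0x77000023000030000008000008) (nat_lit 3) (nat_lit 3) (nat_lit 0x2264018000001ec401800000228421800000227401a)))) (Tree.br (nat_lit 555) (Tree.tip (nat_lit 554) (Node.mv (nat_lit 0x1e000004000000000000000000) (nat_lit 0x200000200000b00000000000a000004000004000004) (nat_lit 50) (nat_lit 2) (nat_lit 0x5e40190000006d4218000000334119))) (Tree.tip (nat_lit 555) (Node.img (nat_lit 0xf000002) (nat_lit 0x10000039) (nat_lit 150) (nat_lit 4) (nat_lit 128) (nat_lit 128))))) (Tree.br (nat_lit 558) (Tree.br (nat_lit 557) (Tree.tip (nat_lit 556) (Node.mv (nat_lit 0xe000004000000000000000000) (nat_lit 0x200000200007b00003000007a000004000004000004) (nat_lit 100) (nat_lit 2) (nat_lit 0x7c43190000022a40180000022b4319))) (Tree.tip (nat_lit 557) (Node.img (nat_lit 0x1e000004000004000000) (nat_lit 0x38000001000000000000000004) (nat_lit 316) (nat_lit 6) (nat_lit 133) (nat_lit 128)))) (Tree.br (nat_lit 559) (Tree.tip (nat_lit 558)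 (Node.mv (nat_lit 0x1e000004000000000000) (nat_lit 0x200000200003b000001000002000004000004) (nat_lit 26) (nat_lit 2) (nat_lit 0x22d40180000006d4118000000334019))) (Tree.tip (nat_lit 559) (Node.mv (nat_lit 0xe000004000000000000) (nat_lit 0x200000200007b000031000072000004000004) (nat_lit 76) (nat_lit 2) (nat_lit 0x7c42190000022e40180000022b4219))))))) (Tree.br (nat_lit 568) (Tree.br (nat_lit 564) (Tree.br (nat_lit 562) (Tree.br (nat_lit 561) (Tree.tip (nat_lit 560) (Node.img (nat_lit 0xf000002) (nat_lit 0x38000010000001) (nat_lit 274) (nat_lit 1) (nat_lit 133) (nat_lit 128))) (Tree.tip (nat_lit 561) (Node.mv (nat_lit 0xe000004) (nat_lit 0x7800003100007a) (nat_lit 28) (nat_lit 2) (nat_lit 0x22b40190000007b4018000002304019)))) (Tree.br (nat_lit 563) (Tree.tip (nat_lit 562) (Node.img (nat_lit 0x7c000008) (nat_lit 0x7000083000010) (nat_lit 496) (nat_lit 6) (nat_lit 135) (nat_lit 128))) (Tree.tip (nat_lit 563) (Node.mv (nat_lit 0x3c000008) (nat_lit 0xe70000c3000010) (nat_lit 30) (nat_lit 1) (nat_lit 0x232401800000079411a)))))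 (Tree.br (nat_lit 566) (Tree.br (nat_lit 565) (Tree.tip (nat_lit 564) (Node.img (nat_lit 0x1000003000002000000000000) (nat_lit 0x1000001000000000000000001000002000002) (nat_lit 31) (nat_lit 5) (nat_lit 128) (nat_lit 134))) (Tree.tip (nat_lit 565) (Node.mv (nat_lit 0x1e000004000000000000) (nat_lit 0x2000002000003000000000002000004000004) (nat_lit 97) (nat_lit 1) (nat_lit 0x2344019000000244318)))) (Tree.br (nat_lit 567) (Tree.tip (nat_lit 566) (Node.mv (nat_lit 0x1c000008000000000000) (nat_lit 0x40000040000e70000e3000014000008000008) (nat_lit 77) (nat_lit 2) (nat_lit 0x233421800000235401900000230421a))) (Tree.tip (nat_lit 567) (Node.img (nat_lit 0x78000020) (nat_lit 0xe000006000017) (nat_lit 417) (nat_lit 3) (nat_lit 134) (nat_lit 130)))))) (Tree.br (nat_lit 572) (Tree.br (nat_lit 570) (Tree.br (nat_lit 569) (Tree.tip (nat_lit 568) (Node.mv (nat_lit 0x70000020000000000000000000) (nat_lit 0x400000de00000e0000d7000020000020000020) (nat_lit 99) (nat_lit 2) (nat_lit 0x129401b0000023743180000005f431a)))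 (Tree.tip (nat_lit 569) (Node.mv (nat_lit 0x1e000008) (nat_lit 0x70000e0000034) (nat_lit 4) (nat_lit 1) (nat_lit 0xf44018000000284019)))) (Tree.br (nat_lit 571) (Tree.tip (nat_lit 570) (Node.mv (nat_lit 0x70000020) (nat_lit 0x1e00038e0000d7) (nat_lit 27) (nat_lit 2) (nat_lit 0x239401a0000023740180000005f401a))) (Tree.tip (nat_lit 571) (Node.mv (nat_lit 0x30000020000000000000000000) (nat_lit 0x100000500003de0003ce0003d7000020000020000020) (nat_lit 102) (nat_lit 6) (nat_lit 0x23a43180000022f411b0000022c401b00000229411a00000236411a00000238401800000231431b))))) (Tree.br (nat_lit 574) (Tree.br (nat_lit 573) (Tree.tip (nat_lit 572) (Node.img (nat_lit 0x400000400000700000c000000) (nat_lit 0x12000002) (nat_lit 175) (nat_lit 2) (nat_lit 128) (nat_lit 132))) (Tree.tip (nat_lit 573) (Node.mv (nat_lit 0x800000800000a000018000000) (nat_lit 0x5000024000004) (nat_lit 50) (nat_lit 1) (nat_lit 0x23c4019000000274118)))) (Tree.br (nat_lit 575) (Tree.tip (nat_lit 574) (Node.mv (nat_lit 0x1e000008000008) (nat_lit 0x400000f000020000004000000)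 (nat_lit 74) (nat_lit 1) (nat_lit 0xc7421800000104401a))) (Tree.tip (nat_lit 575) (Node.mv (nat_lit 0x1b00000a) (nat_lit 21) (nat_lit 2) (nat_lit 1) (nat_lit 0x254018000000164018))))))))) (Tree.br (nat_lit 608) (Tree.br (nat_lit 592) (Tree.br (nat_lit 584) (Tree.br (nat_lit 580) (Tree.br (nat_lit 578) (Tree.br (nat_lit 577) (Tree.tip (nat_lit 576) (Node.img (nat_lit 0x100001e) (nat_lit 0x2000000) (nat_lit 2) (nat_lit 5) (nat_lit 128) (nat_lit 129))) (Tree.tip (nat_lit 577) (Node.mv (nat_lit 0x100000e000004) (nat_lit 0x2000030000003) (nat_lit 28) (nat_lit 1) (nat_lit 0xb04018000002404118)))) (Tree.br (nat_lit 579) (Tree.tip (nat_lit 578) (Node.mv (nat_lit 0xe000010000010000000000010) (nat_lit 0x1000008000000000010000000) (nat_lit 75) (nat_lit 1) (nat_lit 0x27431800000135401b))) (Tree.tip (nat_lit 579) (Node.img (nat_lit 0x3e000014) (nat_lit 0x41000008) (nat_lit 540) (nat_lit 4) (nat_lit 128) (nat_lit 128))))) (Tree.br (nat_lit 582) (Tree.br (nat_lit 581) (Tree.tip (nat_lit 580) (Node.mv (nat_lit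 0x3c000014) (nat_lit 0x43000028) (nat_lit 25) (nat_lit 1) (nat_lit 0x2434018000000284019))) (Tree.tip (nat_lit 581) (Node.img (nat_lit 0x1000002000002000006000000) (nat_lit 0x1000002000000000000000000000004) (nat_lit 80) (nat_lit 7) (nat_lit 130) (nat_lit 133)))) (Tree.br (nat_lit 583) (Tree.tip (nat_lit 582) (Node.mv (nat_lit 0x400000800000e000008000000) (nat_lit 0x4000008000000000001000010000010) (nat_lit 28) (nat_lit 1) (nat_lit 0x245401a000000274118))) (Tree.tip (nat_lit 583) (Node.img (nat_lit 0x800000e000008000008) (nat_lit 0x10000010000001000000000000) (nat_lit 64) (nat_lit 2) (nat_lit 128) (nat_lit 132)))))) (Tree.br (nat_lit 588) (Tree.br (nat_lit 586) (Tree.br (nat_lit 585) (Tree.tip (nat_lit 584) (Node.mv (nat_lit 0x800000a00000c000008000000000000) (nat_lit 0x10000014000005000000000000000008000008) (nat_lit 98) (nat_lit 1) (nat_lit 0x24742180000002e401a))) (Tree.tip (nat_lit 585) (Node.mv (nat_lit 0x2000003c000000) (nat_lit 0x17000002000006) (nat_lit 2) (nat_lit 1) (nat_lit 0x594118000000674019))))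 (Tree.br (nat_lit 587) (Tree.tip (nat_lit 586) (Node.img (nat_lit 0x2000002000000000003000001) (nat_lit 0x2000000000000) (nat_lit 75) (nat_lit 7) (nat_lit 129) (nat_lit 132))) (Tree.tip (nat_lit 587) (Node.mv (nat_lit 0x400000400000000001e000000) (nat_lit 0x4000000000003) (nat_lit 1) (nat_lit 1) (nat_lit 0x24a4019000000674018))))) (Tree.br (nat_lit 590) (Tree.br (nat_lit 589) (Tree.tip (nat_lit 588) (Node.mv (nat_lit 0x1e000002000002000001) (nat_lit 0x3000000000000000001000000) (nat_lit 97) (nat_lit 1) (nat_lit 0x244318000000024018))) (Tree.tip (nat_lit 589) (Node.mv (nat_lit 0x800000c000008000008000000) (nat_lit 0x10000018000010000003000010000010000010) (nat_lit 73) (nat_lit 2) (nat_lit 0x9c401b0000013c4018000002474118)))) (Tree.br (nat_lit 591) (Tree.tip (nat_lit 590) (Node.mv (nat_lit 0xc000008000008000000) (nat_lit 0x1000001c00001c000003000010000010000018) (nat_lit 99) (nat_lit 1) (nat_lit 0x24d40180000000f401a))) (Tree.tip (nat_lit 591) (Node.img (nat_lit 0x4000007000004000004000000) (nat_lit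 0x400000000000000003a000008000008) (nat_lit 437) (nat_lit 2) (nat_lit 128) (nat_lit 133))))))) (Tree.br (nat_lit 600) (Tree.br (nat_lit 596) (Tree.br (nat_lit 594) (Tree.br (nat_lit 593) (Tree.tip (nat_lit 592) (Node.mv (nat_lit 0x800000c000008000008000000) (nat_lit 0x18000010000003000074000010000010) (nat_lit 73) (nat_lit 1) (nat_lit 0x24f4019000002474118))) (Tree.tip (nat_lit 593) (Node.img (nat_lit 0x2000002000003000000000000000000) (nat_lit 0x2000000000000000000000003000001000001) (nat_lit 26) (nat_lit 7) (nat_lit 129) (nat_lit 134)))) (Tree.br (nat_lit 595) (Tree.tip (nat_lit 594) (Node.mv (nat_lit 0x8000018000008000000000000000000) (nat_lit 0x800000000006000001700000c000004000004) (nat_lit 74) (nat_lit 1) (nat_lit 0x251401a0000001f4318))) (Tree.tip (nat_lit 595) (Node.img (nat_lit 0xc00000c000008000008) (nat_lit 0x10000030000003000000000000) (nat_lit 99) (nat_lit 1) (nat_lit 133) (nat_lit 128))))) (Tree.br (nat_lit 598) (Tree.br (nat_lit 597) (Tree.tip (nat_lit 596) (Node.mv (nat_lit 0x400000c000008000008000000)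 (nat_lit 0x18000038000003000014000014000014) (nat_lit 99) (nat_lit 1) (nat_lit 0x6401a000002534118))) (Tree.tip (nat_lit 597) (Node.mv (nat_lit 0x800000000000e000008000000) (nat_lit 0x8000000000008000001000014000014) (nat_lit 75) (nat_lit 1) (nat_lit 0x4040180000003a401a)))) (Tree.br (nat_lit 599) (Tree.tip (nat_lit 598) (Node.img (nat_lit 0x8000008000038000008000000) (nat_lit 0x4000007000004) (nat_lit 136) (nat_lit 6) (nat_lit 133) (nat_lit 128))) (Tree.tip (nat_lit 599) (Node.img (nat_lit 0x2000002000006000002000000000000) (nat_lit 0x1000005000005000000000000000002000002) (nat_lit 250) (nat_lit 4) (nat_lit 128) (nat_lit 128)))))) (Tree.br (nat_lit 604) (Tree.br (nat_lit 602) (Tree.br (nat_lit 601) (Tree.tip (nat_lit 600) (Node.mv (nat_lit 0x8000008000038000000000000000000) (nat_lit 0x400001400001400000400000f00000c000008) (nat_lit 51) (nat_lit 1) (nat_lit 0x257401a000002564118))) (Tree.tip (nat_lit 601) (Node.img (nat_lit 0x2000002000002000002000000) (nat_lit 0x5000005000005000000000000000002)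 (nat_lit 6) (nat_lit 2) (nat_lit 128) (nat_lit 133)))) (Tree.br (nat_lit 603) (Tree.tip (nat_lit 602) (Node.mv (nat_lit 0x400000400001c000000) (nat_lit 0xe00000e00000a000003000002000006) (nat_lit 98) (nat_lit 1) (nat_lit 0x25940190000016c4018))) (Tree.tip (nat_lit 603) (Node.img (nat_lit 0x400000400001e000000) (nat_lit 0x4000000000000000000000003) (nat_lit 64) (nat_lit 5) (nat_lit 128) (nat_lit 132))))) (Tree.br (nat_lit 606) (Tree.br (nat_lit 605) (Tree.tip (nat_lit 604) (Node.mv (nat_lit 0x8000008000038000000) (nat_lit 0x8000000000037000007000006) (nat_lit 26) (nat_lit 1) (nat_lit 0x15341180000025b4019))) (Tree.tip (nat_lit 605) (Node.mv (nat_lit 0x800000800000800000800000e) (nat_lit 0x10000011) (nat_lit 28) (nat_lit 1) (nat_lit 0x39401b000000164018)))) (Tree.br (nat_lit 607) (Tree.tip (nat_lit 606) (Node.mv (nat_lit 0x3000006000006000000000000000000) (nat_lit 0x1000004000000000000000002000002000002) (nat_lit 49) (nat_lit 1) (nat_lit 0x4640190000000e4218))) (Tree.tip (nat_lit 607) (Node.mv (nat_lit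 0x6000006000002000000000000) (nat_lit 0x3000003000003000000000000000001000003000003) (nat_lit 121) (nat_lit 1) (nat_lit 0x9f4218000000924018)))))))) (Tree.br (nat_lit 624) (Tree.br (nat_lit 616) (Tree.br (nat_lit 612) (Tree.br (nat_lit 610) (Tree.br (nat_lit 609) (Tree.tip (nat_lit 608) (Node.img (nat_lit 0xc000008000008000008000000) (nat_lit 0x10000030000007000000000000000008) (nat_lit 346) (nat_lit 1) (nat_lit 133) (nat_lit 128))) (Tree.tip (nat_lit 609) (Node.mv (nat_lit 0xc000008000008000000000000) (nat_lit 0x1800003000000700001400001c00001c) (nat_lit 27) (nat_lit 1) (nat_lit 0x260401800000006401a)))) (Tree.br (nat_lit 611) (Tree.tip (nat_lit 610) (Node.mv (nat_lit 0xc000008000008000000000000) (nat_lit 0x14000030000007000000000008000008) (nat_lit 27) (nat_lit 1) (nat_lit 0x26040180000000e411a))) (Tree.tip (nat_lit 611) (Node.mv (nat_lit 0xc000008000008000000) (nat_lit 0x400001c00007c000013000004000004000004) (nat_lit 99) (nat_lit 1) (nat_lit 0x1d14118000000ea401a))))) (Tree.br (nat_lit 614)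 (Tree.br (nat_lit 613) (Tree.tip (nat_lit 612) (Node.mv (nat_lit 0xc00001e000000000000000000) (nat_lit 0x4000000000001000038000008000008) (nat_lit 51) (nat_lit 1) (nat_lit 0x5f42180000002e401a))) (Tree.tip (nat_lit 613) (Node.mv (nat_lit 0x1800000c00000c) (nat_lit 0x20000033000003) (nat_lit 28) (nat_lit 1) (nat_lit 0x894118000000234018)))) (Tree.br (nat_lit 615) (Tree.tip (nat_lit 614) (Node.img (nat_lit 0x2000003000003000002000000) (nat_lit 0x2000002000000000000000004000004000004) (nat_lit 149) (nat_lit 3) (nat_lit 130) (nat_lit 134))) (Tree.tip (nat_lit 615) (Node.mv (nat_lit 0x2000003000003000000000000000000) (nat_lit 0x2000002000001000000000004000006000006000002) (nat_lit 49) (nat_lit 1) (nat_lit 0x26641180000002e4018)))))) (Tree.br (nat_lit 620) (Tree.br (nat_lit 618) (Tree.br (nat_lit 617) (Tree.tip (nat_lit 616) (Node.img (nat_lit 0x2000002000002000003000002000002000000) (nat_lit 0x2000000000000000001000000000000000000000002) (nat_lit 298) (nat_lit 4) (nat_lit 128) (nat_lit 128))) (Tree.tip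 (nat_lit 617) (Node.mv (nat_lit 0x2000002000003000002000002000000) (nat_lit 0x2000002000000000001000004000004000004000002) (nat_lit 145) (nat_lit 1) (nat_lit 0x2684018000000044119)))) (Tree.br (nat_lit 619) (Tree.tip (nat_lit 618) (Node.img (nat_lit 0x3c000020) (nat_lit 0x2000017) (nat_lit 29) (nat_lit 5) (nat_lit 128) (nat_lit 129))) (Tree.tip (nat_lit 619) (Node.mv (nat_lit 0x3c000020) (nat_lit 0x60000002000017) (nat_lit 53) (nat_lit 1) (nat_lit 0x26a40180000002a411a))))) (Tree.br (nat_lit 622) (Tree.br (nat_lit 621) (Tree.tip (nat_lit 620) (Node.img (nat_lit 0x1800001c000002) (nat_lit 0x3000001) (nat_lit 240) (nat_lit 2) (nat_lit 128) (nat_lit 130))) (Tree.tip (nat_lit 621) (Node.img (nat_lit 0x600000e000001) (nat_lit 0x30000002) (nat_lit 69) (nat_lit 5) (nat_lit 128) (nat_lit 130)))) (Tree.br (nat_lit 623) (Tree.tip (nat_lit 622) (Node.mv (nat_lit 0x1c00001c000000) (nat_lit 0x63000007) (nat_lit 1) (nat_lit 1) (nat_lit 0x26d40190000026c4018))) (Tree.tip (nat_lit 623) (Node.mv (nat_lit 0x8000038000010000000000000)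 (nat_lit 0x8000008000017000000000008000010000010) (nat_lit 98) (nat_lit 1) (nat_lit 0x234401b000000e54318))))))) (Tree.br (nat_lit 632) (Tree.br (nat_lit 628) (Tree.br (nat_lit 626) (Tree.br (nat_lit 625) (Tree.tip (nat_lit 624) (Node.mv (nat_lit 0x2000006000003000000000000) (nat_lit 0x1000007000005000000000000000003000002) (nat_lit 121) (nat_lit 1) (nat_lit 0x2574018000000014118))) (Tree.tip (nat_lit 625) (Node.img (nat_lit 0x800000d000008) (nat_lit 0x10000002000010) (nat_lit 85) (nat_lit 6) (nat_lit 132) (nat_lit 128)))) (Tree.br (nat_lit 627) (Tree.tip (nat_lit 626) (Node.mv (nat_lit 0xd00000c000000000000) (nat_lit 0x8000018000002000010000004000004) (nat_lit 99) (nat_lit 1) (nat_lit 0x271421800000037401a))) (Tree.tip (nat_lit 627) (Node.img (nat_lit 0x1000000000003000003000000) (nat_lit 0x1000000000001000000000000000002) (nat_lit 41) (nat_lit 7) (nat_lit 129) (nat_lit 133))))) (Tree.br (nat_lit 630) (Tree.br (nat_lit 629) (Tree.tip (nat_lit 628) (Node.mv (nat_lit 0x400000000000f000004000000)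 (nat_lit 0x4000000000004000000000018000008) (nat_lit 27) (nat_lit 1) (nat_lit 0x273401a000000284118))) (Tree.tip (nat_lit 629) (Node.mv (nat_lit 0x600001c000004000004000000) (nat_lit 0x9000000000000000000000004) (nat_lit 99) (nat_lit 1) (nat_lit 0x27431800000041401a)))) (Tree.br (nat_lit 631) (Tree.tip (nat_lit 630) (Node.img (nat_lit 0x1200000e) (nat_lit 0x21000010) (nat_lit 186) (nat_lit 4) (nat_lit 128) (nat_lit 128))) (Tree.tip (nat_lit 631) (Node.mv (nat_lit 0x1a00000a) (nat_lit 0x21000015) (nat_lit 2) (nat_lit 1) (nat_lit 0x2764018000000164018)))))) (Tree.br (nat_lit 636) (Tree.br (nat_lit 634) (Tree.br (nat_lit 633) (Tree.tip (nat_lit 632) (Node.img (nat_lit 0x6000007000004000000000000) (nat_lit 0x8000018000000000000000004000004) (nat_lit 98) (nat_lit 4) (nat_lit 128) (nat_lit 128))) (Tree.tip (nat_lit 633) (Node.mv (nat_lit 0x18000018000010000000000000) (nat_lit 0x20000060000007000020000010000010) (nat_lit 74) (nat_lit 2) (nat_lit 0x139421800000278401a000000894318)))) (Tree.br (nat_lit 635)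 (Tree.tip (nat_lit 634) (Node.mv (nat_lit 0xe000004000006000000000000) (nat_lit 0x2000001000038000000000004000004) (nat_lit 75) (nat_lit 1) (nat_lit 0xe842180000004e4019))) (Tree.tip (nat_lit 635) (Node.mv (nat_lit 0x200000e000000) (nat_lit 0x71000030000007) (nat_lit 28) (nat_lit 1) (nat_lit 0x1c14018000000244118))))) (Tree.br (nat_lit 638) (Tree.br (nat_lit 637) (Tree.tip (nat_lit 636) (Node.img (nat_lit 0x2000000000003000001000000000000) (nat_lit 0x2000000000002000000000002000001000001) (nat_lit 252) (nat_lit 5) (nat_lit 128) (nat_lit 134))) (Tree.tip (nat_lit 637) (Node.mv (nat_lit 0x10000000000038000000000000000000) (nat_lit 0x1000000000001000004400001f000008000008) (nat_lit 51) (nat_lit 1) (nat_lit 0x7142180000027c401b)))) (Tree.br (nat_lit 639) (Tree.tip (nat_lit 638) (Node.mv (nat_lit 0x200000e00000c) (nat_lit 0x1000030000003) (nat_lit 28) (nat_lit 1) (nat_lit 0x234018000000244118))) (Tree.tip (nat_lit 639) (Node.img (nat_lit 0x1000002000006000006) (nat_lit 0x3000002000000000000000000) (nat_lit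 240) (nat_lit 7) (nat_lit 130) (nat_lit 132))))))))))
noncomputable def t0_5 : Tree := (Tree.br (nat_lit 704) (Tree.br (nat_lit 672) (Tree.br (nat_lit 656) (Tree.br (nat_lit 648) (Tree.br (nat_lit 644) (Tree.br (nat_lit 642) (Tree.br (nat_lit 641) (Tree.tip (nat_lit 640) (Node.mv (nat_lit 0x1000003000004000006000000) (nat_lit 0x3000002000000000002000000000002) (nat_lit 49) (nat_lit 1) (nat_lit 0x27f4118000000084018))) (Tree.tip (nat_lit 641) (Node.mv (nat_lit 0x38000020000030000000) (nat_lit 0x1800001f000044000010000000000010) (nat_lit 99) (nat_lit 1) (nat_lit 0x280401b000001464318)))) (Tree.br (nat_lit 643) (Tree.tip (nat_lit 642) (Node.img (nat_lit 0x400000600000e000000000000) (nat_lit 0x30000003000002) (nat_lit 98) (nat_lit 3) (nat_lit 133) (nat_lit 132))) (Tree.tip (nat_lit 643) (Node.mv (nat_lit 0x800001c000018000000000000) (nat_lit 0x20000067000006000004) (nat_lit 50) (nat_lit 1) (nat_lit 0x2824019000000894218))))) (Tree.br (nat_lit 646) (Tree.br (nat_lit 645) (Tree.tip (nat_lit 644) (Node.mv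 (nat_lit 0xf000006000004) (nat_lit 0x8000018000000000018000000) (nat_lit 27) (nat_lit 1) (nat_lit 0x614018000000254118))) (Tree.tip (nat_lit 645) (Node.img (nat_lit 0x200001e000004000004) (nat_lit 0x2000000000000000003000000) (nat_lit 175) (nat_lit 6) (nat_lit 132) (nat_lit 128)))) (Tree.br (nat_lit 647) (Tree.tip (nat_lit 646) (Node.mv (nat_lit 0x200001c000004000004) (nat_lit 0x2000001000002000003000000) (nat_lit 49) (nat_lit 1) (nat_lit 0x2854018000000244218))) (Tree.tip (nat_lit 647) (Node.mv (nat_lit 0x200000c000004000004) (nat_lit 0xa00000d000030000000000000) (nat_lit 74) (nat_lit 1) (nat_lit 0x9840180000000e4019)))))) (Tree.br (nat_lit 652) (Tree.br (nat_lit 650) (Tree.br (nat_lit 649) (Tree.tip (nat_lit 648) (Node.img (nat_lit 0x600000c000004000004000000) (nat_lit 0x1000032000000000000000004) (nat_lit 467) (nat_lit 1) (nat_lit 133) (nat_lit 128))) (Tree.tip (nat_lit 649) (Node.mv (nat_lit 0x200000c000004000004000000) (nat_lit 0x2000005000032000000000000000004) (nat_lit 98) (nat_lit 1) (nat_lit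 0x28840180000000e4119)))) (Tree.br (nat_lit 651) (Tree.tip (nat_lit 650) (Node.mv (nat_lit 0xc000004000004000000) (nat_lit 0xa00000f000032000000000000000004) (nat_lit 97) (nat_lit 2) (nat_lit 0x2894018000002874118000000324019))) (Tree.tip (nat_lit 651) (Node.mv (nat_lit 0x800000d000008000010) (nat_lit 0x8000000000002000010000000) (nat_lit 28) (nat_lit 1) (nat_lit 0x2d41180000000b401b))))) (Tree.br (nat_lit 654) (Tree.br (nat_lit 653) (Tree.tip (nat_lit 652) (Node.img (nat_lit 0x800000d000008000008) (nat_lit 0x10000010000002000000000000) (nat_lit 308) (nat_lit 4) (nat_lit 128) (nat_lit 128))) (Tree.tip (nat_lit 653) (Node.mv (nat_lit 0x800000c000008000018) (nat_lit 0x10000018000010000003000010000000) (nat_lit 48) (nat_lit 2) (nat_lit 0x193401b0000028b40180000028c4018)))) (Tree.br (nat_lit 655) (Tree.tip (nat_lit 654) (Node.mv (nat_lit 0xc000008000008000000) (nat_lit 0x1400001c00003c000003000010000010000010) (nat_lit 99) (nat_lit 2) (nat_lit 0x24d4018000001f6411800000090401a))) (Tree.tip (nat_lit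 655) (Node.mv (nat_lit 0x1000002000006000006000000000000000000) (nat_lit 0x5000000000000000002000002000002) (nat_lit 49) (nat_lit 1) (nat_lit 0x464019000000304218))))))) (Tree.br (nat_lit 664) (Tree.br (nat_lit 660) (Tree.br (nat_lit 658) (Tree.br (nat_lit 657) (Tree.tip (nat_lit 656) (Node.mv (nat_lit 0x3000002000002000006000000000000000000) (nat_lit 0x2000000000005000004000000000002000002000002) (nat_lit 98) (nat_lit 1) (nat_lit 0x28f40180000000b4319))) (Tree.tip (nat_lit 657) (Node.mv (nat_lit 0x3000002000002000002000000000000000000) (nat_lit 0x2000000000005000004000004000006000002000002) (nat_lit 74) (nat_lit 1) (nat_lit 0x2904018000000394219)))) (Tree.br (nat_lit 659) (Tree.tip (nat_lit 658) (Node.img (nat_lit 0x8000008000008000008000000) (nat_lit 0x8000000000000000030000017000014) (nat_lit 173) (nat_lit 1) (nat_lit 133) (nat_lit 128))) (Tree.tip (nat_lit 659) (Node.mv (nat_lit 0xc000008000008000000000000000000000000) (nat_lit 0x800000000001400003000001f00001c00000c000008) (nat_lit 75) (nat_lit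 2) (nat_lit 0x291401a00000292421800000034411a))))) (Tree.br (nat_lit 662) (Tree.br (nat_lit 661) (Tree.tip (nat_lit 660) (Node.mv (nat_lit 0x800000e000008000008000000) (nat_lit 0x8000000000001000034000004000004) (nat_lit 50) (nat_lit 1) (nat_lit 0x4d42180000003a401a))) (Tree.tip (nat_lit 661) (Node.mv (nat_lit 0x4000004000004000000000000000000) (nat_lit 0xc00000800000800000300003e00000e00000a) (nat_lit 50) (nat_lit 2) (nat_lit 0x14d4019000000ad41180000019f401a)))) (Tree.br (nat_lit 663) (Tree.tip (nat_lit 662) (Node.mv (nat_lit 0x400000c000004000004000000) (nat_lit 0xa00000b000030000000000002000002) (nat_lit 25) (nat_lit 1) (nat_lit 0x644118000000014019))) (Tree.tip (nat_lit 663) (Node.img (nat_lit 0xc00001c000004000004) (nat_lit 0x2000003000000000000000000) (nat_lit 97) (nat_lit 6) (nat_lit 132) (nat_lit 128)))))) (Tree.br (nat_lit 668) (Tree.br (nat_lit 666) (Tree.br (nat_lit 665) (Tree.tip (nat_lit 664) (Node.mv (nat_lit 0xc00000c000006000004) (nat_lit 0x2000003000030000000000000) (nat_lit 52)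 (nat_lit 1) (nat_lit 0x2974018000000184119))) (Tree.tip (nat_lit 665) (Node.img (nat_lit 0x1000003000001000001000000000000) (nat_lit 0x2000000000000000002000003000002) (nat_lit 150) (nat_lit 3) (nat_lit 129) (nat_lit 133)))) (Tree.br (nat_lit 667) (Tree.tip (nat_lit 666) (Node.mv (nat_lit 0x2000002000006000002000000000000000000) (nat_lit 0x4000000000001000007000007000004) (nat_lit 49) (nat_lit 1) (nat_lit 0x2994019000000034118))) (Tree.tip (nat_lit 667) (Node.mv (nat_lit 0x2000007000006000000000000) (nat_lit 0xc00001c000000000000000006000006) (nat_lit 98) (nat_lit 1) (nat_lit 0x2784018000000374019))))) (Tree.br (nat_lit 670) (Tree.br (nat_lit 669) (Tree.tip (nat_lit 668) (Node.mv (nat_lit 0x8000008000008000038) (nat_lit 0x10000010000000000017000040) (nat_lit 76) (nat_lit 1) (nat_lit 0x106401800000031401b))) (Tree.tip (nat_lit 669) (Node.img (nat_lit 0x200000200000200001e000000) (nat_lit 0x38000001000001) (nat_lit 372) (nat_lit 2) (nat_lit 128) (nat_lit 132)))) (Tree.br (nat_lit 671) (Tree.tip (nat_lit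 670) (Node.mv (nat_lit 0x200000200000200000e000000) (nat_lit 0x3c000031000071) (nat_lit 28) (nat_lit 1) (nat_lit 0x29d4018000001514019))) (Tree.tip (nat_lit 671) (Node.mv (nat_lit 0x8000008000008000018000000) (nat_lit 0x100000100000000000f70000e70001c4) (nat_lit 29) (nat_lit 3) (nat_lit 0x15440180000029e401a0000029c41180000015e4019)))))))) (Tree.br (nat_lit 688) (Tree.br (nat_lit 680) (Tree.br (nat_lit 676) (Tree.br (nat_lit 674) (Tree.br (nat_lit 673) (Tree.tip (nat_lit 672) (Node.mv (nat_lit 0x8000008000008000008000000) (nat_lit 0x100000100000000000f70000f70001d4) (nat_lit 28) (nat_lit 1) (nat_lit 0x29f401800000039401b))) (Tree.tip (nat_lit 673) (Node.img (nat_lit 0x200000200000e000002000000) (nat_lit 0x10000001000001) (nat_lit 64) (nat_lit 1) (nat_lit 132) (nat_lit 128)))) (Tree.br (nat_lit 675) (Tree.tip (nat_lit 674) (Node.mv (nat_lit 0x200000600000e000000000000000000) (nat_lit 0x4000000000010000003000003000002) (nat_lit 49) (nat_lit 1) (nat_lit 0x2a14118000000464019))) (Tree.tip (nat_lit 675)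 (Node.mv (nat_lit 0x200000200000200000e000000000000000000) (nat_lit 0x2000000000004000004000010000003000003000002) (nat_lit 98) (nat_lit 1) (nat_lit 0x2a240180000000b4319))))) (Tree.br (nat_lit 678) (Tree.br (nat_lit 677) (Tree.tip (nat_lit 676) (Node.img (nat_lit 0x200000600000e) (nat_lit 0x1000038000031) (nat_lit 195) (nat_lit 1) (nat_lit 133) (nat_lit 128))) (Tree.tip (nat_lit 677) (Node.mv (nat_lit 0x200000200000200000e) (nat_lit 0x200000000000100003c000031) (nat_lit 26) (nat_lit 1) (nat_lit 0x2a440180000000b4019)))) (Tree.br (nat_lit 679) (Tree.tip (nat_lit 678) (Node.mv (nat_lit 0x8000008000008000008000000) (nat_lit 0x18000010000000000030000017000014) (nat_lit 100) (nat_lit 1) (nat_lit 0x292401800000031411b))) (Tree.tip (nat_lit 679) (Node.mv (nat_lit 0xc00000400000400000c000000) (nat_lit 0x1400003000000b000008000000000004) (nat_lit 75) (nat_lit 1) (nat_lit 0x11d411800000041401a)))))) (Tree.br (nat_lit 684) (Tree.br (nat_lit 682) (Tree.br (nat_lit 681) (Tree.tip (nat_lit 680) (Node.mv (nat_lit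 0xc000004000004000004000000) (nat_lit 0x1400003000000b00000800000800000c) (nat_lit 27) (nat_lit 1) (nat_lit 0x2a7401800000039401a))) (Tree.tip (nat_lit 681) (Node.mv (nat_lit 0x4000004000004000004000000) (nat_lit 0x1c00003800000b00000800000800000c) (nat_lit 99) (nat_lit 1) (nat_lit 0x2a8401800000031411a)))) (Tree.br (nat_lit 683) (Tree.tip (nat_lit 682) (Node.mv (nat_lit 0x1000001000001000001000001000001000000) (nat_lit 0x1000000000000000002000002000002000000000001) (nat_lit 73) (nat_lit 1) (nat_lit 0x2094018000000394218))) (Tree.tip (nat_lit 683) (Node.mv (nat_lit 0x2000002000002000002000002000000) (nat_lit 0x3000003000001000004000004000004000000000002) (nat_lit 145) (nat_lit 1) (nat_lit 0x2aa4019000000104218))))) (Tree.br (nat_lit 686) (Tree.br (nat_lit 685) (Tree.tip (nat_lit 684) (Node.mv (nat_lit 0x2000002000002000003000000) (nat_lit 0x3000003000003000004000004000005000000000002) (nat_lit 121) (nat_lit 1) (nat_lit 0x2ab4018000000024118))) (Tree.tip (nat_lit 685) (Node.mv (nat_lit 0x2000002000002000002000000)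 (nat_lit 0x3000003000003000004000004000005000001000003) (nat_lit 24) (nat_lit 1) (nat_lit 0x2ac4018000000014018)))) (Tree.br (nat_lit 687) (Tree.tip (nat_lit 686) (Node.mv (nat_lit 0x2000002000002000002000000) (nat_lit 0x7000007000007000004000004000004000000000002) (nat_lit 121) (nat_lit 2) (nat_lit 0xd34218000002ab4018000001ee4119))) (Tree.tip (nat_lit 687) (Node.img (nat_lit 0x2000002000002000003) (nat_lit 0x4000006000004000000000001000000) (nat_lit 28) (nat_lit 3) (nat_lit 130) (nat_lit 133))))))) (Tree.br (nat_lit 696) (Tree.br (nat_lit 692) (Tree.br (nat_lit 690) (Tree.br (nat_lit 689) (Tree.tip (nat_lit 688) (Node.mv (nat_lit 0x2000002000002000002000000000000000000) (nat_lit 0x7000007000007000004000005000005000001000006000006000006) (nat_lit 72) (nat_lit 4) (nat_lit 0x2ac4218000002ae42180000020b4318000001a54018000002af4318))) (Tree.tip (nat_lit 689) (Node.img (nat_lit 0x2000002000002000002000000000000000000) (nat_lit 0x4000004000004000000000000000007000007000005) (nat_lit 469) (nat_lit 3)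 (nat_lit 130) (nat_lit 135)))) (Tree.br (nat_lit 691) (Tree.tip (nat_lit 690) (Node.mv (nat_lit 0x2000002000002000000000000000000000000) (nat_lit 0x7000007000007000004000005000005000003000007000007000007) (nat_lit 73) (nat_lit 4) (nat_lit 0x2b04018000002ad4218000002b14018000001d542180000014d4118))) (Tree.tip (nat_lit 691) (Node.img (nat_lit 0xe000008000008000008) (nat_lit 0x10000011000030000000000000) (nat_lit 177) (nat_lit 1) (nat_lit 133) (nat_lit 128))))) (Tree.br (nat_lit 694) (Tree.br (nat_lit 693) (Tree.tip (nat_lit 692) (Node.mv (nat_lit 0xe000008000008000008000000) (nat_lit 0x10000011000030000000000010000010) (nat_lit 4) (nat_lit 1) (nat_lit 0x2b3411800000043401b))) (Tree.tip (nat_lit 693) (Node.mv (nat_lit 0xa000008000008000008000000) (nat_lit 0x14000015000010000000000000000008) (nat_lit 98) (nat_lit 1) (nat_lit 0x21340180000000e411a)))) (Tree.br (nat_lit 695) (Tree.tip (nat_lit 694) (Node.mv (nat_lit 0x2000002000006000002000000000000000000) (nat_lit 0x1000001000004000000000001000007000007000004)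 (nat_lit 144) (nat_lit 1) (nat_lit 0x29a40180000000e4318))) (Tree.tip (nat_lit 695) (Node.mv (nat_lit 0x600000c00000c000004) (nat_lit 0x8000009000030000000000000) (nat_lit 75) (nat_lit 1) (nat_lit 0x4d421800000044401a)))))) (Tree.br (nat_lit 700) (Tree.br (nat_lit 698) (Tree.br (nat_lit 697) (Tree.tip (nat_lit 696) (Node.img (nat_lit 0x8000008000018000008000000) (nat_lit 0x60000017000004) (nat_lit 565) (nat_lit 6) (nat_lit 134) (nat_lit 128))) (Tree.tip (nat_lit 697) (Node.mv (nat_lit 0x8000008000018000008000000) (nat_lit 0x4000004000000000060000017000004) (nat_lit 98) (nat_lit 1) (nat_lit 0x2b840180000000e411a)))) (Tree.br (nat_lit 699) (Tree.tip (nat_lit 698) (Node.mv (nat_lit 0x1000001000003000001000000000000) (nat_lit 0x2000003000003000002000002000000000000000001000001) (nat_lit 144) (nat_lit 2) (nat_lit 0x19343180000017b4018000001ee4218))) (Tree.tip (nat_lit 699) (Node.mv (nat_lit 0x600000400000c000004000000000000) (nat_lit 0x800000900003800000000000800000c00000c) (nat_lit 99) (nat_lit 2) (nat_lit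 0x9e401a000002b7421800000046401a))))) (Tree.br (nat_lit 702) (Tree.br (nat_lit 701) (Tree.tip (nat_lit 700) (Node.mv (nat_lit 0x400000400000c000004000000000000) (nat_lit 0xa00000b00003800000000000800000c00000c) (nat_lit 121) (nat_lit 1) (nat_lit 0x2bb40180000000e4219))) (Tree.tip (nat_lit 701) (Node.img (nat_lit 0xf000004000004) (nat_lit 0x8000018000000000018000000) (nat_lit 108) (nat_lit 1) (nat_lit 132) (nat_lit 128)))) (Tree.br (nat_lit 703) (Tree.tip (nat_lit 702) (Node.mv (nat_lit 0xe000008000008) (nat_lit 0x10000077000030000070000000) (nat_lit 52) (nat_lit 2) (nat_lit 0xdc4118000000d74218000002bd4019))) (Tree.tip (nat_lit 703) (Node.mv (nat_lit 0x2000002000002000002000000) (nat_lit 0x1000003000003000000000004000005000005000001) (nat_lit 121) (nat_lit 1) (nat_lit 0x904118000000034018))))))))) (Tree.br (nat_lit 736) (Tree.br (nat_lit 720) (Tree.br (nat_lit 712) (Tree.br (nat_lit 708) (Tree.br (nat_lit 706) (Tree.br (nat_lit 705) (Tree.tip (nat_lit 704) (Node.mv (nat_lit 0x2000002000002000000000000)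 (nat_lit 0x1000007000007000006000004000005000005000003000001) (nat_lit 121) (nat_lit 3) (nat_lit 0x2bf41180000021842180000014d4018000001724118))) (Tree.tip (nat_lit 705) (Node.mv (nat_lit 0x2000003000002000002000000) (nat_lit 0x2000002000002000001000004000005000005000003) (nat_lit 121) (nat_lit 1) (nat_lit 0x2694018000000034018)))) (Tree.br (nat_lit 707) (Tree.tip (nat_lit 706) (Node.mv (nat_lit 0x3000002000002000000) (nat_lit 0x3000003000003000003000004000005000005000003) (nat_lit 97) (nat_lit 2) (nat_lit 0x2c14018000002bf40180000000f4018))) (Tree.tip (nat_lit 707) (Node.mv (nat_lit 0x2000002000002000002) (nat_lit 0x4000007000007000001000004000004000004) (nat_lit 97) (nat_lit 1) (nat_lit 0x9c4019000000104018))))) (Tree.br (nat_lit 710) (Tree.br (nat_lit 709) (Tree.tip (nat_lit 708) (Node.mv (nat_lit 0x6000002000003000000) (nat_lit 0x4000006000000000000000000000003) (nat_lit 97) (nat_lit 1) (nat_lit 0x994019000000014018))) (Tree.tip (nat_lit 709) (Node.mv (nat_lit 0x40000038000000) (nat_lit 0x20000006000077)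 (nat_lit 26) (nat_lit 1) (nat_lit 0x11f401800000021411a)))) (Tree.br (nat_lit 711) (Tree.tip (nat_lit 710) (Node.img (nat_lit 0x400001e000000000002000000) (nat_lit 0x3000000000002) (nat_lit 279) (nat_lit 6) (nat_lit 132) (nat_lit 128))) (Tree.tip (nat_lit 711) (Node.mv (nat_lit 0x400000e000000000002000000) (nat_lit 0x70000030000073000000000002) (nat_lit 76) (nat_lit 1) (nat_lit 0x7c4219000002c64018)))))) (Tree.br (nat_lit 716) (Tree.br (nat_lit 714) (Tree.br (nat_lit 713) (Tree.tip (nat_lit 712) (Node.mv (nat_lit 0x2000003000002000003000000000000) (nat_lit 0x2000000000000000001000004000006000006) (nat_lit 25) (nat_lit 1) (nat_lit 0x21c4018000000044019))) (Tree.tip (nat_lit 713) (Node.img (nat_lit 0x400000c00000f000000000000) (nat_lit 0x18000008) (nat_lit 97) (nat_lit 2) (nat_lit 128) (nat_lit 132)))) (Tree.br (nat_lit 715) (Tree.tip (nat_lit 714) (Node.mv (nat_lit 0xe00000f000000000000) (nat_lit 0x400000400000000000000001a00000a) (nat_lit 98) (nat_lit 1) (nat_lit 0x2c94018000000374019))) (Tree.tip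 (nat_lit 715) (Node.img (nat_lit 0xf000006) (nat_lit 0x38000030000000) (nat_lit 146) (nat_lit 7) (nat_lit 133) (nat_lit 130))))) (Tree.br (nat_lit 718) (Tree.br (nat_lit 717) (Tree.tip (nat_lit 716) (Node.mv (nat_lit 0xe000006000002000000000000) (nat_lit 0x39000031000000000000000002000002) (nat_lit 96) (nat_lit 1) (nat_lit 0x2cb43180000004e4018))) (Tree.tip (nat_lit 717) (Node.img (nat_lit 0x3c000018) (nat_lit 0x3000007) (nat_lit 158) (nat_lit 5) (nat_lit 128) (nat_lit 129)))) (Tree.br (nat_lit 719) (Tree.tip (nat_lit 718) (Node.mv (nat_lit 0x38000018000008000000000000) (nat_lit 0x4000007000007000000000008000008) (nat_lit 98) (nat_lit 1) (nat_lit 0x2cd43180000004e401a))) (Tree.tip (nat_lit 719) (Node.mv (nat_lit 0x18000018000008000000000000) (nat_lit 0xe40000e7000007000000000008000008) (nat_lit 101) (nat_lit 2) (nat_lit 0x2ce4018000002cc401a000000234319))))))) (Tree.br (nat_lit 728) (Tree.br (nat_lit 724) (Tree.br (nat_lit 722) (Tree.br (nat_lit 721) (Tree.tip (nat_lit 720) (Node.mv (nat_lit 0x38000018000008)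 (nat_lit 0x100000f70000c7000000000000) (nat_lit 50) (nat_lit 2) (nat_lit 0xec4118000002cb411a000000624018))) (Tree.tip (nat_lit 721) (Node.img (nat_lit 0x1e00000c000004) (nat_lit 0x2000003000000000003000000) (nat_lit 644) (nat_lit 1) (nat_lit 132) (nat_lit 128)))) (Tree.br (nat_lit 723) (Tree.tip (nat_lit 722) (Node.mv (nat_lit 0x38000018000008) (nat_lit 0x14000036000007000006000000) (nat_lit 50) (nat_lit 1) (nat_lit 0x2d14019000000624018))) (Tree.tip (nat_lit 723) (Node.mv (nat_lit 0x18000018000008) (nat_lit 0x140000f70000e7000006000000) (nat_lit 53) (nat_lit 2) (nat_lit 0x2d24018000002d04018000000234119))))) (Tree.br (nat_lit 726) (Tree.br (nat_lit 725) (Tree.tip (nat_lit 724) (Node.mv (nat_lit 0x18000018000000000000000000) (nat_lit 0x140000f70000e7000007000008000008000008) (nat_lit 51) (nat_lit 2) (nat_lit 0x2cf4018000002d3421800000046401b))) (Tree.tip (nat_lit 725) (Node.mv (nat_lit 0x200000e00001e) (nat_lit 0x1000030000000) (nat_lit 28) (nat_lit 1) (nat_lit 0x2441180000002a4019)))) (Tree.br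 (nat_lit 727) (Tree.tip (nat_lit 726) (Node.mv (nat_lit 0xe00001e000000000000) (nat_lit 0x2000003000030000000000004000004) (nat_lit 97) (nat_lit 1) (nat_lit 0x2d54218000000b74019))) (Tree.tip (nat_lit 727) (Node.mv (nat_lit 0xc00001e000000000000) (nat_lit 0x2000003000033000000000004000004) (nat_lit 73) (nat_lit 1) (nat_lit 0x2d64018000000244218)))))) (Tree.br (nat_lit 732) (Tree.br (nat_lit 730) (Tree.br (nat_lit 729) (Tree.tip (nat_lit 728) (Node.mv (nat_lit 0x7000005000005000000) (nat_lit 0x2000000000000000000000005) (nat_lit 97) (nat_lit 1) (nat_lit 0x84019000000414018))) (Tree.tip (nat_lit 729) (Node.img (nat_lit 0x1000003000000000002000002) (nat_lit 0x2000000000000) (nat_lit 75) (nat_lit 6) (nat_lit 129) (nat_lit 128)))) (Tree.br (nat_lit 731) (Tree.tip (nat_lit 730) (Node.mv (nat_lit 0x5000007000004000002000000) (nat_lit 0x2000004000002) (nat_lit 1) (nat_lit 1) (nat_lit 0x2d94018000002164019))) (Tree.tip (nat_lit 731) (Node.mv (nat_lit 0x400001c000004000000000000) (nat_lit 0x400000000002000000b000008000008)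 (nat_lit 51) (nat_lit 1) (nat_lit 0x234218000000b7401a))))) (Tree.br (nat_lit 734) (Tree.br (nat_lit 733) (Tree.tip (nat_lit 732) (Node.mv (nat_lit 0x14000016) (nat_lit 0x23000028) (nat_lit 3) (nat_lit 1) (nat_lit 0xc740180000002a4019))) (Tree.tip (nat_lit 733) (Node.img (nat_lit 0xa00000e) (nat_lit 0x31000011) (nat_lit 202) (nat_lit 1) (nat_lit 133) (nat_lit 128)))) (Tree.br (nat_lit 735) (Tree.tip (nat_lit 734) (Node.mv (nat_lit 0xa00000e000000000000000000) (nat_lit 0x2000002000031000011000006000004000004) (nat_lit 50) (nat_lit 1) (nat_lit 0x2dd4318000002344019))) (Tree.tip (nat_lit 735) (Node.mv (nat_lit 0xe00000a000008000000) (nat_lit 0x14000010000001000000000008) (nat_lit 76) (nat_lit 1) (nat_lit 0x33401a000000674218)))))))) (Tree.br (nat_lit 752) (Tree.br (nat_lit 744) (Tree.br (nat_lit 740) (Tree.br (nat_lit 738) (Tree.br (nat_lit 737) (Tree.tip (nat_lit 736) (Node.mv (nat_lit 0xb00000a000002000002) (nat_lit 0x4000004000010000000000000) (nat_lit 74) (nat_lit 1) (nat_lit 0x284218000000314019)))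 (Tree.tip (nat_lit 737) (Node.mv (nat_lit 0x800000800001a000018000000) (nat_lit 0x1000007000004) (nat_lit 26) (nat_lit 1) (nat_lit 0xc2411800000001401a)))) (Tree.br (nat_lit 739) (Tree.tip (nat_lit 738) (Node.mv (nat_lit 0x1e000008000008000000) (nat_lit 0x6000020000007000000000008) (nat_lit 77) (nat_lit 1) (nat_lit 0x22340190000006e4218))) (Tree.tip (nat_lit 739) (Node.img (nat_lit 0x1f000010000010000000) (nat_lit 0x18000000000000000000000010) (nat_lit 605) (nat_lit 6) (nat_lit 132) (nat_lit 128))))) (Tree.br (nat_lit 742) (Tree.br (nat_lit 741) (Tree.tip (nat_lit 740) (Node.mv (nat_lit 0x3c000020000020000000) (nat_lit 0x30000002000007000000000020) (nat_lit 73) (nat_lit 1) (nat_lit 0x2e340190000006e4218))) (Tree.tip (nat_lit 741) (Node.img (nat_lit 0xf000004) (nat_lit 0x38000030000072) (nat_lit 666) (nat_lit 7) (nat_lit 134) (nat_lit 130)))) (Tree.br (nat_lit 743) (Tree.tip (nat_lit 742) (Node.mv (nat_lit 0x38000020) (nat_lit 0x1de0001c6000397) (nat_lit 30) (nat_lit 2) (nat_lit 0x2e5401b000002374018000000d7411a)))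 (Tree.tip (nat_lit 743) (Node.mv (nat_lit 0x400000e000008000000000000) (nat_lit 0x600000300003000000400000c00000c) (nat_lit 50) (nat_lit 1) (nat_lit 0x2f4018000000b7401a)))))) (Tree.br (nat_lit 748) (Tree.br (nat_lit 746) (Tree.br (nat_lit 745) (Tree.tip (nat_lit 744) (Node.mv (nat_lit 0x800000000000f000008000000) (nat_lit 0x8000000000018000000000004000004) (nat_lit 75) (nat_lit 1) (nat_lit 0x3a401a0000002a4218))) (Tree.tip (nat_lit 745) (Node.mv (nat_lit 0x800000e00000a000008) (nat_lit 0x10000030000010000001000000) (nat_lit 52) (nat_lit 1) (nat_lit 0x1434019000000674118)))) (Tree.br (nat_lit 747) (Tree.tip (nat_lit 746) (Node.mv (nat_lit 0x1c000004000004000000) (nat_lit 0xa000022000003000000000004) (nat_lit 73) (nat_lit 1) (nat_lit 0xb04218000000334019))) (Tree.tip (nat_lit 747) (Node.mv (nat_lit 0x2e000008) (nat_lit 0x70000011000030) (nat_lit 28) (nat_lit 1) (nat_lit 0x7941190000005f4018))))) (Tree.br (nat_lit 750) (Tree.br (nat_lit 749) (Tree.tip (nat_lit 748) (Node.mv (nat_lit 0x1c000014000004)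 (nat_lit 0x2000006b000002) (nat_lit 27) (nat_lit 1) (nat_lit 0x474019000000894118))) (Tree.tip (nat_lit 749) (Node.mv (nat_lit 0x1c000014000004000000000000) (nat_lit 0x800002000000b000000000004000004) (nat_lit 75) (nat_lit 1) (nat_lit 0x89431800000046401a)))) (Tree.br (nat_lit 751) (Tree.tip (nat_lit 750) (Node.mv (nat_lit 0x3000002000001000001000000) (nat_lit 0x2000000000001000000000000000001) (nat_lit 72) (nat_lit 1) (nat_lit 0x314118000000414018))) (Tree.tip (nat_lit 751) (Node.mv (nat_lit 0x6000002000002000000) (nat_lit 0x6000006000000000005000005000007) (nat_lit 97) (nat_lit 1) (nat_lit 0x64018000000994019))))))) (Tree.br (nat_lit 760) (Tree.br (nat_lit 756) (Tree.br (nat_lit 754) (Tree.br (nat_lit 753) (Tree.tip (nat_lit 752) (Node.img (nat_lit 0x1f000001000001000000) (nat_lit 0x3000000000000000000000001) (nat_lit 605) (nat_lit 4) (nat_lit 128) (nat_lit 128))) (Tree.tip (nat_lit 753) (Node.mv (nat_lit 0xf000001000001000000) (nat_lit 0x3000010000002000000000001) (nat_lit 76) (nat_lit 1) (nat_lit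 0x2f040180000012c4218)))) (Tree.br (nat_lit 755) (Tree.tip (nat_lit 754) (Node.img (nat_lit 0x3c000020) (nat_lit 0x7000002000010) (nat_lit 28) (nat_lit 5) (nat_lit 128) (nat_lit 130))) (Tree.tip (nat_lit 755) (Node.mv (nat_lit 0x3c000020) (nat_lit 0x67000002000010) (nat_lit 54) (nat_lit 1) (nat_lit 0x2f2401800000021411a))))) (Tree.br (nat_lit 758) (Tree.br (nat_lit 757) (Tree.tip (nat_lit 756) (Node.mv (nat_lit 0x400000400000e000010) (nat_lit 0x4000000000000000001000008) (nat_lit 3) (nat_lit 1) (nat_lit 0xb401a000000274018))) (Tree.tip (nat_lit 757) (Node.mv (nat_lit 0x2000002000002000000000000000000) (nat_lit 0x3000001000001000005000007000007000005) (nat_lit 49) (nat_lit 3) (nat_lit 0x64118000000114018000000124018000000054018)))) (Tree.br (nat_lit 759) (Tree.tip (nat_lit 758) (Node.img (nat_lit 0x1e00000c) (nat_lit 0x7000060000000) (nat_lit 149) (nat_lit 7) (nat_lit 134) (nat_lit 130))) (Tree.tip (nat_lit 759) (Node.mv (nat_lit 0x1c000018) (nat_lit 0xe0000e3000007) (nat_lit 29) (nat_lit 2) (nat_lit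 0x2cd4018000002f64019000000234019)))))) (Tree.br (nat_lit 764) (Tree.br (nat_lit 762) (Tree.br (nat_lit 761) (Tree.tip (nat_lit 760) (Node.mv (nat_lit 0x1800001c000000) (nat_lit 0x7000023000007) (nat_lit 25) (nat_lit 1) (nat_lit 0x584018000000164118))) (Tree.tip (nat_lit 761) (Node.img (nat_lit 0x400001e000004000000000000) (nat_lit 0x2000003000000000000000004000004) (nat_lit 138) (nat_lit 6) (nat_lit 132) (nat_lit 128)))) (Tree.br (nat_lit 763) (Tree.tip (nat_lit 762) (Node.mv (nat_lit 0x400000e00000c000000000000) (nat_lit 0x2000003000030000003000004000004) (nat_lit 76) (nat_lit 1) (nat_lit 0x2f94018000000234218))) (Tree.tip (nat_lit 763) (Node.img (nat_lit 0x3000002000000000006000000) (nat_lit 0x1000000000000000002000000000004) (nat_lit 233) (nat_lit 2) (nat_lit 128) (nat_lit 133))))) (Tree.br (nat_lit 766) (Tree.br (nat_lit 765) (Tree.tip (nat_lit 764) (Node.mv (nat_lit 0xc00000c00000000000c000000) (nat_lit 0x2000003000030000004000000000008) (nat_lit 97) (nat_lit 1) (nat_lit 0x4d4318000002fb4019)))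 (Tree.tip (nat_lit 765) (Node.img (nat_lit 0x1000001000002000002000002) (nat_lit 0x2000000000000000000) (nat_lit 10) (nat_lit 3) (nat_lit 129) (nat_lit 132)))) (Tree.br (nat_lit 767) (Tree.tip (nat_lit 766) (Node.mv (nat_lit 0x400000400000000000f000008) (nat_lit 0x8000018000000000000) (nat_lit 51) (nat_lit 1) (nat_lit 0x2a4118000002fd401a))) (Tree.tip (nat_lit 767) (Node.mv (nat_lit 0x400000c00000000000f000000) (nat_lit 0x8000000000018) (nat_lit 3) (nat_lit 1) (nat_lit 0x2d9401a000000284018))))))))))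
noncomputable def t0_6 : Tree := (Tree.br (nat_lit 832) (Tree.br (nat_lit 800) (Tree.br (nat_lit 784) (Tree.br (nat_lit 776) (Tree.br (nat_lit 772) (Tree.br (nat_lit 770) (Tree.br (nat_lit 769) (Tree.tip (nat_lit 768) (Node.mv (nat_lit 0x400000400000000000f000000) (nat_lit 0x8000018000000000018) (nat_lit 3) (nat_lit 1) (nat_lit 0x2fe4018000000284018))) (Tree.tip (nat_lit 769) (Node.mv (nat_lit 0x4000006000000000007000000) (nat_lit 0x2000000000002000000000007) (nat_lit 49) (nat_lit 1) (nat_lit 0x1c34018000000414019)))) (Tree.br (nat_lit 771) (Tree.tip (nat_lit 770) (Node.mv (nat_lit 0x600000e000000000002000000) (nat_lit 0x30000003000000000002) (nat_lit 49) (nat_lit 1) (nat_lit 0x474218000000414019))) (Tree.tip (nat_lit 771) (Node.img (nat_lit 0x800001e000000000004000000) (nat_lit 0x20000007000000000004) (nat_lit 411) (nat_lit 1) (nat_lit 133) (nat_lit 128))))) (Tree.br (nat_lit 774) (Tree.br (nat_lit 773) (Tree.tip (nat_lit 772) (Node.mv (nat_lit 0x800000e000000000004000000) (nat_lit 0x30000031000007000000000004)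 (nat_lit 76) (nat_lit 1) (nat_lit 0x3034018000000524318))) (Tree.tip (nat_lit 773) (Node.img (nat_lit 0x1e000004000000000004) (nat_lit 0x3000000000000000004000000) (nat_lit 308) (nat_lit 1) (nat_lit 132) (nat_lit 128)))) (Tree.br (nat_lit 775) (Tree.tip (nat_lit 774) (Node.mv (nat_lit 0x1c00000c000000000004) (nat_lit 0x3000003000030000004000000) (nat_lit 73) (nat_lit 1) (nat_lit 0x30540180000004d4218))) (Tree.tip (nat_lit 775) (Node.mv (nat_lit 0x400000400000800000f000000) (nat_lit 0x8000000000000000018) (nat_lit 3) (nat_lit 1) (nat_lit 0x2fd401a000000284018)))))) (Tree.br (nat_lit 780) (Tree.br (nat_lit 778) (Tree.br (nat_lit 777) (Tree.tip (nat_lit 776) (Node.mv (nat_lit 0x1000002000002000000000006000000) (nat_lit 0x1000000000002000000000004) (nat_lit 49) (nat_lit 1) (nat_lit 0x304118000000394019))) (Tree.tip (nat_lit 777) (Node.mv (nat_lit 0x1c00000c) (nat_lit 0x7000063000030) (nat_lit 29) (nat_lit 1) (nat_lit 0x10b401800000018401a)))) (Tree.br (nat_lit 779) (Tree.tip (nat_lit 778) (Node.mv (nat_lit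 0x30000028000020) (nat_lit 0x4c000017000040) (nat_lit 26) (nat_lit 2) (nat_lit 0x140401900000188411800000110401a))) (Tree.tip (nat_lit 779) (Node.img (nat_lit 0x2000002000003000000) (nat_lit 0x5000007000007000000000000000000000001) (nat_lit 91) (nat_lit 2) (nat_lit 128) (nat_lit 134))))) (Tree.br (nat_lit 782) (Tree.br (nat_lit 781) (Tree.tip (nat_lit 780) (Node.mv (nat_lit 0x2000006000003000000) (nat_lit 0x5000007000007000000000018000000000001) (nat_lit 51) (nat_lit 1) (nat_lit 0x30b4018000000184118))) (Tree.tip (nat_lit 781) (Node.mv (nat_lit 0x400001e00000c000000000000) (nat_lit 0x4000000000000000003000002000002) (nat_lit 49) (nat_lit 1) (nat_lit 0x374019000000164218)))) (Tree.br (nat_lit 783) (Tree.tip (nat_lit 782) (Node.img (nat_lit 0x200000e000006) (nat_lit 0x1000030000000) (nat_lit 43) (nat_lit 1) (nat_lit 133) (nat_lit 128))) (Tree.tip (nat_lit 783) (Node.mv (nat_lit 0x400000c00000d) (nat_lit 0x2000070000002) (nat_lit 28) (nat_lit 1) (nat_lit 0x30e4019000000f14018))))))) (Tree.br (nat_lit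 792) (Tree.br (nat_lit 788) (Tree.br (nat_lit 786) (Tree.br (nat_lit 785) (Tree.tip (nat_lit 784) (Node.mv (nat_lit 0x1c00001c000000000000000000) (nat_lit 0x10000034000003000000000008000008000008) (nat_lit 51) (nat_lit 1) (nat_lit 0x6242180000002e401a))) (Tree.tip (nat_lit 785) (Node.img (nat_lit 0x2000003000000000001000001) (nat_lit 0x1000000000000) (nat_lit 75) (nat_lit 4) (nat_lit 128) (nat_lit 128)))) (Tree.br (nat_lit 787) (Tree.tip (nat_lit 786) (Node.mv (nat_lit 0x4000007000001000003000000) (nat_lit 0x1000000000002000000000002) (nat_lit 1) (nat_lit 1) (nat_lit 0x31140190000000b4018))) (Tree.tip (nat_lit 787) (Node.mv (nat_lit 0xe000012000003) (nat_lit 0x100000c000000) (nat_lit 27) (nat_lit 1) (nat_lit 0x274118000000c44018))))) (Tree.br (nat_lit 790) (Tree.br (nat_lit 789) (Tree.tip (nat_lit 788) (Node.mv (nat_lit 0x1800001800000c) (nat_lit 0x20000027000003) (nat_lit 26) (nat_lit 1) (nat_lit 0x894118000000234018))) (Tree.tip (nat_lit 789) (Node.mv (nat_lit 0xf00000e000000000000000000) (nat_lit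 0x800001a000000000000000004000004000004) (nat_lit 50) (nat_lit 1) (nat_lit 0x6142180000002e4019)))) (Tree.br (nat_lit 791) (Tree.tip (nat_lit 790) (Node.mv (nat_lit 0x800000b000006000004) (nat_lit 0x8000000000000000018000000) (nat_lit 27) (nat_lit 1) (nat_lit 0x25411800000044401a))) (Tree.tip (nat_lit 791) (Node.mv (nat_lit 0x8000018000008000000000000000000) (nat_lit 0x800000000006400000700000c000004000004) (nat_lit 74) (nat_lit 1) (nat_lit 0x251401a000000a84318)))))) (Tree.br (nat_lit 796) (Tree.br (nat_lit 794) (Tree.br (nat_lit 793) (Tree.tip (nat_lit 792) (Node.mv (nat_lit 0xd00000c000006) (nat_lit 0x2000030000000) (nat_lit 28) (nat_lit 1) (nat_lit 0x2d4118000000184019))) (Tree.tip (nat_lit 793) (Node.mv (nat_lit 0x1e00000c000000000000000000) (nat_lit 0x200000200000f000000000000000004000004000004) (nat_lit 50) (nat_lit 1) (nat_lit 0x88421800000046401a)))) (Tree.br (nat_lit 795) (Tree.tip (nat_lit 794) (Node.mv (nat_lit 0x1e00000c000000000000000000) (nat_lit 0x4000000000033000003000002000002)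 (nat_lit 73) (nat_lit 1) (nat_lit 0x484018000000164318))) (Tree.tip (nat_lit 795) (Node.mv (nat_lit 0x3c000018) (nat_lit 0x7000003000006) (nat_lit 2) (nat_lit 1) (nat_lit 0xec4018000000164019))))) (Tree.br (nat_lit 798) (Tree.br (nat_lit 797) (Tree.tip (nat_lit 796) (Node.img (nat_lit 0x800000f000006000000000000) (nat_lit 0x8000000000000000018000004000004) (nat_lit 695) (nat_lit 5) (nat_lit 128) (nat_lit 133))) (Tree.tip (nat_lit 797) (Node.mv (nat_lit 0xf000006000000000000) (nat_lit 0x8000018000000000018000004000004) (nat_lit 99) (nat_lit 1) (nat_lit 0x31c40180000002a4318)))) (Tree.br (nat_lit 799) (Tree.tip (nat_lit 798) (Node.mv (nat_lit 0x1000005e) (nat_lit 0xc0000a1) (nat_lit 27) (nat_lit 1) (nat_lit 0xbf401a000000164018))) (Tree.tip (nat_lit 799) (Node.mv (nat_lit 0x5e000000) (nat_lit 0xe0000020000007) (nat_lit 1) (nat_lit 1) (nat_lit 0x12d4019000000674018)))))))) (Tree.br (nat_lit 816) (Tree.br (nat_lit 808) (Tree.br (nat_lit 804) (Tree.br (nat_lit 802) (Tree.br (nat_lit 801) (Tree.tip (nat_lit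 800) (Node.img (nat_lit 126) (nat_lit 0x1c000081) (nat_lit 682) (nat_lit 4) (nat_lit 128) (nat_lit 128))) (Tree.tip (nat_lit 801) (Node.mv (nat_lit 94) (nat_lit 0xfc0000a1) (nat_lit 5) (nat_lit 2) (nat_lit 0x79401a000003204018000000794019)))) (Tree.br (nat_lit 803) (Tree.tip (nat_lit 802) (Node.mv (nat_lit 0x5e000000) (nat_lit 0x1c70000a00001c0) (nat_lit 29) (nat_lit 1) (nat_lit 0x7c401b000000694118))) (Tree.tip (nat_lit 803) (Node.mv (nat_lit 0x3c000000) (nat_lit 0x3ff0001c2000380) (nat_lit 31) (nat_lit 2) (nat_lit 0x3214119000003224019000001cd4118))))) (Tree.br (nat_lit 806) (Tree.br (nat_lit 805) (Tree.tip (nat_lit 804) (Node.mv (nat_lit 0xe00000c000008) (nat_lit 0xc00001c00001c000001000000000000) (nat_lit 75) (nat_lit 1) (nat_lit 0x19c401a000002474018))) (Tree.tip (nat_lit 805) (Node.img (nat_lit 0x800000b000008000008) (nat_lit 0x10000010000004000000000000) (nat_lit 587) (nat_lit 7) (nat_lit 132) (nat_lit 132)))) (Tree.br (nat_lit 807) (Tree.tip (nat_lit 806) (Node.mv (nat_lit 0xb00000c000008000000)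 (nat_lit 0x18000018000004000000000004000004) (nat_lit 99) (nat_lit 1) (nat_lit 0x32541180000003a401a))) (Tree.tip (nat_lit 807) (Node.img (nat_lit 0x400000f000004000000000000) (nat_lit 0x4000000000000000018000008000008) (nat_lit 181) (nat_lit 6) (nat_lit 132) (nat_lit 128)))))) (Tree.br (nat_lit 812) (Tree.br (nat_lit 810) (Tree.br (nat_lit 809) (Tree.tip (nat_lit 808) (Node.mv (nat_lit 0x600000f000000000000000000) (nat_lit 0x600000000000000001c00000c00000c) (nat_lit 50) (nat_lit 1) (nat_lit 0x32740180000002e4019))) (Tree.tip (nat_lit 809) (Node.mv (nat_lit 0x1c00001c000000) (nat_lit 0x18000018000038000003000000000014) (nat_lit 99) (nat_lit 1) (nat_lit 0xfe411800000055401a)))) (Tree.br (nat_lit 811) (Tree.tip (nat_lit 810) (Node.img (nat_lit 0x400000f000000000000000000) (nat_lit 0x4000018000000000018000008000008) (nat_lit 329) (nat_lit 6) (nat_lit 132) (nat_lit 128))) (Tree.tip (nat_lit 811) (Node.mv (nat_lit 0xc00000e000000000000000000) (nat_lit 0x8000033000030000030000010000010) (nat_lit 76) (nat_lit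 1) (nat_lit 0x32a4019000000c74318))))) (Tree.br (nat_lit 814) (Tree.br (nat_lit 813) (Tree.tip (nat_lit 812) (Node.img (nat_lit 0x200003c000000) (nat_lit 0x1000002000007) (nat_lit 163) (nat_lit 5) (nat_lit 128) (nat_lit 130))) (Tree.tip (nat_lit 813) (Node.mv (nat_lit 0x7c000000) (nat_lit 0x1c30000820001c7) (nat_lit 49) (nat_lit 1) (nat_lit 0x7c401b0000032c4018)))) (Tree.br (nat_lit 815) (Tree.tip (nat_lit 814) (Node.mv (nat_lit 127) (nat_lit 0x1c000000) (nat_lit 27) (nat_lit 1) (nat_lit 0x24401a0000002a4018))) (Tree.tip (nat_lit 815) (Node.mv (nat_lit 0x3f000000) (nat_lit 0x1c0000400000e0) (nat_lit 30) (nat_lit 1) (nat_lit 0x32e411800000077401a))))))) (Tree.br (nat_lit 824) (Tree.br (nat_lit 820) (Tree.br (nat_lit 818) (Tree.br (nat_lit 817) (Tree.tip (nat_lit 816) (Node.mv (nat_lit 0x7c000000) (nat_lit 0x380000820001c7) (nat_lit 25) (nat_lit 1) (nat_lit 0x32f40190000006e4018))) (Tree.tip (nat_lit 817) (Node.mv (nat_lit 0x1e000002000003) (nat_lit 0x100003c000000) (nat_lit 28) (nat_lit 1) (nat_lit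 0x3134018000000284119)))) (Tree.br (nat_lit 819) (Tree.tip (nat_lit 818) (Node.mv (nat_lit 0xe000002000003) (nat_lit 0x7000003100007c000000) (nat_lit 52) (nat_lit 3) (nat_lit 0x33140180000007c4119000001764119000001754119))) (Tree.tip (nat_lit 819) (Node.img (nat_lit 0x100000f000002000002) (nat_lit 0x1000000000010000001000000) (nat_lit 629) (nat_lit 7) (nat_lit 132) (nat_lit 132))))) (Tree.br (nat_lit 822) (Tree.br (nat_lit 821) (Tree.tip (nat_lit 820) (Node.mv (nat_lit 0x100000f000002000000000000) (nat_lit 0x1000000000010000001000002000002) (nat_lit 25) (nat_lit 1) (nat_lit 0x3334118000000084018))) (Tree.tip (nat_lit 821) (Node.img (nat_lit 0x400000f000000) (nat_lit 0x72000030000038) (nat_lit 666) (nat_lit 6) (nat_lit 134) (nat_lit 128)))) (Tree.br (nat_lit 823) (Tree.tip (nat_lit 822) (Node.mv (nat_lit 0x800001e000000) (nat_lit 0xe7000060000070) (nat_lit 48) (nat_lit 1) (nat_lit 0x3354019000002404118))) (Tree.tip (nat_lit 823) (Node.mv (nat_lit 0x2000003c000000) (nat_lit 0x16000002000007) (nat_lit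 50) (nat_lit 1) (nat_lit 0x574018000000244119)))))) (Tree.br (nat_lit 828) (Tree.br (nat_lit 826) (Tree.br (nat_lit 825) (Tree.tip (nat_lit 824) (Node.img (nat_lit 0x1000003000003000000) (nat_lit 0x1000001000000000000000000000002) (nat_lit 38) (nat_lit 4) (nat_lit 128) (nat_lit 128))) (Tree.tip (nat_lit 825) (Node.mv (nat_lit 0x1000001000003000001000000000000) (nat_lit 0x1000001000002000002000000000002000001000001) (nat_lit 97) (nat_lit 1) (nat_lit 0x3384218000000464018)))) (Tree.br (nat_lit 827) (Tree.tip (nat_lit 826) (Node.mv (nat_lit 0x3000006000006000000) (nat_lit 0x3000003000000000000000000000002) (nat_lit 97) (nat_lit 1) (nat_lit 0xf40180000000b4119))) (Tree.tip (nat_lit 827) (Node.img (nat_lit 0x1800001a000008000008) (nat_lit 0x4000007000001000000000000) (nat_lit 737) (nat_lit 2) (nat_lit 128) (nat_lit 132))))) (Tree.br (nat_lit 830) (Tree.br (nat_lit 829) (Tree.tip (nat_lit 828) (Node.mv (nat_lit 0x18000018000018000008) (nat_lit 0x4000027000007000020000000) (nat_lit 49) (nat_lit 2) (nat_lit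 0x27141190000033b4018000000294118))) (Tree.tip (nat_lit 829) (Node.img (nat_lit 0x1800003c000000) (nat_lit 0x3000007) (nat_lit 146) (nat_lit 4) (nat_lit 128) (nat_lit 128)))) (Tree.br (nat_lit 831) (Tree.tip (nat_lit 830) (Node.img (nat_lit 0x400001e000000000000000000) (nat_lit 0x4000003000000000003000002000002) (nat_lit 329) (nat_lit 4) (nat_lit 128) (nat_lit 128))) (Tree.tip (nat_lit 831) (Node.img (nat_lit 0x1800003c) (nat_lit 0x7000003) (nat_lit 158) (nat_lit 4) (nat_lit 128) (nat_lit 128))))))))) (Tree.br (nat_lit 864) (Tree.br (nat_lit 848) (Tree.br (nat_lit 840) (Tree.br (nat_lit 836) (Tree.br (nat_lit 834) (Tree.br (nat_lit 833) (Tree.tip (nat_lit 832) (Node.mv (nat_lit 0x18000038000000000000000000) (nat_lit 0x8000007000007000007000004000004) (nat_lit 74) (nat_lit 2) (nat_lit 0x33f43180000033e40190000033d4218))) (Tree.tip (nat_lit 833) (Node.img (nat_lit 0x5000007000006000000000000) (nat_lit 0x4000000000000000000000002000002) (nat_lit 232) (nat_lit 5) (nat_lit 128) (nat_lit 133)))) (Tree.br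 (nat_lit 835) (Tree.tip (nat_lit 834) (Node.mv (nat_lit 0x1400001e000010000000000000) (nat_lit 0x10000000000001000008000008000008) (nat_lit 51) (nat_lit 1) (nat_lit 0x341401a000000274218))) (Tree.tip (nat_lit 835) (Node.mv (nat_lit 0x18000018000008000000) (nat_lit 0xc00000c00000c000000000064000007000004) (nat_lit 99) (nat_lit 2) (nat_lit 0x19640180000009f411a000000a4401a))))) (Tree.br (nat_lit 838) (Tree.br (nat_lit 837) (Tree.tip (nat_lit 836) (Node.mv (nat_lit 0x1a000078000000) (nat_lit 0x10000070000e0) (nat_lit 26) (nat_lit 1) (nat_lit 0xc2411800000077401a))) (Tree.tip (nat_lit 837) (Node.img (nat_lit 0x400001c000004000004) (nat_lit 0xa00000b000000000000000000) (nat_lit 108) (nat_lit 7) (nat_lit 132) (nat_lit 132)))) (Tree.br (nat_lit 839) (Tree.tip (nat_lit 838) (Node.img (nat_lit 0x200000200000a000002000000) (nat_lit 0x2000000000000000014000005000005) (nat_lit 431) (nat_lit 1) (nat_lit 132) (nat_lit 128))) (Tree.tip (nat_lit 839) (Node.mv (nat_lit 0x1c000014000004000000) (nat_lit 0xe00000f00000000002800000a00000a)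 (nat_lit 98) (nat_lit 1) (nat_lit 0x3464019000003454118)))))) (Tree.br (nat_lit 844) (Tree.br (nat_lit 842) (Tree.br (nat_lit 841) (Tree.tip (nat_lit 840) (Node.mv (nat_lit 0x18000038000008000000) (nat_lit 0xc00000c00000c000000000004000007000004) (nat_lit 99) (nat_lit 1) (nat_lit 0x9f411a000002564018))) (Tree.tip (nat_lit 841) (Node.mv (nat_lit 0x1400001e000000000000000000) (nat_lit 0x10000000000001000038000008000008) (nat_lit 52) (nat_lit 1) (nat_lit 0x3424018000000284219)))) (Tree.br (nat_lit 843) (Tree.tip (nat_lit 842) (Node.img (nat_lit 0x1000000000001000003000002) (nat_lit 0x1000000000000000000) (nat_lit 45) (nat_lit 7) (nat_lit 129) (nat_lit 132))) (Tree.tip (nat_lit 843) (Node.mv (nat_lit 0x1000001000003000007000004) (nat_lit 0x2000002000002000000000000000000) (nat_lit 97) (nat_lit 1) (nat_lit 0x3141180000034a4019))))) (Tree.br (nat_lit 846) (Tree.br (nat_lit 845) (Tree.tip (nat_lit 844) (Node.img (nat_lit 0x400000600001e000000000000) (nat_lit 0x3000002) (nat_lit 97) (nat_lit 3) (nat_lit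 132) (nat_lit 132))) (Tree.tip (nat_lit 845) (Node.mv (nat_lit 0x400001e00001c000000000000) (nat_lit 0x3000003000002) (nat_lit 49) (nat_lit 1) (nat_lit 0x34c4018000000164218)))) (Tree.br (nat_lit 847) (Tree.tip (nat_lit 846) (Node.img (nat_lit 0x400000400001e000004000000) (nat_lit 0x3000002) (nat_lit 134) (nat_lit 2) (nat_lit 128) (nat_lit 132))) (Tree.tip (nat_lit 847) (Node.mv (nat_lit 0x400001c00001c000004000000) (nat_lit 0x3000003000002) (nat_lit 49) (nat_lit 1) (nat_lit 0x34e4018000000164218))))))) (Tree.br (nat_lit 856) (Tree.br (nat_lit 852) (Tree.br (nat_lit 850) (Tree.br (nat_lit 849) (Tree.tip (nat_lit 848) (Node.img (nat_lit 0x1000003000002000000000000) (nat_lit 0x1000001000002000000000000000002000002) (nat_lit 31) (nat_lit 6) (nat_lit 129) (nat_lit 128))) (Tree.tip (nat_lit 849) (Node.mv (nat_lit 0x400000c000018000000000000) (nat_lit 0x4000004000008000003000000000008000008) (nat_lit 73) (nat_lit 1) (nat_lit 0x350401a000000274218)))) (Tree.br (nat_lit 851) (Tree.tip (nat_lit 850) (Node.img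 (nat_lit 0x400000400001e000000000000000000) (nat_lit 0x7000002000002) (nat_lit 136) (nat_lit 2) (nat_lit 128) (nat_lit 133))) (Tree.tip (nat_lit 851) (Node.mv (nat_lit 0x400001e000008000000000000) (nat_lit 0x4000004000000000000000007000002000002) (nat_lit 122) (nat_lit 1) (nat_lit 0x35240180000000b421a))))) (Tree.br (nat_lit 854) (Tree.br (nat_lit 853) (Tree.tip (nat_lit 852) (Node.mv (nat_lit 0x400001c000018000000000000) (nat_lit 0x4000004000000000003000007000002000002) (nat_lit 73) (nat_lit 1) (nat_lit 0x3534018000000274218))) (Tree.tip (nat_lit 853) (Node.mv (nat_lit 0xb00000c00000c) (nat_lit 0x18000018000004000000000000) (nat_lit 75) (nat_lit 1) (nat_lit 0x325401800000044401a)))) (Tree.br (nat_lit 855) (Tree.tip (nat_lit 854) (Node.mv (nat_lit 0x400001e00000c000000000000000000) (nat_lit 0x200000b000000000000000004000004000004) (nat_lit 50) (nat_lit 1) (nat_lit 0x86421800000046401a))) (Tree.tip (nat_lit 855) (Node.img (nat_lit 0x200000f00000c000000000000) (nat_lit 0x8000018000000000000000004000004)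 (nat_lit 664) (nat_lit 5) (nat_lit 128) (nat_lit 133)))))) (Tree.br (nat_lit 860) (Tree.br (nat_lit 858) (Tree.br (nat_lit 857) (Tree.tip (nat_lit 856) (Node.mv (nat_lit 0x400001c000018000000000000) (nat_lit 0x10000030000003000000000008000008) (nat_lit 73) (nat_lit 1) (nat_lit 0x3574019000000274218))) (Tree.tip (nat_lit 857) (Node.img (nat_lit 0x4000007000004000004) (nat_lit 0xa00001a000000000000000000) (nat_lit 108) (nat_lit 5) (nat_lit 128) (nat_lit 132)))) (Tree.br (nat_lit 859) (Tree.tip (nat_lit 858) (Node.mv (nat_lit 0x800000c000018000008) (nat_lit 0x14000034000003000000000000) (nat_lit 49) (nat_lit 1) (nat_lit 0x3594019000000274118))) (Tree.tip (nat_lit 859) (Node.mv (nat_lit 0xc000018000018) (nat_lit 0x1c00003c000003000000000000) (nat_lit 75) (nat_lit 1) (nat_lit 0x35a40180000000b401b))))) (Tree.br (nat_lit 862) (Tree.br (nat_lit 861) (Tree.tip (nat_lit 860) (Node.mv (nat_lit 0x800000700000800000c000000) (nat_lit 0x10000008000000000000000004) (nat_lit 75) (nat_lit 1) (nat_lit 0x2a431800000001401a)))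 (Tree.tip (nat_lit 861) (Node.mv (nat_lit 0x400000700000c00000c000000) (nat_lit 0x8000018000008000000000000000004) (nat_lit 99) (nat_lit 1) (nat_lit 0x35c401800000031411a)))) (Tree.br (nat_lit 863) (Tree.tip (nat_lit 862) (Node.mv (nat_lit 0x800000c000018000018000000) (nat_lit 0x10000030000013000000000000000008) (nat_lit 73) (nat_lit 1) (nat_lit 0x35d4019000000274218))) (Tree.tip (nat_lit 863) (Node.mv (nat_lit 0xc000018000018000000) (nat_lit 0x18000038000013000000000000000008) (nat_lit 99) (nat_lit 1) (nat_lit 0x35e40180000000b411b)))))))) (Tree.br (nat_lit 880) (Tree.br (nat_lit 872) (Tree.br (nat_lit 868) (Tree.br (nat_lit 866) (Tree.br (nat_lit 865) (Tree.tip (nat_lit 864) (Node.mv (nat_lit 0x2000003000006000006000000000000000000) (nat_lit 0x1000001000003000003000002) (nat_lit 49) (nat_lit 1) (nat_lit 0x944018000000034118))) (Tree.tip (nat_lit 865) (Node.img (nat_lit 0x2000000000002000003000001) (nat_lit 0x2000000000000000000) (nat_lit 45) (nat_lit 5) (nat_lit 128) (nat_lit 132)))) (Tree.br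 (nat_lit 867) (Tree.tip (nat_lit 866) (Node.mv (nat_lit 0x4000001000006000006000000000000000000) (nat_lit 0x4000001000000000002000002000002) (nat_lit 49) (nat_lit 1) (nat_lit 0x944018000003614219))) (Tree.tip (nat_lit 867) (Node.mv (nat_lit 0x2000003000006000006000000000000000000) (nat_lit 0x4000004000004000001000000000002000002000002) (nat_lit 146) (nat_lit 1) (nat_lit 0x3624018000000314319))))) (Tree.br (nat_lit 870) (Tree.br (nat_lit 869) (Tree.tip (nat_lit 868) (Node.mv (nat_lit 0x3000006000006000000000000000000) (nat_lit 0x6000006000004000001000000000002000002000002) (nat_lit 145) (nat_lit 1) (nat_lit 0x36340180000000b4319))) (Tree.tip (nat_lit 869) (Node.mv (nat_lit 0x800000e00000c000008) (nat_lit 0x10000030000030000003000000) (nat_lit 52) (nat_lit 1) (nat_lit 0x1434019000000234118)))) (Tree.br (nat_lit 871) (Tree.tip (nat_lit 870) (Node.mv (nat_lit 0xe00000c00000c) (nat_lit 0x18000038000030000003000000) (nat_lit 75) (nat_lit 1) (nat_lit 0x365401800000044401a))) (Tree.tip (nat_lit 871) (Node.mv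 (nat_lit 0x8000008000038000000000000) (nat_lit 0x800000000000000000400001f000014) (nat_lit 27) (nat_lit 1) (nat_lit 0x25640180000008d401b)))))) (Tree.br (nat_lit 876) (Tree.br (nat_lit 874) (Tree.br (nat_lit 873) (Tree.tip (nat_lit 872) (Node.img (nat_lit 0x2000001000003000003) (nat_lit 0x3000001000000000000000000) (nat_lit 66) (nat_lit 2) (nat_lit 128) (nat_lit 132))) (Tree.tip (nat_lit 873) (Node.mv (nat_lit 0x800000000000e00000c000000000000) (nat_lit 0xc000006000007000030000000000004000004) (nat_lit 98) (nat_lit 1) (nat_lit 0x2f401800000368421a)))) (Tree.br (nat_lit 875) (Tree.tip (nat_lit 874) (Node.img (nat_lit 0x300001c) (nat_lit 2) (nat_lit 10) (nat_lit 4) (nat_lit 128) (nat_lit 128))) (Tree.tip (nat_lit 875) (Node.mv (nat_lit 0x1c00000200001c) (nat_lit 0x2000001000002) (nat_lit 24) (nat_lit 1) (nat_lit 0x1441180000036a4018))))) (Tree.br (nat_lit 878) (Tree.br (nat_lit 877) (Tree.tip (nat_lit 876) (Node.mv (nat_lit 0x1000000e00000800000c000000) (nat_lit 0x8000001000000000000000004) (nat_lit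 99) (nat_lit 1) (nat_lit 0x16431800000001401a))) (Tree.tip (nat_lit 877) (Node.mv (nat_lit 0x400001400001c000000000000000000) (nat_lit 0x20000002000007000002000002) (nat_lit 73) (nat_lit 1) (nat_lit 0x35240180000002a4319)))) (Tree.br (nat_lit 879) (Tree.tip (nat_lit 878) (Node.mv (nat_lit 0x6000006000002000002000000) (nat_lit 0x3000003000003000000000000000001000001000001) (nat_lit 121) (nat_lit 1) (nat_lit 0x9f4218000000034018))) (Tree.tip (nat_lit 879) (Node.img (nat_lit 0x1e000002000002000002) (nat_lit 0x3000001000000000000000000) (nat_lit 336) (nat_lit 2) (nat_lit 128) (nat_lit 132))))))) (Tree.br (nat_lit 888) (Tree.br (nat_lit 884) (Tree.br (nat_lit 882) (Tree.br (nat_lit 881) (Tree.tip (nat_lit 880) (Node.mv (nat_lit 0xe000006000002000002) (nat_lit 0x3000031000000000000000000) (nat_lit 76) (nat_lit 1) (nat_lit 0x36f4018000000184219))) (Tree.tip (nat_lit 881) (Node.mv (nat_lit 0xc00000d000004000004) (nat_lit 0x6000072000002000000000000) (nat_lit 76) (nat_lit 1) (nat_lit 0x3704019000000f14218))))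 (Tree.br (nat_lit 883) (Tree.tip (nat_lit 882) (Node.img (nat_lit 0x1800001a) (nat_lit 0x20000005) (nat_lit 41) (nat_lit 2) (nat_lit 128) (nat_lit 129))) (Tree.tip (nat_lit 883) (Node.mv (nat_lit 0x18000018000008000008) (nat_lit 0xc0000e7000007000000000000) (nat_lit 49) (nat_lit 2) (nat_lit 0x37140190000033b4018000003724218))))) (Tree.br (nat_lit 886) (Tree.br (nat_lit 885) (Tree.tip (nat_lit 884) (Node.mv (nat_lit 0x20000038000018) (nat_lit 0x47000007000000) (nat_lit 26) (nat_lit 1) (nat_lit 0xec40180000002a411a))) (Tree.tip (nat_lit 885) (Node.mv (nat_lit 0x800000e000002000002000002) (nat_lit 0x11000001000000000000000000) (nat_lit 72) (nat_lit 1) (nat_lit 0x2a43180000000e4018)))) (Tree.br (nat_lit 887) (Tree.tip (nat_lit 886) (Node.mv (nat_lit 0x200000f000000) (nat_lit 0x3c000030000070) (nat_lit 28) (nat_lit 1) (nat_lit 0x1514019000000794118))) (Tree.tip (nat_lit 887) (Node.mv (nat_lit 0x2000003000001000002000000) (nat_lit 0x2000001000000000000000001000003) (nat_lit 24) (nat_lit 1) (nat_lit 0xba4018000000414018))))))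 (Tree.br (nat_lit 892) (Tree.br (nat_lit 890) (Tree.br (nat_lit 889) (Tree.tip (nat_lit 888) (Node.mv (nat_lit 0xa00000a000002000002) (nat_lit 0x5000005000010000000000000) (nat_lit 72) (nat_lit 1) (nat_lit 0x2e040180000000e4018))) (Tree.tip (nat_lit 889) (Node.mv (nat_lit 0xa00000e000001000001000000) (nat_lit 0x10000001000000000000000001) (nat_lit 72) (nat_lit 1) (nat_lit 0x2a4318000000414018)))) (Tree.br (nat_lit 891) (Tree.tip (nat_lit 890) (Node.mv (nat_lit 0x2000006000005000001) (nat_lit 0x2000002000000000000000002000000) (nat_lit 97) (nat_lit 1) (nat_lit 0xb4119000002164018))) (Tree.tip (nat_lit 891) (Node.mv (nat_lit 0x6000006000002000000000000) (nat_lit 0x3000003000003000000000001000001000003000003) (nat_lit 121) (nat_lit 2) (nat_lit 0x9240180000009f4218000000a44118))))) (Tree.br (nat_lit 894) (Tree.br (nat_lit 893) (Tree.tip (nat_lit 892) (Node.mv (nat_lit 0x18000038000008000000000000) (nat_lit 0x8000007000007000006000004000004) (nat_lit 74) (nat_lit 1) (nat_lit 0x21f40190000033f4318)))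 (Tree.tip (nat_lit 893) (Node.mv (nat_lit 0x400001e000010000000000000) (nat_lit 0x10000030000001000008000008000008) (nat_lit 51) (nat_lit 1) (nat_lit 0x3574019000000274218)))) (Tree.br (nat_lit 895) (Tree.tip (nat_lit 894) (Node.mv (nat_lit 0x400001e000000000000000000) (nat_lit 0x10000030000001000038000008000008) (nat_lit 52) (nat_lit 1) (nat_lit 0x37d4018000000284219))) (Tree.tip (nat_lit 895) (Node.mv (nat_lit 0x4000005000007000001000000000000) (nat_lit 0x4000001000000000000000002000002000002) (nat_lit 49) (nat_lit 1) (nat_lit 0xb74018000000444219))))))))))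
noncomputable def t0_7 : Tree := (Tree.br (nat_lit 960) (Tree.br (nat_lit 928) (Tree.br (nat_lit 912) (Tree.br (nat_lit 904) (Tree.br (nat_lit 900) (Tree.br (nat_lit 898) (Tree.br (nat_lit 897) (Tree.tip (nat_lit 896) (Node.img (nat_lit 0x200000f000001000000000000) (nat_lit 0x2000000000010000002000001000001) (nat_lit 399) (nat_lit 4) (nat_lit 128) (nat_lit 128))) (Tree.tip (nat_lit 897) (Node.mv (nat_lit 0x400001e000000000000000000) (nat_lit 0x4000000000020000007000002000002) (nat_lit 49) (nat_lit 1) (nat_lit 0x3804019000000674218)))) (Tree.br (nat_lit 899) (Tree.tip (nat_lit 898) (Node.img (nat_lit 0xf000006) (nat_lit 0x30000038) (nat_lit 158) (nat_lit 7) (nat_lit 133) (nat_lit 129))) (Tree.tip (nat_lit 899) (Node.img (nat_lit 0x1e000004000000000000) (nat_lit 0x2000002000007000000000000000004000004) (nat_lit 180) (nat_lit 4) (nat_lit 128) (nat_lit 128))))) (Tree.br (nat_lit 902) (Tree.br (nat_lit 901) (Tree.tip (nat_lit 900) (Node.mv (nat_lit 0xe00000c000000000000) (nat_lit 0x2000002000007000070000070000004000004)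 (nat_lit 76) (nat_lit 1) (nat_lit 0x3834018000003824219))) (Tree.tip (nat_lit 901) (Node.img (nat_lit 0xa000007) (nat_lit 0x14000008) (nat_lit 76) (nat_lit 3) (nat_lit 132) (nat_lit 129)))) (Tree.br (nat_lit 903) (Tree.tip (nat_lit 902) (Node.mv (nat_lit 0x200000200000a000003000000) (nat_lit 0x1400000c000004) (nat_lit 26) (nat_lit 1) (nat_lit 0x3854118000000394019))) (Tree.tip (nat_lit 903) (Node.mv (nat_lit 0x800001c000008000004) (nat_lit 0x8000000000020000007000000) (nat_lit 26) (nat_lit 1) (nat_lit 0x23411800000044401a)))))) (Tree.br (nat_lit 908) (Tree.br (nat_lit 906) (Tree.br (nat_lit 905) (Tree.tip (nat_lit 904) (Node.mv (nat_lit 0xa00000b000008000008) (nat_lit 0x4000014000000000000000000) (nat_lit 74) (nat_lit 1) (nat_lit 0x1842180000000e401a))) (Tree.tip (nat_lit 905) (Node.mv (nat_lit 0x1000000e00000c000004) (nat_lit 0x8000008000001000000000000) (nat_lit 75) (nat_lit 1) (nat_lit 0x16421800000044401a)))) (Tree.br (nat_lit 907) (Tree.tip (nat_lit 906) (Node.img (nat_lit 0x4000004000007000004000000)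 (nat_lit 0x8000038000008) (nat_lit 136) (nat_lit 4) (nat_lit 128) (nat_lit 128))) (Tree.tip (nat_lit 907) (Node.mv (nat_lit 0x4000006000007000000000000000000) (nat_lit 0x200000000000800003c00000c000004) (nat_lit 50) (nat_lit 1) (nat_lit 0x38a41180000002e4019))))) (Tree.br (nat_lit 910) (Tree.br (nat_lit 909) (Tree.tip (nat_lit 908) (Node.img (nat_lit 0x700000b) (nat_lit 0x18000010) (nat_lit 66) (nat_lit 7) (nat_lit 132) (nat_lit 129))) (Tree.tip (nat_lit 909) (Node.mv (nat_lit 0x3c000018) (nat_lit 0x70000c30000c0) (nat_lit 6) (nat_lit 1) (nat_lit 0xec40180000038c401b)))) (Tree.br (nat_lit 911) (Tree.tip (nat_lit 910) (Node.mv (nat_lit 0xa00001c000000000004000000) (nat_lit 0x2000005000000000004000000000004) (nat_lit 98) (nat_lit 1) (nat_lit 0x494019000000274318))) (Tree.tip (nat_lit 911) (Node.mv (nat_lit 0x28000038000000) (nat_lit 0x16000046000007) (nat_lit 26) (nat_lit 1) (nat_lit 0x574018000000c74119))))))) (Tree.br (nat_lit 920) (Tree.br (nat_lit 916) (Tree.br (nat_lit 914) (Tree.br (nat_lit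 913) (Tree.tip (nat_lit 912) (Node.mv (nat_lit 0x400001e000000000000000000) (nat_lit 0x6000003000000000007000006000006) (nat_lit 50) (nat_lit 1) (nat_lit 0x2f940180000021f4018))) (Tree.tip (nat_lit 913) (Node.mv (nat_lit 0x1400001c000000000000000000) (nat_lit 0x6000023000002000007000006000006) (nat_lit 73) (nat_lit 1) (nat_lit 0x39040180000002a4319)))) (Tree.br (nat_lit 915) (Tree.tip (nat_lit 914) (Node.img (nat_lit 0x400001e000000000000000000) (nat_lit 0x4000004000000000000000007000002000002) (nat_lit 180) (nat_lit 5) (nat_lit 128) (nat_lit 134))) (Tree.tip (nat_lit 915) (Node.mv (nat_lit 0x400001c000000000000000000) (nat_lit 0x4000004000003000022000007000002000002) (nat_lit 73) (nat_lit 1) (nat_lit 0x3924018000000c74318))))) (Tree.br (nat_lit 918) (Tree.br (nat_lit 917) (Tree.tip (nat_lit 916) (Node.mv (nat_lit 0x200000200000e000000000000000000) (nat_lit 0x1000005000005000010000003000003000002) (nat_lit 49) (nat_lit 1) (nat_lit 0x2574018000002a14118))) (Tree.tip (nat_lit 917) (Node.mv (nat_lit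 0x2000003c000000) (nat_lit 0x1700004200000e) (nat_lit 3) (nat_lit 1) (nat_lit 0x594118000000b04019)))) (Tree.br (nat_lit 919) (Tree.tip (nat_lit 918) (Node.mv (nat_lit 0xe00000e000000000000000000) (nat_lit 0x4000030000030000003000002000002) (nat_lit 100) (nat_lit 1) (nat_lit 0x484018000000184319))) (Tree.tip (nat_lit 919) (Node.mv (nat_lit 0x400000600000e000000000000) (nat_lit 0x38000031000003000002) (nat_lit 75) (nat_lit 1) (nat_lit 0x2824018000001224218)))))) (Tree.br (nat_lit 924) (Tree.br (nat_lit 922) (Tree.br (nat_lit 921) (Tree.tip (nat_lit 920) (Node.img (nat_lit 0x2000003000007000000) (nat_lit 0x2000002000000000000000000000004) (nat_lit 43) (nat_lit 5) (nat_lit 128) (nat_lit 133))) (Tree.tip (nat_lit 921) (Node.mv (nat_lit 0x600000e000000000000) (nat_lit 0x400000400000400003800003100000b000002) (nat_lit 98) (nat_lit 2) (nat_lit 0x3974018000003984119000000374019)))) (Tree.br (nat_lit 923) (Tree.tip (nat_lit 922) (Node.mv (nat_lit 0xc00001c000000) (nat_lit 0x18000018000038000073000002000014)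 (nat_lit 52) (nat_lit 1) (nat_lit 0x3294018000001224119))) (Tree.tip (nat_lit 923) (Node.mv (nat_lit 0x6000006000002000000000000) (nat_lit 0x1000003000039000001000001000003000003) (nat_lit 99) (nat_lit 1) (nat_lit 0xeb4018000000f34318))))) (Tree.br (nat_lit 926) (Tree.br (nat_lit 925) (Tree.tip (nat_lit 924) (Node.img (nat_lit 0x8000038000008000008) (nat_lit 0x4000007000004000000000000) (nat_lit 136) (nat_lit 7) (nat_lit 133) (nat_lit 132))) (Tree.tip (nat_lit 925) (Node.img (nat_lit 0x1000003000003000001) (nat_lit 0x3000003000002000000000000000000) (nat_lit 158) (nat_lit 2) (nat_lit 128) (nat_lit 133)))) (Tree.br (nat_lit 927) (Tree.tip (nat_lit 926) (Node.mv (nat_lit 0x38000018000008) (nat_lit 0x1800001c00001f000004000000000000) (nat_lit 75) (nat_lit 1) (nat_lit 0x39d401b0000039c4018))) (Tree.tip (nat_lit 927) (Node.img (nat_lit 0x200000e000002000002) (nat_lit 0x1000001000010000000000000) (nat_lit 64) (nat_lit 3) (nat_lit 132) (nat_lit 132)))))))) (Tree.br (nat_lit 944) (Tree.br (nat_lit 936)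 (Tree.br (nat_lit 932) (Tree.br (nat_lit 930) (Tree.br (nat_lit 929) (Tree.tip (nat_lit 928) (Node.mv (nat_lit 0xe000006000002000000000000) (nat_lit 0x1000003000010000000000001000003000003) (nat_lit 121) (nat_lit 1) (nat_lit 0x9240180000039f4218))) (Tree.tip (nat_lit 929) (Node.mv (nat_lit 0x6000006000002000000000000) (nat_lit 0x3000003000003000038000001000001000003000003) (nat_lit 99) (nat_lit 2) (nat_lit 0x3a040180000037b4018000000f34318)))) (Tree.br (nat_lit 931) (Tree.tip (nat_lit 930) (Node.mv (nat_lit 0x1c00000c000004) (nat_lit 0x2000002000007000003000030000000) (nat_lit 49) (nat_lit 1) (nat_lit 0x8840180000004d4118))) (Tree.tip (nat_lit 931) (Node.mv (nat_lit 0xc00000c000004) (nat_lit 0x2000002000007000073000032000000) (nat_lit 52) (nat_lit 1) (nat_lit 0x3a24018000000f34119))))) (Tree.br (nat_lit 934) (Tree.br (nat_lit 933) (Tree.tip (nat_lit 932) (Node.img (nat_lit 0x400001e000000000000000000) (nat_lit 0x4000004000008000001000038000008000008) (nat_lit 489) (nat_lit 7) (nat_lit 133) (nat_lit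 134))) (Tree.tip (nat_lit 933) (Node.mv (nat_lit 0x600000e000000000000000000) (nat_lit 0x4000004000008000031000038000008000008) (nat_lit 76) (nat_lit 1) (nat_lit 0x3a44018000000254319)))) (Tree.br (nat_lit 935) (Tree.tip (nat_lit 934) (Node.mv (nat_lit 0xe00000e000008000000) (nat_lit 0x10000018000001000001000010000010) (nat_lit 99) (nat_lit 1) (nat_lit 0x2474118000000404018))) (Tree.tip (nat_lit 935) (Node.img (nat_lit 0x600001e000000000000000000) (nat_lit 0x4000000000000000003000002000002) (nat_lit 171) (nat_lit 5) (nat_lit 128) (nat_lit 133)))))) (Tree.br (nat_lit 940) (Tree.br (nat_lit 938) (Tree.br (nat_lit 937) (Tree.tip (nat_lit 936) (Node.mv (nat_lit 0x600001e000000000000000000) (nat_lit 0x400000000000100003b000002000002) (nat_lit 51) (nat_lit 1) (nat_lit 0x3a740180000005f4218))) (Tree.tip (nat_lit 937) (Node.mv (nat_lit 0x600000e000000000000000000) (nat_lit 0x400000000003100003b000002000002) (nat_lit 76) (nat_lit 1) (nat_lit 0x3a84018000000254319)))) (Tree.br (nat_lit 939) (Tree.tip (nat_lit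 938) (Node.mv (nat_lit 0x18000038000008000000) (nat_lit 0x18000018000018000000000004000007000004) (nat_lit 99) (nat_lit 1) (nat_lit 0x39d411b000002564018))) (Tree.tip (nat_lit 939) (Node.img (nat_lit 0xc00001c000004000000000000) (nat_lit 0x2000003000000000000000004000004) (nat_lit 98) (nat_lit 6) (nat_lit 132) (nat_lit 128))))) (Tree.br (nat_lit 942) (Tree.br (nat_lit 941) (Tree.tip (nat_lit 940) (Node.mv (nat_lit 0x18000038000000000000000000) (nat_lit 0x1800001800001c00000600000400000f00000c000008) (nat_lit 51) (nat_lit 2) (nat_lit 0x3ab4019000003aa411800000046401b))) (Tree.tip (nat_lit 941) (Node.img (nat_lit 0x600000e000000) (nat_lit 0x38000031000038) (nat_lit 760) (nat_lit 1) (nat_lit 133) (nat_lit 128)))) (Tree.br (nat_lit 943) (Tree.tip (nat_lit 942) (Node.mv (nat_lit 0x18000038000000000000) (nat_lit 0xc00000c00000c0000e00000c40000ef000004) (nat_lit 27) (nat_lit 2) (nat_lit 0x3ad411a00000348401800000047411a))) (Tree.tip (nat_lit 943) (Node.img (nat_lit 0x1c00001c) (nat_lit 0x7000063000000)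 (nat_lit 622) (nat_lit 2) (nat_lit 128) (nat_lit 130))))))) (Tree.br (nat_lit 952) (Tree.br (nat_lit 948) (Tree.br (nat_lit 946) (Tree.br (nat_lit 945) (Tree.tip (nat_lit 944) (Node.img (nat_lit 0xe00000e000000) (nat_lit 0x600000600000700003000000000000a) (nat_lit 809) (nat_lit 1) (nat_lit 133) (nat_lit 128))) (Tree.tip (nat_lit 945) (Node.mv (nat_lit 0xc00001c000000) (nat_lit 0x1c00001c00003f000073000000000014) (nat_lit 52) (nat_lit 2) (nat_lit 0x3b04019000003294018000003af4118)))) (Tree.br (nat_lit 947) (Tree.tip (nat_lit 946) (Node.mv (nat_lit 0xc00000c000000000000000000) (nat_lit 0x1c00001c00003f000073000070000016000004000004) (nat_lit 76) (nat_lit 2) (nat_lit 0x484019000003b14218000000264319))) (Tree.tip (nat_lit 947) (Node.img (nat_lit 0x400000f000000) (nat_lit 0x3000030000038) (nat_lit 106) (nat_lit 3) (nat_lit 133) (nat_lit 130))))) (Tree.br (nat_lit 950) (Tree.br (nat_lit 949) (Tree.tip (nat_lit 948) (Node.mv (nat_lit 0x800001e000000) (nat_lit 0x6000060000073) (nat_lit 1) (nat_lit 1) (nat_lit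 0x3b34019000000674018))) (Tree.tip (nat_lit 949) (Node.img (nat_lit 0x1f000006) (nat_lit 56) (nat_lit 242) (nat_lit 1) (nat_lit 133) (nat_lit 128)))) (Tree.br (nat_lit 951) (Tree.tip (nat_lit 950) (Node.mv (nat_lit 0x3c00000c) (nat_lit 0x7000002000070) (nat_lit 25) (nat_lit 1) (nat_lit 0x3b54019000000694118))) (Tree.tip (nat_lit 951) (Node.mv (nat_lit 0x1c00000c) (nat_lit 0x7000062000070) (nat_lit 29) (nat_lit 1) (nat_lit 0x3b6401800000018401a)))))) (Tree.br (nat_lit 956) (Tree.br (nat_lit 954) (Tree.br (nat_lit 953) (Tree.tip (nat_lit 952) (Node.mv (nat_lit 0x800000e000000000004000000) (nat_lit 0x70000011000004000000000004) (nat_lit 50) (nat_lit 1) (nat_lit 0x1a431800000041401a))) (Tree.tip (nat_lit 953) (Node.img (nat_lit 0x8000018000008000008000000) (nat_lit 0x8000000000064000007000004000004) (nat_lit 332) (nat_lit 1) (nat_lit 134) (nat_lit 128)))) (Tree.br (nat_lit 955) (Tree.tip (nat_lit 954) (Node.mv (nat_lit 0x18000018000008000000000000) (nat_lit 0x800000000006400000700000c00000c) (nat_lit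 27) (nat_lit 1) (nat_lit 0x3b9401800000041401b))) (Tree.tip (nat_lit 955) (Node.img (nat_lit 0x1e000000000000000000) (nat_lit 0x4000007000020000003000002000002) (nat_lit 173) (nat_lit 5) (nat_lit 128) (nat_lit 133))))) (Tree.br (nat_lit 958) (Tree.br (nat_lit 957) (Tree.tip (nat_lit 956) (Node.mv (nat_lit 0x1000001c000000000000000000) (nat_lit 0x4000027000022000003000002000002) (nat_lit 73) (nat_lit 1) (nat_lit 0x3bb40180000002a4319))) (Tree.tip (nat_lit 957) (Node.mv (nat_lit 0x20000038000000) (nat_lit 0x57000006000006) (nat_lit 26) (nat_lit 1) (nat_lit 0x24940180000002a411a)))) (Tree.br (nat_lit 959) (Tree.tip (nat_lit 958) (Node.img (nat_lit 0x4000000000007000006000000000000000000) (nat_lit 0x5000000000000000002000002000002) (nat_lit 783) (nat_lit 7) (nat_lit 130) (nat_lit 134))) (Tree.tip (nat_lit 959) (Node.mv (nat_lit 0x2000007000006000000000000000000) (nat_lit 0x6000006000005000000000000000002000002000002) (nat_lit 146) (nat_lit 2) (nat_lit 0x3be40180000036843190000010c4219))))))))) (Tree.br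 (nat_lit 992) (Tree.br (nat_lit 976) (Tree.br (nat_lit 968) (Tree.br (nat_lit 964) (Tree.br (nat_lit 962) (Tree.br (nat_lit 961) (Tree.tip (nat_lit 960) (Node.mv (nat_lit 0x800000800000000000f000000) (nat_lit 0x18000000000004) (nat_lit 51) (nat_lit 1) (nat_lit 0x2a411800000001401a))) (Tree.tip (nat_lit 961) (Node.img (nat_lit 0x3000007000008) (nat_lit 0x18000010) (nat_lit 240) (nat_lit 3) (nat_lit 132) (nat_lit 130)))) (Tree.br (nat_lit 963) (Tree.tip (nat_lit 962) (Node.mv (nat_lit 0x800003c000040) (nat_lit 0x300000c3000080) (nat_lit 52) (nat_lit 1) (nat_lit 0x3c1401b000000894118))) (Tree.tip (nat_lit 963) (Node.mv (nat_lit 0x1e000018000010) (nat_lit 0x20000007000020) (nat_lit 25) (nat_lit 1) (nat_lit 0x2714019000000674118))))) (Tree.br (nat_lit 966) (Tree.br (nat_lit 965) (Tree.tip (nat_lit 964) (Node.mv (nat_lit 0x1c000038000000000000000000) (nat_lit 0x8000020000007000006000004000004) (nat_lit 74) (nat_lit 1) (nat_lit 0x3a74019000000894318))) (Tree.tip (nat_lit 965) (Node.mv (nat_lit 0x400000400001a000002)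 (nat_lit 0x4000000000000000004000001) (nat_lit 26) (nat_lit 1) (nat_lit 0x444019000000674018)))) (Tree.br (nat_lit 967) (Tree.tip (nat_lit 966) (Node.mv (nat_lit 0x600001a000002000000) (nat_lit 0x4000004000000000004000001000002) (nat_lit 98) (nat_lit 1) (nat_lit 0x3c54118000000414019))) (Tree.tip (nat_lit 967) (Node.mv (nat_lit 0x18000038000000000020000000) (nat_lit 0x20000007000060000000000020) (nat_lit 74) (nat_lit 1) (nat_lit 0x180401a000000894318)))))) (Tree.br (nat_lit 972) (Tree.br (nat_lit 970) (Tree.br (nat_lit 969) (Tree.tip (nat_lit 968) (Node.img (nat_lit 0x800001800001c000000000000) (nat_lit 0x3000030000010) (nat_lit 98) (nat_lit 2) (nat_lit 128) (nat_lit 132))) (Tree.tip (nat_lit 969) (Node.mv (nat_lit 0x1c00001c000000000000) (nat_lit 0x8000008000000000003000034000014) (nat_lit 99) (nat_lit 1) (nat_lit 0x3c8401800000037401a)))) (Tree.br (nat_lit 971) (Tree.tip (nat_lit 970) (Node.img (nat_lit 0xf000006000000000000000000) (nat_lit 0x800000800001e000000000000000004000004000004) (nat_lit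 793) (nat_lit 1) (nat_lit 132) (nat_lit 128))) (Tree.tip (nat_lit 971) (Node.mv (nat_lit 0x7000006000000000000000000) (nat_lit 0x800000800001e000038000001000004000004000004) (nat_lit 99) (nat_lit 1) (nat_lit 0x3ca4018000000f34318))))) (Tree.br (nat_lit 974) (Tree.br (nat_lit 973) (Tree.tip (nat_lit 972) (Node.img (nat_lit 0xf00000c000000000000) (nat_lit 0x8000018000000000000000004000004) (nat_lit 99) (nat_lit 5) (nat_lit 128) (nat_lit 133))) (Tree.tip (nat_lit 973) (Node.mv (nat_lit 0x1600001c000000000000) (nat_lit 0x10000037000068000000000008000008) (nat_lit 75) (nat_lit 1) (nat_lit 0x2f64218000003cc4019)))) (Tree.br (nat_lit 975) (Tree.tip (nat_lit 974) (Node.mv (nat_lit 0x1600001c000000000000000000) (nat_lit 0x4000020000002000003000002000002) (nat_lit 73) (nat_lit 1) (nat_lit 0x3a740180000002a4319))) (Tree.tip (nat_lit 975) (Node.mv (nat_lit 0xb00000e000008000000) (nat_lit 0x10000018000004000001000010000010) (nat_lit 99) (nat_lit 1) (nat_lit 0x3254118000000404018))))))) (Tree.br (nat_lit 984)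 (Tree.br (nat_lit 980) (Tree.br (nat_lit 978) (Tree.br (nat_lit 977) (Tree.tip (nat_lit 976) (Node.mv (nat_lit 0x200000e00000e) (nat_lit 0x1000010000001) (nat_lit 28) (nat_lit 1) (nat_lit 0x244118000000164018))) (Tree.tip (nat_lit 977) (Node.img (nat_lit 0x800000800000d000008000000) (nat_lit 0x2000010000010) (nat_lit 308) (nat_lit 5) (nat_lit 128) (nat_lit 132)))) (Tree.br (nat_lit 979) (Tree.tip (nat_lit 978) (Node.mv (nat_lit 0xe00000d000008000000) (nat_lit 0x10000018000001000002000010000010) (nat_lit 99) (nat_lit 1) (nat_lit 0x2474118000003d14018))) (Tree.tip (nat_lit 979) (Node.img (nat_lit 0x1800001a000010) (nat_lit 0x5000020) (nat_lit 73) (nat_lit 4) (nat_lit 128) (nat_lit 128))))) (Tree.br (nat_lit 982) (Tree.br (nat_lit 981) (Tree.tip (nat_lit 980) (Node.img (nat_lit 0x1c00001a) (nat_lit 0x3000001) (nat_lit 66) (nat_lit 5) (nat_lit 128) (nat_lit 129))) (Tree.tip (nat_lit 981) (Node.mv (nat_lit 0x1c000018000010000000) (nat_lit 0x20000030000003000007000020000020) (nat_lit 49) (nat_lit 2) (nat_lit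 0x3d24019000003d44218000003d34118)))) (Tree.br (nat_lit 983) (Tree.tip (nat_lit 982) (Node.mv (nat_lit 0x1c000018000000000000000000) (nat_lit 0x20000038000003000007000030000030000010) (nat_lit 52) (nat_lit 1) (nat_lit 0x3d541180000002e401b))) (Tree.tip (nat_lit 983) (Node.img (nat_lit 0x300001a) (nat_lit 4) (nat_lit 75) (nat_lit 1) (nat_lit 132) (nat_lit 128)))))) (Tree.br (nat_lit 988) (Tree.br (nat_lit 986) (Tree.br (nat_lit 985) (Tree.tip (nat_lit 984) (Node.img (nat_lit 0x1000001000003000000000000000000) (nat_lit 0x1000000000002000000000002000002000002) (nat_lit 13) (nat_lit 3) (nat_lit 129) (nat_lit 134))) (Tree.tip (nat_lit 985) (Node.mv (nat_lit 0x800000b00000a000000000000000000) (nat_lit 0x8000000000010000014000010000010000010) (nat_lit 76) (nat_lit 1) (nat_lit 0x3d8401b000003d74318)))) (Tree.br (nat_lit 987) (Tree.tip (nat_lit 986) (Node.img (nat_lit 0x800000b000008000008) (nat_lit 0x14000016000000000000000000) (nat_lit 768) (nat_lit 6) (nat_lit 132) (nat_lit 128))) (Tree.tip (nat_lit 987)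 (Node.mv (nat_lit 0x800000b000008000000000000000000) (nat_lit 0x1400001600000000000000001c00001c000014) (nat_lit 51) (nat_lit 1) (nat_lit 0x5401a000003da4218))))) (Tree.br (nat_lit 990) (Tree.br (nat_lit 989) (Tree.tip (nat_lit 988) (Node.img (nat_lit 0x3c000000) (nat_lit 0x76000002000007) (nat_lit 145) (nat_lit 6) (nat_lit 134) (nat_lit 128))) (Tree.tip (nat_lit 989) (Node.mv (nat_lit 0x38000000) (nat_lit 0xfe00004600000f) (nat_lit 26) (nat_lit 3) (nat_lit 0x3dc4018000000d74119000001c14019000000584019)))) (Tree.br (nat_lit 991) (Tree.tip (nat_lit 990) (Node.mv (nat_lit 0x1a000070000000000000000000) (nat_lit 0x1000000100000f0000ec000008000008) (nat_lit 75) (nat_lit 1) (nat_lit 0x3444218000003a7401a))) (Tree.tip (nat_lit 991) (Node.mv (nat_lit 0x16000014000000000000000000) (nat_lit 0x400002000002a000003000002000002) (nat_lit 75) (nat_lit 1) (nat_lit 0x3ce4018000000254319)))))))) (Tree.br (nat_lit 1008) (Tree.br (nat_lit 1000) (Tree.br (nat_lit 996) (Tree.br (nat_lit 994) (Tree.br (nat_lit 993) (Tree.tip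 (nat_lit 992) (Node.mv (nat_lit 0x1800003c000000) (nat_lit 0xc3000007) (nat_lit 30) (nat_lit 1) (nat_lit 0x33d401800000025411b))) (Tree.tip (nat_lit 993) (Node.mv (nat_lit 0xf000006000000000000000000) (nat_lit 0x800001a000000000018000004000004000004) (nat_lit 50) (nat_lit 1) (nat_lit 0x28442180000002e4019)))) (Tree.br (nat_lit 995) (Tree.tip (nat_lit 994) (Node.mv (nat_lit 0x1400001c000000000000000000) (nat_lit 0x10000020000003000038000008000008) (nat_lit 73) (nat_lit 1) (nat_lit 0x34940180000002a4319))) (Tree.tip (nat_lit 995) (Node.mv (nat_lit 0x16000014000000000000000000) (nat_lit 0x1000002000002b000038000008000008) (nat_lit 75) (nat_lit 1) (nat_lit 0x3e24018000000254319))))) (Tree.br (nat_lit 998) (Tree.br (nat_lit 997) (Tree.tip (nat_lit 996) (Node.img (nat_lit 0x1000001000003000003000001) (nat_lit 0x2000002000002000000000000000000) (nat_lit 242) (nat_lit 7) (nat_lit 129) (nat_lit 133))) (Tree.tip (nat_lit 997) (Node.mv (nat_lit 0x2000002000007000006000000000000000000) (nat_lit 0x4000004000005000000000000000002000002000002)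 (nat_lit 49) (nat_lit 2) (nat_lit 0x4e4018000003e44219000000464019)))) (Tree.br (nat_lit 999) (Tree.tip (nat_lit 998) (Node.mv (nat_lit 0x1000001000001000007000004) (nat_lit 0x3000002000002000002000000000000) (nat_lit 49) (nat_lit 1) (nat_lit 0x34b40180000000b4118))) (Tree.tip (nat_lit 999) (Node.mv (nat_lit 0x3000001000001000006000004) (nat_lit 0x1000000000002000002000000000000) (nat_lit 49) (nat_lit 1) (nat_lit 0xb41180000034a4019)))))) (Tree.br (nat_lit 1004) (Tree.br (nat_lit 1002) (Tree.br (nat_lit 1001) (Tree.tip (nat_lit 1000) (Node.mv (nat_lit 0x1000001000007000004) (nat_lit 0x3000003000002000002000000000002) (nat_lit 96) (nat_lit 1) (nat_lit 0x3e64018000000394018))) (Tree.tip (nat_lit 1001) (Node.img (nat_lit 0x2000002000002000006) (nat_lit 0x1000003000001000000000004000000) (nat_lit 28) (nat_lit 2) (nat_lit 128) (nat_lit 133)))) (Tree.br (nat_lit 1003) (Tree.tip (nat_lit 1002) (Node.mv (nat_lit 0x200000200000e000008) (nat_lit 0x1000007000007000005000004000000000002) (nat_lit 97) (nat_lit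 2) (nat_lit 0x3e64019000002594018000003e94118))) (Tree.tip (nat_lit 1003) (Node.img (nat_lit 0x1000001000003000002000000000000) (nat_lit 0x1000002000002) (nat_lit 25) (nat_lit 5) (nat_lit 128) (nat_lit 133))))) (Tree.br (nat_lit 1006) (Tree.br (nat_lit 1005) (Tree.tip (nat_lit 1004) (Node.mv (nat_lit 0x400000400000e000010000000000000) (nat_lit 0x100000c000008000008) (nat_lit 51) (nat_lit 1) (nat_lit 0x3eb401a000000274218))) (Tree.tip (nat_lit 1005) (Node.mv (nat_lit 0x4000004000007000004000000) (nat_lit 0x200000200000000000000001a00000a) (nat_lit 121) (nat_lit 1) (nat_lit 0x1b14018000000304119)))) (Tree.br (nat_lit 1007) (Tree.tip (nat_lit 1006) (Node.mv (nat_lit 0x18000018000008000000) (nat_lit 0xc00001c00001c000000000064000007000004) (nat_lit 100) (nat_lit 1) (nat_lit 0x343401800000044411b))) (Tree.tip (nat_lit 1007) (Node.mv (nat_lit 0x18000018000000000000000000) (nat_lit 0xc00001c00001c00000000006400000f00000c00000c) (nat_lit 51) (nat_lit 2) (nat_lit 0x25f401a000003ee411800000046401b)))))))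 (Tree.br (nat_lit 1016) (Tree.br (nat_lit 1012) (Tree.br (nat_lit 1010) (Tree.br (nat_lit 1009) (Tree.tip (nat_lit 1008) (Node.mv (nat_lit 0x1800007a000000) (nat_lit 0x50000e0) (nat_lit 26) (nat_lit 1) (nat_lit 0x77401a000000164118))) (Tree.tip (nat_lit 1009) (Node.mv (nat_lit 0x18000078000000000000000000) (nat_lit 0x100000000000070000ec000008000008) (nat_lit 73) (nat_lit 1) (nat_lit 0x3f04218000003a7401a)))) (Tree.br (nat_lit 1011) (Tree.tip (nat_lit 1010) (Node.mv (nat_lit 0x18000038000000000000000000) (nat_lit 0x100000000000c70000ec000008000008) (nat_lit 78) (nat_lit 1) (nat_lit 0x3f1401800000025431b))) (Tree.tip (nat_lit 1011) (Node.img (nat_lit 0xe00001e000000000000000000) (nat_lit 0xa000000000000000007000006000006) (nat_lit 828) (nat_lit 6) (nat_lit 132) (nat_lit 128))))) (Tree.br (nat_lit 1014) (Tree.br (nat_lit 1013) (Tree.tip (nat_lit 1012) (Node.mv (nat_lit 0xc00001e000000000000000000) (nat_lit 0xa000003000000000007000006000006) (nat_lit 97) (nat_lit 1) (nat_lit 0x3f34018000000244318)))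 (Tree.tip (nat_lit 1013) (Node.mv (nat_lit 0x18000038000000000000000000) (nat_lit 0x1400000700000700000f00000c00000c) (nat_lit 74) (nat_lit 2) (nat_lit 0x3f440190000033f43180000033d4218)))) (Tree.br (nat_lit 1015) (Tree.tip (nat_lit 1014) (Node.mv (nat_lit 0x18000018000000000000000000) (nat_lit 0x140000070000e70000ef00000c00000c) (nat_lit 77) (nat_lit 2) (nat_lit 0x3f24018000003f5401800000026431a))) (Tree.tip (nat_lit 1015) (Node.img (nat_lit 0x18000038000000) (nat_lit 0xc70000e7) (nat_lit 607) (nat_lit 6) (nat_lit 135) (nat_lit 128)))))) (Tree.br (nat_lit 1020) (Tree.br (nat_lit 1018) (Tree.br (nat_lit 1017) (Tree.tip (nat_lit 1016) (Node.mv (nat_lit 0x18000018000000000000000000) (nat_lit 0x80000070000e70000e7000004000004) (nat_lit 77) (nat_lit 2) (nat_lit 0x3f7421800000340401800000026431a))) (Tree.tip (nat_lit 1017) (Node.img (nat_lit 0x1e000006000000000000000000) (nat_lit 0x200000b000000000000000004000004000004) (nat_lit 296) (nat_lit 1) (nat_lit 132) (nat_lit 128)))) (Tree.br (nat_lit 1019)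 (Tree.tip (nat_lit 1018) (Node.mv (nat_lit 0x1e000002000000000000000000) (nat_lit 0x200000b000020000004000004000004000004) (nat_lit 74) (nat_lit 1) (nat_lit 0x3f94018000000184319))) (Tree.tip (nat_lit 1019) (Node.mv (nat_lit 0x1e000000000000000000000000) (nat_lit 0x200000b000020000007000004000004000004) (nat_lit 73) (nat_lit 1) (nat_lit 0x3fa4018000000674318))))) (Tree.br (nat_lit 1022) (Tree.br (nat_lit 1021) (Tree.tip (nat_lit 1020) (Node.mv (nat_lit 0x1000000000003c000010000000) (nat_lit 0x10000000000017000003000008000008) (nat_lit 27) (nat_lit 1) (nat_lit 0xec41180000010c401b))) (Tree.tip (nat_lit 1021) (Node.mv (nat_lit 0x800001000000e000008000000) (nat_lit 0x8000000000008000001000004000004) (nat_lit 75) (nat_lit 1) (nat_lit 0x3a401a000000164218)))) (Tree.br (nat_lit 1023) (Tree.tip (nat_lit 1022) (Node.mv (nat_lit 0x800000000001e000008000000) (nat_lit 0x8000000000038000001000004000004) (nat_lit 76) (nat_lit 1) (nat_lit 0x3fd40180000002a4219))) (Tree.tip (nat_lit 1023) (Node.mv (nat_lit 0x400003c000010000000000000)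 (nat_lit 0x400000400000800000300000f000008000008) (nat_lit 51) (nat_lit 1) (nat_lit 0x2cd421800000350401a))))))))))
noncomputable def t0_8 : Tree := (Tree.br (nat_lit 1088) (Tree.br (nat_lit 1056) (Tree.br (nat_lit 1040) (Tree.br (nat_lit 1032) (Tree.br (nat_lit 1028) (Tree.br (nat_lit 1026) (Tree.br (nat_lit 1025) (Tree.tip (nat_lit 1024) (Node.mv (nat_lit 0x3c000010000000000000) (nat_lit 0x400000400000e00000300000f000008000008) (nat_lit 98) (nat_lit 1) (nat_lit 0x3ff4018000000244319))) (Tree.tip (nat_lit 1025) (Node.mv (nat_lit 0x40000038000020) (nat_lit 0x20000006000017) (nat_lit 26) (nat_lit 1) (nat_lit 0x26a401800000021411a)))) (Tree.br (nat_lit 1027) (Tree.tip (nat_lit 1026) (Node.mv (nat_lit 0x78000020) (nat_lit 0xe0000006000017) (nat_lit 54) (nat_lit 1) (nat_lit 0x40140180000002a411b))) (Tree.tip (nat_lit 1027) (Node.mv (nat_lit 0x100000e000004) (nat_lit 0x2000030000072) (nat_lit 28) (nat_lit 1) (nat_lit 0x22b4019000002404118))))) (Tree.br (nat_lit 1030) (Tree.br (nat_lit 1029) (Tree.tip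 (nat_lit 1028) (Node.img (nat_lit 0x200000e000002000002000000) (nat_lit 0x2000000000010000001000001000001) (nat_lit 316) (nat_lit 1) (nat_lit 132) (nat_lit 128))) (Tree.tip (nat_lit 1029) (Node.mv (nat_lit 0xe000002000002000000) (nat_lit 0x1000003000003000010000001000001000001) (nat_lit 97) (nat_lit 2) (nat_lit 0xea40180000040440180000039f4118)))) (Tree.br (nat_lit 1031) (Tree.tip (nat_lit 1030) (Node.mv (nat_lit 0x7e000010) (nat_lit 0x100000c) (nat_lit 3) (nat_lit 1) (nat_lit 0x27401800000067401a))) (Tree.tip (nat_lit 1031) (Node.mv (nat_lit 0x2000007c000010) (nat_lit 0x1000000300000c) (nat_lit 25) (nat_lit 1) (nat_lit 0x4064018000000214119)))))) (Tree.br (nat_lit 1036) (Tree.br (nat_lit 1034) (Tree.br (nat_lit 1033) (Tree.tip (nat_lit 1032) (Node.img (nat_lit 0x1c000018000000000000) (nat_lit 0x10000030000003000000000008000008) (nat_lit 79) (nat_lit 5) (nat_lit 128) (nat_lit 133))) (Tree.tip (nat_lit 1033) (Node.mv (nat_lit 0x3c000014000000000000) (nat_lit 0x10000030000043000008000008000008) (nat_lit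 51) (nat_lit 1) (nat_lit 0x408401800000018421a)))) (Tree.br (nat_lit 1035) (Tree.tip (nat_lit 1034) (Node.mv (nat_lit 0x3c000010000000000000) (nat_lit 0x1000003000004300000e000008000008) (nat_lit 50) (nat_lit 1) (nat_lit 0x4094018000000674219))) (Tree.tip (nat_lit 1035) (Node.img (nat_lit 0x2000003000001000000000000) (nat_lit 0x2000002000000000000000002000001000001) (nat_lit 31) (nat_lit 7) (nat_lit 129) (nat_lit 134))))) (Tree.br (nat_lit 1038) (Tree.br (nat_lit 1037) (Tree.tip (nat_lit 1036) (Node.img (nat_lit 0x800003c000010) (nat_lit 0x17000003000008) (nat_lit 537) (nat_lit 4) (nat_lit 128) (nat_lit 128))) (Tree.tip (nat_lit 1037) (Node.img (nat_lit 0x2000003000001000000000000) (nat_lit 0x2000002000001000000000000000001000001) (nat_lit 31) (nat_lit 4) (nat_lit 128) (nat_lit 128)))) (Tree.br (nat_lit 1039) (Tree.tip (nat_lit 1038) (Node.mv (nat_lit 0x3c000014000000000000) (nat_lit 0x800000800001f000003000008000004000004) (nat_lit 99) (nat_lit 2) (nat_lit 0x40d401a0000040c42180000040b401a))) (Tree.tip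 (nat_lit 1039) (Node.mv (nat_lit 0x3c000010000000000000) (nat_lit 0x800000800001f00000300000e000004000004) (nat_lit 50) (nat_lit 1) (nat_lit 0x40e4018000000674219))))))) (Tree.br (nat_lit 1048) (Tree.br (nat_lit 1044) (Tree.br (nat_lit 1042) (Tree.br (nat_lit 1041) (Tree.tip (nat_lit 1040) (Node.img (nat_lit 0x200000e000001) (nat_lit 0x1000010000002) (nat_lit 50) (nat_lit 6) (nat_lit 132) (nat_lit 128))) (Tree.tip (nat_lit 1041) (Node.mv (nat_lit 0xf000001000000000000) (nat_lit 0x2000002000003000010000002000001000001) (nat_lit 97) (nat_lit 2) (nat_lit 0x40d40180000040b4018000004104218)))) (Tree.br (nat_lit 1043) (Tree.tip (nat_lit 1042) (Node.mv (nat_lit 0x1e000000000000000000) (nat_lit 0x4000004000006000020000007000002000002) (nat_lit 49) (nat_lit 1) (nat_lit 0x4114019000000674218))) (Tree.tip (nat_lit 1043) (Node.img (nat_lit 0x1400003e) (nat_lit 0x8000041) (nat_lit 540) (nat_lit 5) (nat_lit 128) (nat_lit 129))))) (Tree.br (nat_lit 1046) (Tree.br (nat_lit 1045) (Tree.tip (nat_lit 1044) (Node.mv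 (nat_lit 0x1000003e) (nat_lit 0xe000041) (nat_lit 26) (nat_lit 1) (nat_lit 0x4134018000000244019))) (Tree.tip (nat_lit 1045) (Node.img (nat_lit 0x3e000010) (nat_lit 0xc100000c) (nat_lit 379) (nat_lit 7) (nat_lit 135) (nat_lit 129)))) (Tree.br (nat_lit 1047) (Tree.tip (nat_lit 1046) (Node.mv (nat_lit 0x2000003c000010) (nat_lit 0x100000c300000c) (nat_lit 25) (nat_lit 1) (nat_lit 0x4154018000000214119))) (Tree.tip (nat_lit 1047) (Node.img (nat_lit 0x1e000010) (nat_lit 0x38000001000008) (nat_lit 60) (nat_lit 6) (nat_lit 133) (nat_lit 128)))))) (Tree.br (nat_lit 1052) (Tree.br (nat_lit 1050) (Tree.br (nat_lit 1049) (Tree.tip (nat_lit 1048) (Node.mv (nat_lit 0x3c000010) (nat_lit 0x3f000003000008) (nat_lit 25) (nat_lit 1) (nat_lit 0x4174018000000694118))) (Tree.tip (nat_lit 1049) (Node.mv (nat_lit 0x3c000010) (nat_lit 0x3f00000300000e) (nat_lit 2) (nat_lit 1) (nat_lit 0x4184018000000674019)))) (Tree.br (nat_lit 1051) (Tree.tip (nat_lit 1050) (Node.img (nat_lit 0x1e00000c000000000000) (nat_lit 0x2000003000000000003000004000004)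 (nat_lit 797) (nat_lit 1) (nat_lit 132) (nat_lit 128))) (Tree.tip (nat_lit 1051) (Node.mv (nat_lit 0xe00000c000000000000) (nat_lit 0x2000003000070000073000004000004) (nat_lit 76) (nat_lit 2) (nat_lit 0x41a4018000003824219000000234218))))) (Tree.br (nat_lit 1054) (Tree.br (nat_lit 1053) (Tree.tip (nat_lit 1052) (Node.mv (nat_lit 0x1c000018) (nat_lit 0x70000e30000c6) (nat_lit 29) (nat_lit 2) (nat_lit 0x31b40180000038d4018000000234019))) (Tree.tip (nat_lit 1053) (Node.img (nat_lit 0x1e000004000000000000) (nat_lit 0x2000003000000000003000004000004) (nat_lit 100) (nat_lit 7) (nat_lit 132) (nat_lit 133)))) (Tree.br (nat_lit 1055) (Tree.tip (nat_lit 1054) (Node.mv (nat_lit 0x1c000014000000000000) (nat_lit 0x2000003000002000023000004000004) (nat_lit 73) (nat_lit 1) (nat_lit 0x41d4018000000284219))) (Tree.tip (nat_lit 1055) (Node.img (nat_lit 0x1e000004000000000000) (nat_lit 0x2000007000020000000000004000004) (nat_lit 468) (nat_lit 6) (nat_lit 133) (nat_lit 128)))))))) (Tree.br (nat_lit 1072) (Tree.br (nat_lit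 1064) (Tree.br (nat_lit 1060) (Tree.br (nat_lit 1058) (Tree.br (nat_lit 1057) (Tree.tip (nat_lit 1056) (Node.mv (nat_lit 0x1c000014000000000000) (nat_lit 0x2000007000022000020000004000004) (nat_lit 73) (nat_lit 1) (nat_lit 0x41f4018000000284219))) (Tree.tip (nat_lit 1057) (Node.img (nat_lit 0x3000001000001000000) (nat_lit 0x2000002000003000000000000000000000001) (nat_lit 26) (nat_lit 4) (nat_lit 128) (nat_lit 128)))) (Tree.br (nat_lit 1059) (Tree.tip (nat_lit 1058) (Node.img (nat_lit 0x8000028000008000000000000000000) (nat_lit 0x8000000000054000017000004000004000004) (nat_lit 264) (nat_lit 6) (nat_lit 134) (nat_lit 128))) (Tree.tip (nat_lit 1059) (Node.mv (nat_lit 0x18000028000000000000000000000000) (nat_lit 0x1000001000001800000000005400001f00000c000004000004) (nat_lit 75) (nat_lit 2) (nat_lit 0x7e421b00000422401800000421421b))))) (Tree.br (nat_lit 1062) (Tree.br (nat_lit 1061) (Tree.tip (nat_lit 1060) (Node.mv (nat_lit 0x38000028000008) (nat_lit 0x4000007000006000017000000) (nat_lit 50) (nat_lit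 2) (nat_lit 0x6c4019000002f241180000026a4118))) (Tree.tip (nat_lit 1061) (Node.img (nat_lit 0x3000016) (nat_lit 8) (nat_lit 45) (nat_lit 3) (nat_lit 132) (nat_lit 129)))) (Tree.br (nat_lit 1063) (Tree.tip (nat_lit 1062) (Node.mv (nat_lit 0x3c00002c) (nat_lit 0x7000002000010) (nat_lit 25) (nat_lit 1) (nat_lit 0x694118000004254019))) (Tree.tip (nat_lit 1063) (Node.mv (nat_lit 0x3c000028) (nat_lit 0x7000002000016) (nat_lit 2) (nat_lit 1) (nat_lit 0x4264018000000674019)))))) (Tree.br (nat_lit 1068) (Tree.br (nat_lit 1066) (Tree.br (nat_lit 1065) (Tree.tip (nat_lit 1064) (Node.mv (nat_lit 0x1e00000a000000000000000000) (nat_lit 0x4000020000034000003000002000002) (nat_lit 74) (nat_lit 1) (nat_lit 0x484018000000184319))) (Tree.tip (nat_lit 1065) (Node.img (nat_lit 0x1e000006000000000000) (nat_lit 0x2000003000000000000000004000004) (nat_lit 99) (nat_lit 7) (nat_lit 132) (nat_lit 133)))) (Tree.br (nat_lit 1067) (Tree.tip (nat_lit 1066) (Node.mv (nat_lit 0x1e00000a000000000000000000) (nat_lit 0x2000007000000000034000007000006000002)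 (nat_lit 74) (nat_lit 1) (nat_lit 0x484018000004294118))) (Tree.tip (nat_lit 1067) (Node.mv (nat_lit 0xe000014000004000000000000) (nat_lit 0x8000001000008000000000004000004) (nat_lit 75) (nat_lit 1) (nat_lit 0x46401a000000274318))))) (Tree.br (nat_lit 1070) (Tree.br (nat_lit 1069) (Tree.tip (nat_lit 1068) (Node.mv (nat_lit 0x38000028000008000000000000) (nat_lit 0x17000006000010000000000008000008) (nat_lit 98) (nat_lit 2) (nat_lit 0x42b4019000002f2431800000033411a))) (Tree.tip (nat_lit 1069) (Node.img (nat_lit 0xe00000a000002000000) (nat_lit 0x5000001000010000000000002) (nat_lit 735) (nat_lit 1) (nat_lit 132) (nat_lit 128)))) (Tree.br (nat_lit 1071) (Tree.tip (nat_lit 1070) (Node.img (nat_lit 0x38000020) (nat_lit 0x7000006000050) (nat_lit 54) (nat_lit 5) (nat_lit 128) (nat_lit 130))) (Tree.tip (nat_lit 1071) (Node.img (nat_lit 0x600000a000002000000000000) (nat_lit 0x4000000000034000001000002000002) (nat_lit 529) (nat_lit 6) (nat_lit 133) (nat_lit 128))))))) (Tree.br (nat_lit 1080) (Tree.br (nat_lit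 1076) (Tree.br (nat_lit 1074) (Tree.br (nat_lit 1073) (Tree.tip (nat_lit 1072) (Node.mv (nat_lit 0x38000028000000000000000000) (nat_lit 0x170000060000d000000c000008000008) (nat_lit 51) (nat_lit 3) (nat_lit 0x42c40180000042f401a0000042e43180000042d411a))) (Tree.tip (nat_lit 1073) (Node.mv (nat_lit 0x1c000014000004000000000000) (nat_lit 0x8000002000023000000000004000004) (nat_lit 97) (nat_lit 1) (nat_lit 0x814018000000284319)))) (Tree.br (nat_lit 1075) (Tree.tip (nat_lit 1074) (Node.mv (nat_lit 0xe00000a000002000000) (nat_lit 0x4000004000006000001000010000000000002) (nat_lit 72) (nat_lit 1) (nat_lit 0x4214019000000284218))) (Tree.tip (nat_lit 1075) (Node.mv (nat_lit 0xe000002000002000000) (nat_lit 0x4000004000006000010000001000000000002) (nat_lit 76) (nat_lit 1) (nat_lit 0x4214019000000674218))))) (Tree.br (nat_lit 1078) (Tree.br (nat_lit 1077) (Tree.tip (nat_lit 1076) (Node.mv (nat_lit 0xe000002000002000000) (nat_lit 0x6000030000005000000000002) (nat_lit 76) (nat_lit 1) (nat_lit 0x2f14019000000674218)))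 (Tree.tip (nat_lit 1077) (Node.mv (nat_lit 0xf000001000001000000) (nat_lit 0x3b000010000000000000000001) (nat_lit 76) (nat_lit 1) (nat_lit 0x2f04018000000794318)))) (Tree.br (nat_lit 1079) (Tree.tip (nat_lit 1078) (Node.mv (nat_lit 0xe00000a000002000000) (nat_lit 0x76000031000030000000000002) (nat_lit 76) (nat_lit 1) (nat_lit 0x43540190000005f4218))) (Tree.tip (nat_lit 1079) (Node.img (nat_lit 0x3000001000001000000) (nat_lit 0x2000003000000000002000000000001) (nat_lit 23) (nat_lit 4) (nat_lit 128) (nat_lit 128)))))) (Tree.br (nat_lit 1084) (Tree.br (nat_lit 1082) (Tree.br (nat_lit 1081) (Tree.tip (nat_lit 1080) (Node.mv (nat_lit 0x7000001000001000000) (nat_lit 0x200003b000018000002000000000001) (nat_lit 75) (nat_lit 2) (nat_lit 0x4354018000001764218000004374018))) (Tree.tip (nat_lit 1081) (Node.mv (nat_lit 0x1a000030000000000000000000) (nat_lit 0x100000010000cf0000ec000008000008) (nat_lit 78) (nat_lit 1) (nat_lit 0x3de401800000025431b)))) (Tree.br (nat_lit 1083) (Tree.tip (nat_lit 1082) (Node.mv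 (nat_lit 0x18000030000000000000000000) (nat_lit 0x100000070000cf0000ec000008000008) (nat_lit 97) (nat_lit 1) (nat_lit 0x43940180000002d4319))) (Tree.tip (nat_lit 1083) (Node.mv (nat_lit 0x7000006000004) (nat_lit 0x8000038000038000038000000) (nat_lit 51) (nat_lit 2) (nat_lit 0x2844018000002cb4118000003824118))))) (Tree.br (nat_lit 1086) (Tree.br (nat_lit 1085) (Tree.tip (nat_lit 1084) (Node.mv (nat_lit 0xe00001c000000000000) (nat_lit 0x10000030000030000003000008000008) (nat_lit 76) (nat_lit 1) (nat_lit 0x3cc4019000000894218))) (Tree.tip (nat_lit 1085) (Node.mv (nat_lit 0xe00000c000000000000) (nat_lit 0x10000030000030000033000008000008) (nat_lit 52) (nat_lit 1) (nat_lit 0x43c4018000000254219)))) (Tree.br (nat_lit 1087) (Tree.tip (nat_lit 1086) (Node.img (nat_lit 0x1800003c000000) (nat_lit 0x3000070) (nat_lit 149) (nat_lit 4) (nat_lit 128) (nat_lit 128))) (Tree.tip (nat_lit 1087) (Node.mv (nat_lit 0x1c000038000000000000000000) (nat_lit 0x8000000000007000076000004000004) (nat_lit 74) (nat_lit 1) (nat_lit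 0x3a740190000043e4218))))))))) (Tree.br (nat_lit 1120) (Tree.br (nat_lit 1104) (Tree.br (nat_lit 1096) (Tree.br (nat_lit 1092) (Tree.br (nat_lit 1090) (Tree.br (nat_lit 1089) (Tree.tip (nat_lit 1088) (Node.mv (nat_lit 0x1c000018000000000000000000) (nat_lit 0x8000000000067000076000004000004) (nat_lit 77) (nat_lit 1) (nat_lit 0x43f401800000025431a))) (Tree.tip (nat_lit 1089) (Node.img (nat_lit 0x1c000018000010) (nat_lit 0x23000007000020) (nat_lit 195) (nat_lit 2) (nat_lit 128) (nat_lit 130)))) (Tree.br (nat_lit 1091) (Tree.tip (nat_lit 1090) (Node.mv (nat_lit 0x1c000018000000000000000000) (nat_lit 0x8000023000007000030000010000010) (nat_lit 52) (nat_lit 1) (nat_lit 0x44142180000002e401b))) (Tree.tip (nat_lit 1091) (Node.mv (nat_lit 0x3c000020) (nat_lit 0x2000000f00004200001f) (nat_lit 77) (nat_lit 2) (nat_lit 0x26a4018000000584019000002f24018))))) (Tree.br (nat_lit 1094) (Tree.br (nat_lit 1093) (Tree.tip (nat_lit 1092) (Node.mv (nat_lit 0x38000020) (nat_lit 0x2000000f00004600005f) (nat_lit 26) (nat_lit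 1) (nat_lit 0x443401800000028401a))) (Tree.tip (nat_lit 1093) (Node.mv (nat_lit 0x18000028000008000000000000) (nat_lit 0x10000000000050000017000008000008) (nat_lit 76) (nat_lit 1) (nat_lit 0x178421800000046401b)))) (Tree.br (nat_lit 1095) (Tree.tip (nat_lit 1094) (Node.mv (nat_lit 0xe00000a000002000000) (nat_lit 0x3000003000010000014000005000005) (nat_lit 97) (nat_lit 1) (nat_lit 0x34640180000039f4118))) (Tree.tip (nat_lit 1095) (Node.img (nat_lit 0x400001c000004000004000000) (nat_lit 0x2000003000002000000000000000004) (nat_lit 319) (nat_lit 1) (nat_lit 132) (nat_lit 128)))))) (Tree.br (nat_lit 1100) (Tree.br (nat_lit 1098) (Tree.br (nat_lit 1097) (Tree.tip (nat_lit 1096) (Node.mv (nat_lit 0x1c000004000004000000) (nat_lit 0xa00000f000002000000000000000004) (nat_lit 98) (nat_lit 2) (nat_lit 0x345411800000447401800000099401a))) (Tree.tip (nat_lit 1097) (Node.img (nat_lit 0xe000002000002000002000000) (nat_lit 0x1000011000001000000000000000002) (nat_lit 531) (nat_lit 1) (nat_lit 132) (nat_lit 128))))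 (Tree.br (nat_lit 1099) (Tree.tip (nat_lit 1098) (Node.mv (nat_lit 0xe000002000002000000000000) (nat_lit 0x5000011000001000000000002000002) (nat_lit 25) (nat_lit 1) (nat_lit 0x4494018000000314119))) (Tree.tip (nat_lit 1099) (Node.img (nat_lit 0x1c000004000004000004000000) (nat_lit 0x22000003000000000000000004) (nat_lit 304) (nat_lit 1) (nat_lit 133) (nat_lit 128))))) (Tree.br (nat_lit 1102) (Tree.br (nat_lit 1101) (Tree.tip (nat_lit 1100) (Node.mv (nat_lit 0x1c000004000004000000000000) (nat_lit 0x8000022000003000000000004000004) (nat_lit 26) (nat_lit 1) (nat_lit 0x44b401800000031411a))) (Tree.tip (nat_lit 1101) (Node.img (nat_lit 0xe000014000004000004000000) (nat_lit 0x1000008000000000000000004) (nat_lit 209) (nat_lit 3) (nat_lit 132) (nat_lit 132)))) (Tree.br (nat_lit 1103) (Tree.tip (nat_lit 1102) (Node.mv (nat_lit 0xc000014000004000004000000) (nat_lit 0x2000003000008000000000000000004) (nat_lit 97) (nat_lit 1) (nat_lit 0x44d40180000000e4119))) (Tree.tip (nat_lit 1103) (Node.mv (nat_lit 0xc000014000004000000000000)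 (nat_lit 0xa000003000008000000000004000004) (nat_lit 26) (nat_lit 1) (nat_lit 0x44e401800000031411a))))))) (Tree.br (nat_lit 1112) (Tree.br (nat_lit 1108) (Tree.br (nat_lit 1106) (Tree.br (nat_lit 1105) (Tree.tip (nat_lit 1104) (Node.img (nat_lit 0xe000002000002000002) (nat_lit 0x1000003000011000000000000000000) (nat_lit 277) (nat_lit 2) (nat_lit 128) (nat_lit 133))) (Tree.tip (nat_lit 1105) (Node.mv (nat_lit 0xe000002000002000000000000000000) (nat_lit 0x1000003000011000004000000000003000003000001) (nat_lit 49) (nat_lit 1) (nat_lit 0x45042180000001c4018)))) (Tree.br (nat_lit 1107) (Tree.tip (nat_lit 1106) (Node.mv (nat_lit 0xe000014000004000000) (nat_lit 0x18000001000008000000000004) (nat_lit 72) (nat_lit 1) (nat_lit 0x754018000000204218))) (Tree.tip (nat_lit 1107) (Node.mv (nat_lit 0x38000028000008000000) (nat_lit 0x37000006000010000000000008) (nat_lit 74) (nat_lit 2) (nat_lit 0x4524019000002f2421800000033401a))))) (Tree.br (nat_lit 1110) (Tree.br (nat_lit 1109) (Tree.tip (nat_lit 1108) (Node.mv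 (nat_lit 0x1c000014) (nat_lit 0x3800002300000b) (nat_lit 25) (nat_lit 1) (nat_lit 0x4174018000000b04018))) (Tree.tip (nat_lit 1109) (Node.img (nat_lit 0x3c000014) (nat_lit 0x7000043000008) (nat_lit 712) (nat_lit 4) (nat_lit 128) (nat_lit 128)))) (Tree.br (nat_lit 1111) (Tree.tip (nat_lit 1110) (Node.mv (nat_lit 0x1c000014) (nat_lit 0x700006300000a) (nat_lit 29) (nat_lit 1) (nat_lit 0x4554018000000674019))) (Tree.tip (nat_lit 1111) (Node.img (nat_lit 0x1e000004000004) (nat_lit 0x800000800003c000001000000000000) (nat_lit 317) (nat_lit 6) (nat_lit 133) (nat_lit 128)))))) (Tree.br (nat_lit 1116) (Tree.br (nat_lit 1114) (Tree.br (nat_lit 1113) (Tree.tip (nat_lit 1112) (Node.mv (nat_lit 0x1c000014000004) (nat_lit 0x800000800003c000003000020000000) (nat_lit 49) (nat_lit 1) (nat_lit 0x4574018000000284119))) (Tree.tip (nat_lit 1113) (Node.img (nat_lit 0xe000002000002000000) (nat_lit 0x5000007000010000000000000000002) (nat_lit 508) (nat_lit 6) (nat_lit 132) (nat_lit 128)))) (Tree.br (nat_lit 1115) (Tree.tip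 (nat_lit 1114) (Node.img (nat_lit 0x1c000014000004000000) (nat_lit 0x3000002000020000000000004) (nat_lit 275) (nat_lit 4) (nat_lit 128) (nat_lit 128))) (Tree.tip (nat_lit 1115) (Node.mv (nat_lit 0x1c000014000000000000) (nat_lit 0x800000a00003f000023000020000004000004) (nat_lit 26) (nat_lit 3) (nat_lit 0x45a40180000045841180000045940190000042d4019))))) (Tree.br (nat_lit 1118) (Tree.br (nat_lit 1117) (Tree.tip (nat_lit 1116) (Node.img (nat_lit 0x200000e000002) (nat_lit 0x1000010000001) (nat_lit 51) (nat_lit 6) (nat_lit 132) (nat_lit 128))) (Tree.tip (nat_lit 1117) (Node.mv (nat_lit 0xe00000a000002000000000000) (nat_lit 0xa000001000014000005000006000006) (nat_lit 74) (nat_lit 1) (nat_lit 0x1ff40190000045c4218)))) (Tree.br (nat_lit 1119) (Tree.tip (nat_lit 1118) (Node.img (nat_lit 0x2000003000001000001) (nat_lit 0x2000002000001000000000000000000) (nat_lit 25) (nat_lit 4) (nat_lit 128) (nat_lit 128))) (Tree.tip (nat_lit 1119) (Node.mv (nat_lit 0x1c000014000004) (nat_lit 0x800000800001c000003000028000000)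 (nat_lit 75) (nat_lit 2) (nat_lit 0x45e401a000002054118000000ff401a)))))))) (Tree.br (nat_lit 1136) (Tree.br (nat_lit 1128) (Tree.br (nat_lit 1124) (Tree.br (nat_lit 1122) (Tree.br (nat_lit 1121) (Tree.tip (nat_lit 1120) (Node.mv (nat_lit 0x38000008000000000000) (nat_lit 0x10000010000018000044000007000008000008) (nat_lit 27) (nat_lit 1) (nat_lit 0x71421800000421401b))) (Tree.tip (nat_lit 1121) (Node.mv (nat_lit 0x1c000014) (nat_lit 0x6300002a) (nat_lit 29) (nat_lit 1) (nat_lit 0x2444018000000674019)))) (Tree.br (nat_lit 1123) (Tree.tip (nat_lit 1122) (Node.mv (nat_lit 0x1c000010) (nat_lit 0x77000022000020) (nat_lit 25) (nat_lit 1) (nat_lit 0xd74118000000284019))) (Tree.tip (nat_lit 1123) (Node.img (nat_lit 0x8000028000008000000000000000000) (nat_lit 0x800000000005400000700000c000004000004) (nat_lit 637) (nat_lit 4) (nat_lit 128) (nat_lit 128))))) (Tree.br (nat_lit 1126) (Tree.br (nat_lit 1125) (Tree.tip (nat_lit 1124) (Node.img (nat_lit 0x1c000004000004000000) (nat_lit 0xa00000e00000f000000000002000002000002)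 (nat_lit 702) (nat_lit 6) (nat_lit 132) (nat_lit 128))) (Tree.tip (nat_lit 1125) (Node.mv (nat_lit 0x38000028000000000000000000000000) (nat_lit 0x1400001c00001e00000000005400000f00000c000004000004) (nat_lit 75) (nat_lit 3) (nat_lit 0x46442190000007e421b00000463401800000421421b)))) (Tree.br (nat_lit 1127) (Tree.tip (nat_lit 1126) (Node.mv (nat_lit 0xe00000a000003) (nat_lit 0x10000074000000) (nat_lit 28) (nat_lit 1) (nat_lit 0xfb4119000000c44018))) (Tree.tip (nat_lit 1127) (Node.mv (nat_lit 0xe000002000000000000) (nat_lit 0x4000004000076000030000071000002000002) (nat_lit 25) (nat_lit 1) (nat_lit 0x834218000004214019)))))) (Tree.br (nat_lit 1132) (Tree.br (nat_lit 1130) (Tree.br (nat_lit 1129) (Tree.tip (nat_lit 1128) (Node.mv (nat_lit 0xe000002000000000000) (nat_lit 0x4000004000074000030000075000002000002) (nat_lit 25) (nat_lit 1) (nat_lit 0x8342180000007e4019))) (Tree.tip (nat_lit 1129) (Node.img (nat_lit 0x200000200001a000002000000) (nat_lit 0x4000001000001) (nat_lit 587) (nat_lit 4) (nat_lit 128)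 (nat_lit 128)))) (Tree.br (nat_lit 1131) (Tree.tip (nat_lit 1130) (Node.mv (nat_lit 0xe00001a000002000000) (nat_lit 0x1000003000010000004000001000001) (nat_lit 97) (nat_lit 1) (nat_lit 0x39f4118000004694018))) (Tree.tip (nat_lit 1131) (Node.img (nat_lit 0x600001a000002) (nat_lit 0x24000001) (nat_lit 320) (nat_lit 1) (nat_lit 133) (nat_lit 128))))) (Tree.br (nat_lit 1134) (Tree.br (nat_lit 1133) (Tree.tip (nat_lit 1132) (Node.mv (nat_lit 0xe00000a000002000000) (nat_lit 0x1000003000010000074000001000001) (nat_lit 52) (nat_lit 2) (nat_lit 0x46a40180000046b4118000000fb4219))) (Tree.tip (nat_lit 1133) (Node.mv (nat_lit 0x7000005000001000000) (nat_lit 0x2000002000003000008000038000000000001) (nat_lit 51) (nat_lit 1) (nat_lit 0x4214018000000fb4218)))) (Tree.br (nat_lit 1135) (Tree.tip (nat_lit 1134) (Node.mv (nat_lit 0xe00000a000002000000) (nat_lit 0x4000004000010000074000001000002) (nat_lit 52) (nat_lit 1) (nat_lit 0x3c64018000000fb4219))) (Tree.tip (nat_lit 1135) (Node.mv (nat_lit 0xe00000a000000000000)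 (nat_lit 0x4000005000007000010000074000003000003) (nat_lit 25) (nat_lit 3) (nat_lit 0x46e40180000046d40190000046c4018000004374019))))))) (Tree.br (nat_lit 1144) (Tree.br (nat_lit 1140) (Tree.br (nat_lit 1138) (Tree.br (nat_lit 1137) (Tree.tip (nat_lit 1136) (Node.mv (nat_lit 0x400000e00000c000000000000) (nat_lit 0x4000002000070000003000002000002) (nat_lit 76) (nat_lit 2) (nat_lit 0x30d40180000030e4219000000234218))) (Tree.tip (nat_lit 1137) (Node.img (nat_lit 0x1e000004000000000000) (nat_lit 0x2000007000000000002000004000004) (nat_lit 325) (nat_lit 6) (nat_lit 132) (nat_lit 128)))) (Tree.br (nat_lit 1139) (Tree.tip (nat_lit 1138) (Node.img (nat_lit 0x1e00000c000000000000000000) (nat_lit 0x8000000000033000030000010000010) (nat_lit 794) (nat_lit 1) (nat_lit 133) (nat_lit 128))) (Tree.tip (nat_lit 1139) (Node.mv (nat_lit 0x1e000008000000000000000000) (nat_lit 0x200000200000f000000000037000034000014000010) (nat_lit 74) (nat_lit 2) (nat_lit 0x3834118000004724018000004714118))))) (Tree.br (nat_lit 1142)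 (Tree.br (nat_lit 1141) (Tree.tip (nat_lit 1140) (Node.mv (nat_lit 0x1e000008000000000000) (nat_lit 0x2000007000060000006000004000004) (nat_lit 50) (nat_lit 2) (nat_lit 0x2f64218000004714018000000f34219))) (Tree.tip (nat_lit 1141) (Node.mv (nat_lit 0xe000008000000000000) (nat_lit 0x2000007000071000036000004000004) (nat_lit 76) (nat_lit 1) (nat_lit 0x47440180000005f4218)))) (Tree.br (nat_lit 1143) (Tree.tip (nat_lit 1142) (Node.mv (nat_lit 0x10000018000014000010000000) (nat_lit 0x1000000000002000000b000008000008) (nat_lit 51) (nat_lit 1) (nat_lit 0x8942180000003a401b))) (Tree.tip (nat_lit 1143) (Node.img (nat_lit 0x600001e000008000000) (nat_lit 0x4000004000000000000000003000002) (nat_lit 664) (nat_lit 6) (nat_lit 132) (nat_lit 128)))))) (Tree.br (nat_lit 1148) (Tree.br (nat_lit 1146) (Tree.br (nat_lit 1145) (Tree.tip (nat_lit 1144) (Node.img (nat_lit 0x700000f000004) (nat_lit 0x8000018000018000000000000) (nat_lit 845) (nat_lit 3) (nat_lit 132) (nat_lit 132))) (Tree.tip (nat_lit 1145) (Node.mv (nat_lit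 0xa00001e000008000000) (nat_lit 0x14000034000034000000000003000002) (nat_lit 74) (nat_lit 1) (nat_lit 0x4784119000004774018)))) (Tree.br (nat_lit 1147) (Tree.tip (nat_lit 1146) (Node.mv (nat_lit 0x800001e000008000000) (nat_lit 0x14000034000037000000000003000002) (nat_lit 73) (nat_lit 1) (nat_lit 0x4794018000000244218))) (Tree.tip (nat_lit 1147) (Node.img (nat_lit 0x400003f) (nat_lit 0x18000040) (nat_lit 1030) (nat_lit 3) (nat_lit 134) (nat_lit 129))))) (Tree.br (nat_lit 1150) (Tree.br (nat_lit 1149) (Tree.tip (nat_lit 1148) (Node.mv (nat_lit 0x400001f000000) (nat_lit 0x18000060000070) (nat_lit 29) (nat_lit 1) (nat_lit 0x47b4118000000774019))) (Tree.tip (nat_lit 1149) (Node.mv (nat_lit 0x400000f000000) (nat_lit 0xf8000070000070) (nat_lit 28) (nat_lit 3) (nat_lit 0x47c4018000001a140190000007c4019000000794118)))) (Tree.br (nat_lit 1151) (Tree.tip (nat_lit 1150) (Node.img (nat_lit 0x1000003c000000) (nat_lit 0xc0000c3000007) (nat_lit 408) (nat_lit 6) (nat_lit 135) (nat_lit 128))) (Tree.tip (nat_lit 1151)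 (Node.img (nat_lit 0x400000f) (nat_lit 0x3b000030) (nat_lit 111) (nat_lit 3) (nat_lit 133) (nat_lit 129))))))))))
noncomputable def t0_9 : Tree := (Tree.br (nat_lit 1216) (Tree.br (nat_lit 1184) (Tree.br (nat_lit 1168) (Tree.br (nat_lit 1160) (Tree.br (nat_lit 1156) (Tree.br (nat_lit 1154) (Tree.br (nat_lit 1153) (Tree.tip (nat_lit 1152) (Node.mv (nat_lit 0x3c000000) (nat_lit 0xfc0000c3000007) (nat_lit 52) (nat_lit 2) (nat_lit 0x47f411a0000047e4018000000524119))) (Tree.tip (nat_lit 1153) (Node.img (nat_lit 0x2000006000007000000) (nat_lit 0x2000002000000000000000000000001) (nat_lit 43) (nat_lit 7) (nat_lit 130) (nat_lit 133)))) (Tree.br (nat_lit 1155) (Tree.tip (nat_lit 1154) (Node.mv (nat_lit 0x800001800000c000000000000) (nat_lit 0x8000008000000000000000013000034000010) (nat_lit 52) (nat_lit 2) (nat_lit 0x3c8401800000481411a000000b7401b))) (Tree.tip (nat_lit 1155) (Node.mv (nat_lit 0x2000002000006000003) (nat_lit 0x1000003000001000000000019000000) (nat_lit 27) (nat_lit 1) (nat_lit 0x1a64018000000184018)))))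 (Tree.br (nat_lit 1158) (Tree.br (nat_lit 1157) (Tree.tip (nat_lit 1156) (Node.mv (nat_lit 0x1c00002800000c) (nat_lit 0x2000010000013) (nat_lit 28) (nat_lit 1) (nat_lit 0xbb4018000000274119))) (Tree.tip (nat_lit 1157) (Node.mv (nat_lit 0x1000001800001c000010) (nat_lit 0x20000020000007000003000000) (nat_lit 49) (nat_lit 1) (nat_lit 0xc241180000028c4019)))) (Tree.br (nat_lit 1159) (Tree.tip (nat_lit 1158) (Node.img (nat_lit 0x400000000000f00000c) (nat_lit 0xc000008000018000000000000) (nat_lit 737) (nat_lit 7) (nat_lit 132) (nat_lit 132))) (Tree.tip (nat_lit 1159) (Node.mv (nat_lit 0x400000000000f000004) (nat_lit 0xc000008000018000000000018) (nat_lit 3) (nat_lit 1) (nat_lit 0x4864018000000284018)))))) (Tree.br (nat_lit 1164) (Tree.br (nat_lit 1162) (Tree.br (nat_lit 1161) (Tree.tip (nat_lit 1160) (Node.img (nat_lit 0x1e000008) (nat_lit 0x7000060000006) (nat_lit 250) (nat_lit 3) (nat_lit 134) (nat_lit 130))) (Tree.tip (nat_lit 1161) (Node.mv (nat_lit 0xe000008) (nat_lit 0x7000071000036) (nat_lit 28)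 (nat_lit 1) (nat_lit 0x48840180000005f4018)))) (Tree.br (nat_lit 1163) (Tree.tip (nat_lit 1162) (Node.mv (nat_lit 0x4000000000007000006000000) (nat_lit 0x400000000001800000a) (nat_lit 27) (nat_lit 1) (nat_lit 0x554019000000254118))) (Tree.tip (nat_lit 1163) (Node.img (nat_lit 0xa00001c) (nat_lit 0x31000003) (nat_lit 104) (nat_lit 2) (nat_lit 128) (nat_lit 129))))) (Tree.br (nat_lit 1166) (Tree.br (nat_lit 1165) (Tree.tip (nat_lit 1164) (Node.mv (nat_lit 0x800000800000a000018000000) (nat_lit 0x31000007000004) (nat_lit 26) (nat_lit 1) (nat_lit 0x48b411800000001401a))) (Tree.tip (nat_lit 1165) (Node.mv (nat_lit 0x4000000000007000004000000) (nat_lit 0x400000000000400000800003a00000a) (nat_lit 74) (nat_lit 1) (nat_lit 0x38a40180000003a4019)))) (Tree.br (nat_lit 1167) (Tree.tip (nat_lit 1166) (Node.mv (nat_lit 0x800000800000a000008000000) (nat_lit 0x31000017000014) (nat_lit 28) (nat_lit 1) (nat_lit 0x48c401800000039401b))) (Tree.tip (nat_lit 1167) (Node.mv (nat_lit 0x800000a000008000000) (nat_lit 0x1400001c00001c000000000031000017000014)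 (nat_lit 99) (nat_lit 1) (nat_lit 0x48e4018000000d3411a))))))) (Tree.br (nat_lit 1176) (Tree.br (nat_lit 1172) (Tree.br (nat_lit 1170) (Tree.br (nat_lit 1169) (Tree.tip (nat_lit 1168) (Node.mv (nat_lit 0xc00000c00000a) (nat_lit 0x2000072000005) (nat_lit 28) (nat_lit 1) (nat_lit 0x2641190000004c4018))) (Tree.tip (nat_lit 1169) (Node.mv (nat_lit 0x10000030000008000000000000) (nat_lit 0x1000001000000800004c000007000008000008) (nat_lit 75) (nat_lit 1) (nat_lit 0x7142180000040d401b)))) (Tree.br (nat_lit 1171) (Tree.tip (nat_lit 1170) (Node.img (nat_lit 0x1000001000003000000000000000000) (nat_lit 0x1000000000000000000000003000002000002) (nat_lit 26) (nat_lit 5) (nat_lit 128) (nat_lit 134))) (Tree.tip (nat_lit 1171) (Node.mv (nat_lit 0xa00000e000000000000000000) (nat_lit 0x2000002000034000011000006000004000004) (nat_lit 121) (nat_lit 1) (nat_lit 0x4924019000000174318))))) (Tree.br (nat_lit 1174) (Tree.br (nat_lit 1173) (Tree.tip (nat_lit 1172) (Node.mv (nat_lit 0x1000001000001c000010) (nat_lit 0x18000018000008000028000003000000)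 (nat_lit 51) (nat_lit 1) (nat_lit 0x19c401b000000894118))) (Tree.tip (nat_lit 1173) (Node.img (nat_lit 0x1c000014) (nat_lit 0x22000023) (nat_lit 202) (nat_lit 2) (nat_lit 128) (nat_lit 129)))) (Tree.br (nat_lit 1175) (Tree.tip (nat_lit 1174) (Node.mv (nat_lit 0x18000014000004000000) (nat_lit 0x800000800000c000026000023000000000004) (nat_lit 74) (nat_lit 1) (nat_lit 0x495421800000421401a))) (Tree.tip (nat_lit 1175) (Node.img (nat_lit 0xe00000a) (nat_lit 0x11000031) (nat_lit 202) (nat_lit 3) (nat_lit 133) (nat_lit 129)))))) (Tree.br (nat_lit 1180) (Tree.br (nat_lit 1178) (Tree.br (nat_lit 1177) (Tree.tip (nat_lit 1176) (Node.mv (nat_lit 0x800000a00000a000008) (nat_lit 0x10000030000015000031000000) (nat_lit 50) (nat_lit 2) (nat_lit 0x2e94018000004974118000002474018))) (Tree.tip (nat_lit 1177) (Node.img (nat_lit 0x10000016000002) (nat_lit 0x20000008000001) (nat_lit 233) (nat_lit 4) (nat_lit 128) (nat_lit 128)))) (Tree.br (nat_lit 1179) (Tree.tip (nat_lit 1178) (Node.mv (nat_lit 0x4000014000016000000)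 (nat_lit 0x4000000000020000008000003) (nat_lit 1) (nat_lit 1) (nat_lit 0x4994018000000444019))) (Tree.tip (nat_lit 1179) (Node.mv (nat_lit 0x800000800000a000018) (nat_lit 0x8000000000000000015000020) (nat_lit 28) (nat_lit 1) (nat_lit 0x2940180000000b401b))))) (Tree.br (nat_lit 1182) (Tree.br (nat_lit 1181) (Tree.tip (nat_lit 1180) (Node.img (nat_lit 0x2000003000003000002) (nat_lit 0x6000006000004000000000000000000) (nat_lit 146) (nat_lit 3) (nat_lit 130) (nat_lit 133))) (Tree.tip (nat_lit 1181) (Node.mv (nat_lit 0x10000018000014000010) (nat_lit 0x3000003000002000002000000b000000) (nat_lit 27) (nat_lit 1) (nat_lit 0x49c401b000000894118)))) (Tree.br (nat_lit 1183) (Tree.tip (nat_lit 1182) (Node.mv (nat_lit 0x800000c000008000008000000) (nat_lit 0x400001c000014000003000004000004000004) (nat_lit 73) (nat_lit 1) (nat_lit 0xea401a000002474118))) (Tree.tip (nat_lit 1183) (Node.mv (nat_lit 0xf00000c000000000000000000) (nat_lit 0xc00000c00001c000000000000000018000018000018) (nat_lit 123) (nat_lit 1) (nat_lit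 0x19e401a0000002a4418)))))))) (Tree.br (nat_lit 1200) (Tree.br (nat_lit 1192) (Tree.br (nat_lit 1188) (Tree.br (nat_lit 1186) (Tree.br (nat_lit 1185) (Tree.tip (nat_lit 1184) (Node.mv (nat_lit 0x200000e00000d) (nat_lit 0x1000010000002) (nat_lit 28) (nat_lit 1) (nat_lit 0x244118000000f14018))) (Tree.tip (nat_lit 1185) (Node.mv (nat_lit 0x20000038000000) (nat_lit 0x56000006000007) (nat_lit 26) (nat_lit 1) (nat_lit 0x33740180000002a411a)))) (Tree.br (nat_lit 1187) (Tree.tip (nat_lit 1186) (Node.mv (nat_lit 0x28000038000000000000000000) (nat_lit 0x8000017000006000007000004000004) (nat_lit 74) (nat_lit 2) (nat_lit 0x33e4019000000594318000000574218))) (Tree.tip (nat_lit 1187) (Node.mv (nat_lit 0x1400001e000000) (nat_lit 0x8000061000007) (nat_lit 29) (nat_lit 1) (nat_lit 0x41341180000006e4018))))) (Tree.br (nat_lit 1190) (Tree.br (nat_lit 1189) (Tree.tip (nat_lit 1188) (Node.mv (nat_lit 0xf000004000000000000000000) (nat_lit 0xc00000c00001c000000000018000018000018000018) (nat_lit 75) (nat_lit 1) (nat_lit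 0x49f4018000000284318))) (Tree.tip (nat_lit 1189) (Node.img (nat_lit 0x800000e000008) (nat_lit 0x10000001000010) (nat_lit 51) (nat_lit 4) (nat_lit 128) (nat_lit 128)))) (Tree.br (nat_lit 1191) (Tree.tip (nat_lit 1190) (Node.mv (nat_lit 0xa00000a00000a) (nat_lit 0x11000015000011) (nat_lit 26) (nat_lit 1) (nat_lit 0x4a540180000045c4018))) (Tree.tip (nat_lit 1191) (Node.img (nat_lit 0xf000006) (nat_lit 0x38000030000018) (nat_lit 795) (nat_lit 1) (nat_lit 133) (nat_lit 128)))))) (Tree.br (nat_lit 1196) (Tree.br (nat_lit 1194) (Tree.br (nat_lit 1193) (Tree.tip (nat_lit 1192) (Node.mv (nat_lit 0xe00000c000000000000000000) (nat_lit 0x78000070000033000030000010000010) (nat_lit 100) (nat_lit 2) (nat_lit 0x4724018000004a74319000000234318))) (Tree.tip (nat_lit 1193) (Node.mv (nat_lit 0x800001c000038000000000000) (nat_lit 0x20000007000006000004) (nat_lit 50) (nat_lit 1) (nat_lit 0x34c4019000000894218)))) (Tree.br (nat_lit 1195) (Tree.tip (nat_lit 1194) (Node.mv (nat_lit 0x1400001c000000) (nat_lit 0x28000063000007)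 (nat_lit 25) (nat_lit 1) (nat_lit 0x4a340180000002a4119))) (Tree.tip (nat_lit 1195) (Node.mv (nat_lit 0x1000003c) (nat_lit 0x2e000043) (nat_lit 27) (nat_lit 1) (nat_lit 0xc74019000000894018))))) (Tree.br (nat_lit 1198) (Tree.br (nat_lit 1197) (Tree.tip (nat_lit 1196) (Node.mv (nat_lit 0xa00000a000002000000) (nat_lit 0x4000004000006000015000031000000000002) (nat_lit 74) (nat_lit 1) (nat_lit 0x4974218000004214019))) (Tree.tip (nat_lit 1197) (Node.img (nat_lit 0x1c000014000010) (nat_lit 0x2000000b000020) (nat_lit 546) (nat_lit 6) (nat_lit 133) (nat_lit 128)))) (Tree.br (nat_lit 1199) (Tree.tip (nat_lit 1198) (Node.mv (nat_lit 0x14000014000014000000) (nat_lit 0x800000800000c00002800000b000020000004) (nat_lit 75) (nat_lit 2) (nat_lit 0x421401a000004ad411800000437401a))) (Tree.tip (nat_lit 1199) (Node.img (nat_lit 0x3800000c000018) (nat_lit 0x4000003000000) (nat_lit 425) (nat_lit 1) (nat_lit 133) (nat_lit 128))))))) (Tree.br (nat_lit 1208) (Tree.br (nat_lit 1204) (Tree.br (nat_lit 1202) (Tree.br (nat_lit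 1201) (Tree.tip (nat_lit 1200) (Node.mv (nat_lit 0x8000038000008000018000000) (nat_lit 0x8000000000004000007000004000004) (nat_lit 50) (nat_lit 1) (nat_lit 0x4af41180000003a401a))) (Tree.tip (nat_lit 1201) (Node.img (nat_lit 0x1000001000002000002000000000000) (nat_lit 0x1000000000000000001000001000002000002) (nat_lit 392) (nat_lit 6) (nat_lit 129) (nat_lit 128)))) (Tree.br (nat_lit 1203) (Tree.tip (nat_lit 1202) (Node.mv (nat_lit 0x4000007000001000002000000000000000000) (nat_lit 0x1000000000002000001000003000002000002) (nat_lit 49) (nat_lit 1) (nat_lit 0x4b14018000003114219))) (Tree.tip (nat_lit 1203) (Node.mv (nat_lit 0xa000038) (nat_lit 0x5000004) (nat_lit 26) (nat_lit 1) (nat_lit 0x2740180000036a4019))))) (Tree.br (nat_lit 1206) (Tree.br (nat_lit 1205) (Tree.tip (nat_lit 1204) (Node.mv (nat_lit 0x6000006000001000003000000) (nat_lit 0x2000000000000000002000000000002) (nat_lit 49) (nat_lit 1) (nat_lit 0x444118000000414019))) (Tree.tip (nat_lit 1205) (Node.mv (nat_lit 0x4000006000001000003000001000000)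 (nat_lit 0x2000000000002000001) (nat_lit 73) (nat_lit 1) (nat_lit 0x414119000000414018)))) (Tree.br (nat_lit 1207) (Tree.tip (nat_lit 1206) (Node.mv (nat_lit 0x800000e000000000010000000) (nat_lit 0x30000011000030000000000010) (nat_lit 76) (nat_lit 1) (nat_lit 0x1804019000000524318))) (Tree.tip (nat_lit 1207) (Node.img (nat_lit 0xe000006000000000000) (nat_lit 0x2000003000030000000000004000004) (nat_lit 79) (nat_lit 7) (nat_lit 133) (nat_lit 133)))))) (Tree.br (nat_lit 1212) (Tree.br (nat_lit 1210) (Tree.br (nat_lit 1209) (Tree.tip (nat_lit 1208) (Node.mv (nat_lit 0xe000006000000000000) (nat_lit 0x6000007000030000000000006000006) (nat_lit 98) (nat_lit 1) (nat_lit 0x4b74018000000374019))) (Tree.tip (nat_lit 1209) (Node.mv (nat_lit 0x1400001e000000000000000000) (nat_lit 0x8000008000061000006000004000004) (nat_lit 99) (nat_lit 1) (nat_lit 0x484019000000164318)))) (Tree.br (nat_lit 1211) (Tree.tip (nat_lit 1210) (Node.img (nat_lit 0x1000001000003000002000000000000) (nat_lit 0x2000000000000000002000002)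 (nat_lit 12) (nat_lit 3) (nat_lit 129) (nat_lit 133))) (Tree.tip (nat_lit 1211) (Node.mv (nat_lit 0x1000003000000000006000004000000000000) (nat_lit 0x6000000000002000004000004) (nat_lit 97) (nat_lit 1) (nat_lit 0x4ba4019000000084218))))) (Tree.br (nat_lit 1214) (Tree.br (nat_lit 1213) (Tree.tip (nat_lit 1212) (Node.mv (nat_lit 0x1000003000000000006000004) (nat_lit 0x2000000000002000000000002) (nat_lit 49) (nat_lit 1) (nat_lit 0xb4019000000084018))) (Tree.tip (nat_lit 1213) (Node.mv (nat_lit 0xa000018000008000010000000) (nat_lit 0x4000005000000000000000008000010) (nat_lit 27) (nat_lit 1) (nat_lit 0x117411800000039401b)))) (Tree.br (nat_lit 1215) (Tree.tip (nat_lit 1214) (Node.img (nat_lit 0x2000002000002000006000000) (nat_lit 0x2000000000000000005000001000001) (nat_lit 60) (nat_lit 1) (nat_lit 130) (nat_lit 128))) (Tree.tip (nat_lit 1215) (Node.mv (nat_lit 0xa000018000008000010000000) (nat_lit 0xc00000500000000001400000c000004) (nat_lit 27) (nat_lit 1) (nat_lit 0x4be401a000001174118))))))))) (Tree.br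 (nat_lit 1248) (Tree.br (nat_lit 1232) (Tree.br (nat_lit 1224) (Tree.br (nat_lit 1220) (Tree.br (nat_lit 1218) (Tree.br (nat_lit 1217) (Tree.tip (nat_lit 1216) (Node.img (nat_lit 0x1000003000001000002000000) (nat_lit 0x2000001000002) (nat_lit 76) (nat_lit 6) (nat_lit 129) (nat_lit 128))) (Tree.tip (nat_lit 1217) (Node.img (nat_lit 0x1000003000001000002000000) (nat_lit 0x1000000000000000002000000000002) (nat_lit 81) (nat_lit 4) (nat_lit 128) (nat_lit 128)))) (Tree.br (nat_lit 1219) (Tree.tip (nat_lit 1218) (Node.mv (nat_lit 0xa000018000008000000000000) (nat_lit 0xc00000500000000001400001c000014) (nat_lit 28) (nat_lit 3) (nat_lit 0x4bf4018000004bd4018000004c1401b000004c0401b))) (Tree.tip (nat_lit 1219) (Node.img (nat_lit 0x1000003000001000001000000000000000000) (nat_lit 0x1000001000000000000000002000002000003000003000002) (nat_lit 698) (nat_lit 2) (nat_lit 128) (nat_lit 136))))) (Tree.br (nat_lit 1222) (Tree.br (nat_lit 1221) (Tree.tip (nat_lit 1220) (Node.img (nat_lit 0x2000006000002000002000000000000000000)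 (nat_lit 0x4000001000007000007000004) (nat_lit 417) (nat_lit 5) (nat_lit 128) (nat_lit 134))) (Tree.tip (nat_lit 1221) (Node.img (nat_lit 0x2000006000002000002000000000000) (nat_lit 0x2000002000000000000000004000005000003000003) (nat_lit 408) (nat_lit 2) (nat_lit 128) (nat_lit 135)))) (Tree.br (nat_lit 1223) (Tree.tip (nat_lit 1222) (Node.mv (nat_lit 0x2000006000002000000000000000000000000) (nat_lit 0x2000002000000000000000005000007000007000007000004) (nat_lit 73) (nat_lit 4) (nat_lit 0x4c54118000004c44018000004c34019000000064218000000054118))) (Tree.tip (nat_lit 1223) (Node.mv (nat_lit 0x700000c000004000000) (nat_lit 0xe00001e000000000000000008000008) (nat_lit 98) (nat_lit 1) (nat_lit 0x35941180000008d401a)))))) (Tree.br (nat_lit 1228) (Tree.br (nat_lit 1226) (Tree.br (nat_lit 1225) (Tree.tip (nat_lit 1224) (Node.mv (nat_lit 0xa000018000008000000) (nat_lit 0x1c00003c000005000000000010000010) (nat_lit 74) (nat_lit 1) (nat_lit 0x4c74019000000274218))) (Tree.tip (nat_lit 1225) (Node.mv (nat_lit 0x9000007000000)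 (nat_lit 0x12000018000038) (nat_lit 27) (nat_lit 1) (nat_lit 0x15140180000002a4118)))) (Tree.br (nat_lit 1227) (Tree.tip (nat_lit 1226) (Node.img (nat_lit 0x7000003000000000002000000) (nat_lit 0x4000000000000000002000000000002) (nat_lit 73) (nat_lit 1) (nat_lit 130) (nat_lit 128))) (Tree.tip (nat_lit 1227) (Node.mv (nat_lit 0x600000f000000000004000000) (nat_lit 0x8000018000000000004000000000004) (nat_lit 99) (nat_lit 1) (nat_lit 0x4ca40190000002a4318))))) (Tree.br (nat_lit 1230) (Tree.br (nat_lit 1229) (Tree.tip (nat_lit 1228) (Node.mv (nat_lit 0x38000018) (nat_lit 0xef0000c7000000) (nat_lit 26) (nat_lit 2) (nat_lit 0x2cb401a000000ec4018000002f64019))) (Tree.tip (nat_lit 1229) (Node.mv (nat_lit 0x1800001800000c000000000000) (nat_lit 0x8000020000007000000000004000004) (nat_lit 74) (nat_lit 1) (nat_lit 0x89431800000037401a)))) (Tree.br (nat_lit 1231) (Tree.tip (nat_lit 1230) (Node.mv (nat_lit 0x1000001000002000003000001) (nat_lit 0x2000002000000000000000002) (nat_lit 73) (nat_lit 1) (nat_lit 0x84018000000444018)))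 (Tree.tip (nat_lit 1231) (Node.mv (nat_lit 0x400001e000004000004000000) (nat_lit 0x4000000000000000003000002000002) (nat_lit 49) (nat_lit 1) (nat_lit 0x3a4019000000674218))))))) (Tree.br (nat_lit 1240) (Tree.br (nat_lit 1236) (Tree.br (nat_lit 1234) (Tree.br (nat_lit 1233) (Tree.tip (nat_lit 1232) (Node.mv (nat_lit 0x1000000e000008000018000000) (nat_lit 0x8000001000000000000000010) (nat_lit 99) (nat_lit 1) (nat_lit 0x16431800000039401b))) (Tree.tip (nat_lit 1233) (Node.mv (nat_lit 0x18000018000008000000000000) (nat_lit 0x80000070000e7000006000004000004) (nat_lit 77) (nat_lit 3) (nat_lit 0x37c401800000047421a00000026431a0000045c421a)))) (Tree.br (nat_lit 1235) (Tree.tip (nat_lit 1234) (Node.img (nat_lit 0x1e000008000008) (nat_lit 0x400000400000f000020000000000000) (nat_lit 317) (nat_lit 4) (nat_lit 128) (nat_lit 128))) (Tree.tip (nat_lit 1235) (Node.mv (nat_lit 0x1c000018000008) (nat_lit 0x400000400000f000023000000000000) (nat_lit 49) (nat_lit 1) (nat_lit 0x4d24018000000274118))))) (Tree.br (nat_lit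 1238) (Tree.br (nat_lit 1237) (Tree.tip (nat_lit 1236) (Node.mv (nat_lit 0x800000c00000400000c000000) (nat_lit 0x2000007000030000000000000000008) (nat_lit 98) (nat_lit 1) (nat_lit 0x63411800000039401a))) (Tree.tip (nat_lit 1237) (Node.mv (nat_lit 0x800001c00000400000c000000) (nat_lit 0x2000007000000000000000000000008) (nat_lit 98) (nat_lit 1) (nat_lit 0x297411800000039401a)))) (Tree.br (nat_lit 1239) (Tree.tip (nat_lit 1238) (Node.mv (nat_lit 0x1c00000c000004) (nat_lit 0x2000003000003000033000000) (nat_lit 49) (nat_lit 1) (nat_lit 0x2d140180000004d4118))) (Tree.tip (nat_lit 1239) (Node.mv (nat_lit 0x4000006000018000008000000) (nat_lit 0x9000000000000000008) (nat_lit 75) (nat_lit 1) (nat_lit 0x27421800000008401a)))))) (Tree.br (nat_lit 1244) (Tree.br (nat_lit 1242) (Tree.br (nat_lit 1241) (Tree.tip (nat_lit 1240) (Node.mv (nat_lit 0x1000001800000000000f000000) (nat_lit 0x8000000000018) (nat_lit 3) (nat_lit 1) (nat_lit 0x311401b000000284018))) (Tree.tip (nat_lit 1241) (Node.mv (nat_lit 0x2000003000000000003c000000)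 (nat_lit 0x10000002000037) (nat_lit 25) (nat_lit 1) (nat_lit 0x4d840190000006e4018)))) (Tree.br (nat_lit 1243) (Tree.tip (nat_lit 1242) (Node.mv (nat_lit 0x400000600000100000e000000) (nat_lit 0x2000010000002) (nat_lit 49) (nat_lit 1) (nat_lit 0x254118000000414019))) (Tree.tip (nat_lit 1243) (Node.mv (nat_lit 0x3000001000002000006000000) (nat_lit 0x2000000000000000006) (nat_lit 73) (nat_lit 1) (nat_lit 0x394019000000084018))))) (Tree.br (nat_lit 1246) (Tree.br (nat_lit 1245) (Tree.tip (nat_lit 1244) (Node.mv (nat_lit 0x1000001000006000006000000000000000000) (nat_lit 0x6000000000000000002000002000002) (nat_lit 49) (nat_lit 1) (nat_lit 0x464019000002fd4218))) (Tree.tip (nat_lit 1245) (Node.mv (nat_lit 0x100000100000200001e000000) (nat_lit 0x2000000000000000003) (nat_lit 1) (nat_lit 1) (nat_lit 0x2fd4018000000674018)))) (Tree.br (nat_lit 1247) (Tree.tip (nat_lit 1246) (Node.mv (nat_lit 0x1800001c000008) (nat_lit 0x63000076) (nat_lit 29) (nat_lit 1) (nat_lit 0x43e4018000000b04019))) (Tree.tip (nat_lit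 1247) (Node.mv (nat_lit 0x600000e000004) (nat_lit 0x2000003000038000031000000) (nat_lit 73) (nat_lit 1) (nat_lit 0x2a441180000000b4019)))))))) (Tree.br (nat_lit 1264) (Tree.br (nat_lit 1256) (Tree.br (nat_lit 1252) (Tree.br (nat_lit 1250) (Tree.br (nat_lit 1249) (Tree.tip (nat_lit 1248) (Node.img (nat_lit 0x2000003000003000002000000000000) (nat_lit 0x1000003000003) (nat_lit 158) (nat_lit 1) (nat_lit 129) (nat_lit 128))) (Tree.tip (nat_lit 1249) (Node.mv (nat_lit 0x3000007000002000000000000) (nat_lit 0x2000002000000000000000005000007000003) (nat_lit 121) (nat_lit 2) (nat_lit 0x4e040180000008d41190000003a4118)))) (Tree.br (nat_lit 1251) (Tree.tip (nat_lit 1250) (Node.mv (nat_lit 0x10000018000018000000) (nat_lit 0x10000000000026000067000060) (nat_lit 26) (nat_lit 1) (nat_lit 0xc94019000000894118))) (Tree.tip (nat_lit 1251) (Node.mv (nat_lit 0x7000002000002000000000000000000) (nat_lit 0x4000000000001000000000003000003000001) (nat_lit 49) (nat_lit 1) (nat_lit 0x344018000000314219))))) (Tree.br (nat_lit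 1254) (Tree.br (nat_lit 1253) (Tree.tip (nat_lit 1252) (Node.mv (nat_lit 0x400000600000000000e000001) (nat_lit 0x2000010000002) (nat_lit 1) (nat_lit 1) (nat_lit 0x3114019000000184018))) (Tree.tip (nat_lit 1253) (Node.mv (nat_lit 0x1c00000100000e) (nat_lit 0x2000002000010) (nat_lit 25) (nat_lit 1) (nat_lit 0x144118000000254018)))) (Tree.br (nat_lit 1255) (Tree.tip (nat_lit 1254) (Node.mv (nat_lit 0xe00000100000e) (nat_lit 0x10000002000010) (nat_lit 25) (nat_lit 1) (nat_lit 0x184118000000254018))) (Tree.tip (nat_lit 1255) (Node.mv (nat_lit 0x1c00000100001c) (nat_lit 0x2000002000002) (nat_lit 25) (nat_lit 1) (nat_lit 0x1441180000036a4018)))))) (Tree.br (nat_lit 1260) (Tree.br (nat_lit 1258) (Tree.br (nat_lit 1257) (Tree.tip (nat_lit 1256) (Node.img (nat_lit 0xe00000800000e) (nat_lit 0x1000010000001) (nat_lit 728) (nat_lit 4) (nat_lit 128) (nat_lit 128))) (Tree.tip (nat_lit 1257) (Node.mv (nat_lit 0x400000e00000000000e000000) (nat_lit 0x1000018000001000008) (nat_lit 51) (nat_lit 1) (nat_lit 0x4e8411800000008401a))))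 (Tree.br (nat_lit 1259) (Tree.tip (nat_lit 1258) (Node.img (nat_lit 0x7000008000007) (nat_lit 0x8000010000008) (nat_lit 875) (nat_lit 1) (nat_lit 132) (nat_lit 128))) (Tree.tip (nat_lit 1259) (Node.mv (nat_lit 0x400000e00000000000e000000) (nat_lit 0x11000038000010000008) (nat_lit 52) (nat_lit 1) (nat_lit 0x4ea41190000019a4018))))) (Tree.br (nat_lit 1262) (Tree.br (nat_lit 1261) (Tree.tip (nat_lit 1260) (Node.mv (nat_lit 0x400000600000000001c000002) (nat_lit 0x2000002000001) (nat_lit 25) (nat_lit 1) (nat_lit 0x3114019000000674018))) (Tree.tip (nat_lit 1261) (Node.img (nat_lit 0x400000400000f000000000000000000) (nat_lit 0x1c000008000008) (nat_lit 136) (nat_lit 3) (nat_lit 132) (nat_lit 133)))) (Tree.br (nat_lit 1263) (Tree.tip (nat_lit 1262) (Node.mv (nat_lit 0x600000f000000000000000000) (nat_lit 0x400000400000000000000001e00000a000008) (nat_lit 122) (nat_lit 1) (nat_lit 0x4ed4018000000374119))) (Tree.tip (nat_lit 1263) (Node.img (nat_lit 0x400000c000003000002000000) (nat_lit 0x12000000000000000002)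 (nat_lit 1239) (nat_lit 1) (nat_lit 132) (nat_lit 128))))))) (Tree.br (nat_lit 1272) (Tree.br (nat_lit 1268) (Tree.br (nat_lit 1266) (Tree.br (nat_lit 1265) (Tree.tip (nat_lit 1264) (Node.mv (nat_lit 0x400000c00000100000e000000) (nat_lit 0x12000002000010000002) (nat_lit 49) (nat_lit 1) (nat_lit 0x4ef4018000000254118))) (Tree.tip (nat_lit 1265) (Node.mv (nat_lit 0xc00000c000004000004000000) (nat_lit 0x14000030000003000008000008000008) (nat_lit 27) (nat_lit 1) (nat_lit 0x11d411800000039401a)))) (Tree.br (nat_lit 1267) (Tree.tip (nat_lit 1266) (Node.img (nat_lit 0x8000018000038000000) (nat_lit 0x8000000000020000007000006) (nat_lit 674) (nat_lit 4) (nat_lit 128) (nat_lit 128))) (Tree.tip (nat_lit 1267) (Node.mv (nat_lit 0x18000018000018000000) (nat_lit 0x10000018000000000020000027000026) (nat_lit 29) (nat_lit 1) (nat_lit 0x4f2401800000398401b))))) (Tree.br (nat_lit 1270) (Tree.br (nat_lit 1269) (Tree.tip (nat_lit 1268) (Node.mv (nat_lit 0x800001800000c000000000000) (nat_lit 0x8000000000024000003000004000004)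 (nat_lit 74) (nat_lit 1) (nat_lit 0x23421800000037401a))) (Tree.tip (nat_lit 1269) (Node.img (nat_lit 0x10000018000018000000) (nat_lit 0x10000010000020000007000060000020) (nat_lit 633) (nat_lit 2) (nat_lit 128) (nat_lit 133)))) (Tree.br (nat_lit 1271) (Tree.tip (nat_lit 1270) (Node.mv (nat_lit 0x18000018000008000000000000) (nat_lit 0x10000018000020000007000070000030000010) (nat_lit 52) (nat_lit 1) (nat_lit 0x4f54118000000b7401b))) (Tree.tip (nat_lit 1271) (Node.mv (nat_lit 0x2000003000003000002000000) (nat_lit 0x2000003000001000000000004000004000004) (nat_lit 96) (nat_lit 1) (nat_lit 0x26640180000000b4118)))))) (Tree.br (nat_lit 1276) (Tree.br (nat_lit 1274) (Tree.br (nat_lit 1273) (Tree.tip (nat_lit 1272) (Node.mv (nat_lit 0x800000800001000001c000000) (nat_lit 0x28000003000004) (nat_lit 51) (nat_lit 1) (nat_lit 0x89411800000001401a))) (Tree.tip (nat_lit 1273) (Node.mv (nat_lit 0x1000001000002000007000000) (nat_lit 0x2000002000000000000000007) (nat_lit 73) (nat_lit 1) (nat_lit 0x1c34018000000084018))))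 (Tree.br (nat_lit 1275) (Tree.tip (nat_lit 1274) (Node.img (nat_lit 0x400000400003c000000) (nat_lit 0x4000000000000000002000073) (nat_lit 213) (nat_lit 1) (nat_lit 134) (nat_lit 128))) (Tree.tip (nat_lit 1275) (Node.mv (nat_lit 0x400000c00002c000000) (nat_lit 0x4000000000000000052000073) (nat_lit 28) (nat_lit 1) (nat_lit 0x4fa401800000025411a))))) (Tree.br (nat_lit 1278) (Tree.br (nat_lit 1277) (Tree.tip (nat_lit 1276) (Node.img (nat_lit 0x8000018000018000000) (nat_lit 0x8000008000000000020000007000004) (nat_lit 72) (nat_lit 4) (nat_lit 128) (nat_lit 128))) (Tree.tip (nat_lit 1277) (Node.mv (nat_lit 0x8000018000018000000) (nat_lit 0x80000080000000000e00000e70000e6) (nat_lit 30) (nat_lit 2) (nat_lit 0x4fb4019000004fc401800000127411b)))) (Tree.br (nat_lit 1279) (Tree.tip (nat_lit 1278) (Node.img (nat_lit 0x8000008000018000008000000) (nat_lit 0x14000034000007000000000000000008) (nat_lit 894) (nat_lit 4) (nat_lit 128) (nat_lit 128))) (Tree.tip (nat_lit 1279) (Node.mv (nat_lit 0x8000018000018000000)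 (nat_lit 0x1c00003c000007000000000000000008) (nat_lit 99) (nat_lit 1) (nat_lit 0x4fe40180000000b411b))))))))))
noncomputable def t0_10 : Tree := (Tree.br (nat_lit 1344) (Tree.br (nat_lit 1312) (Tree.br (nat_lit 1296) (Tree.br (nat_lit 1288) (Tree.br (nat_lit 1284) (Tree.br (nat_lit 1282) (Tree.br (nat_lit 1281) (Tree.tip (nat_lit 1280) (Node.img (nat_lit 0x400000c00000e000000000000000000) (nat_lit 0x70000077000002000002) (nat_lit 840) (nat_lit 4) (nat_lit 128) (nat_lit 128))) (Tree.tip (nat_lit 1281) (Node.mv (nat_lit 0x400001c00000c000000000000000000) (nat_lit 0x73000077000002000002) (nat_lit 73) (nat_lit 1) (nat_lit 0x5004018000000164318)))) (Tree.br (nat_lit 1283) (Tree.tip (nat_lit 1282) (Node.mv (nat_lit 0x400000c00000c000000000000000000) (nat_lit 0x2000070000073000077000002000002) (nat_lit 100) (nat_lit 2) (nat_lit 0x50140180000030e4319000000234318))) (Tree.tip (nat_lit 1283) (Node.mv (nat_lit 0x18000018000000000000000000) (nat_lit 0x1c00003c00000f0000e00000e70000ee000004000004) (nat_lit 123)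 (nat_lit 2) (nat_lit 0x5024019000004fd4218000004ff4218))))) (Tree.br (nat_lit 1286) (Tree.br (nat_lit 1285) (Tree.tip (nat_lit 1284) (Node.img (nat_lit 0x400000f000000000000000000) (nat_lit 0x400000400000000000000001c000008000008) (nat_lit 180) (nat_lit 7) (nat_lit 132) (nat_lit 134))) (Tree.tip (nat_lit 1285) (Node.mv (nat_lit 0x7000007000000000000000000) (nat_lit 0x400000400000000001800001c000008000008) (nat_lit 75) (nat_lit 1) (nat_lit 0x5044018000000254318)))) (Tree.br (nat_lit 1287) (Tree.tip (nat_lit 1286) (Node.mv (nat_lit 0x1400001e000000000000) (nat_lit 0x8000008000008000001000034000014) (nat_lit 75) (nat_lit 1) (nat_lit 0x2ca4019000000164218))) (Tree.tip (nat_lit 1287) (Node.mv (nat_lit 0x400001e000000000000) (nat_lit 0x8000008000038000001000034000014) (nat_lit 76) (nat_lit 1) (nat_lit 0x50640180000002a4219)))))) (Tree.br (nat_lit 1292) (Tree.br (nat_lit 1290) (Tree.br (nat_lit 1289) (Tree.tip (nat_lit 1288) (Node.mv (nat_lit 0x18000010000018000000000000) (nat_lit 0x800001800000000002800000700000c000008)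 (nat_lit 75) (nat_lit 1) (nat_lit 0x4fc411800000037401b))) (Tree.tip (nat_lit 1289) (Node.img (nat_lit 0x3000002000002000002000000000000) (nat_lit 0x4000004000001000000000001000003000001) (nat_lit 619) (nat_lit 4) (nat_lit 128) (nat_lit 128)))) (Tree.br (nat_lit 1291) (Tree.tip (nat_lit 1290) (Node.mv (nat_lit 0x3000002000002000000000000000000) (nat_lit 0x5000004000001000000000003000003000001) (nat_lit 49) (nat_lit 1) (nat_lit 0x50940180000000e4218))) (Tree.tip (nat_lit 1291) (Node.img (nat_lit 0x3000002000002000002000000) (nat_lit 0x2000000000001000005000005000007) (nat_lit 101) (nat_lit 1) (nat_lit 130) (nat_lit 128))))) (Tree.br (nat_lit 1294) (Tree.br (nat_lit 1293) (Tree.tip (nat_lit 1292) (Node.mv (nat_lit 0x3000002000002000000000000000000) (nat_lit 0x4000006000004000001000005000007000007000001) (nat_lit 49) (nat_lit 2) (nat_lit 0x50b41180000050940180000009c4119))) (Tree.tip (nat_lit 1293) (Node.mv (nat_lit 0x2000002000002000003000000) (nat_lit 0x3000001000000000005000004000004) (nat_lit 96)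 (nat_lit 1) (nat_lit 0x3c40180000000e4118)))) (Tree.br (nat_lit 1295) (Tree.tip (nat_lit 1294) (Node.mv (nat_lit 0x2000002000003000000) (nat_lit 0x3000003000000000005000004000005) (nat_lit 97) (nat_lit 1) (nat_lit 0x50d4018000000014018))) (Tree.tip (nat_lit 1295) (Node.img (nat_lit 0x800000800000e000000000000) (nat_lit 0x8000000000000000011000038000010) (nat_lit 491) (nat_lit 3) (nat_lit 133) (nat_lit 133))))))) (Tree.br (nat_lit 1304) (Tree.br (nat_lit 1300) (Tree.br (nat_lit 1298) (Tree.br (nat_lit 1297) (Tree.tip (nat_lit 1296) (Node.img (nat_lit 0xc00000800000e000000) (nat_lit 0x400000400000c000000000004000010000033) (nat_lit 1132) (nat_lit 4) (nat_lit 128) (nat_lit 128))) (Tree.tip (nat_lit 1297) (Node.mv (nat_lit 0xc00000800000c000000000000) (nat_lit 0x400000400000c00000000000400001300003b000010) (nat_lit 49) (nat_lit 3) (nat_lit 0x51041180000050f4018000002224119000001134018)))) (Tree.br (nat_lit 1299) (Tree.tip (nat_lit 1298) (Node.img (nat_lit 0x3000002000002000000) (nat_lit 0x1000001000003000000000000000000000002)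 (nat_lit 26) (nat_lit 6) (nat_lit 129) (nat_lit 128))) (Tree.tip (nat_lit 1299) (Node.img (nat_lit 0xc00000800000e000000) (nat_lit 0x4000000000070000011000008) (nat_lit 1074) (nat_lit 4) (nat_lit 128) (nat_lit 128))))) (Tree.br (nat_lit 1302) (Tree.br (nat_lit 1301) (Tree.tip (nat_lit 1300) (Node.img (nat_lit 0xc00000800000e) (nat_lit 0x400000400000c000000000070000011) (nat_lit 1133) (nat_lit 4) (nat_lit 128) (nat_lit 128))) (Tree.tip (nat_lit 1301) (Node.mv (nat_lit 0xc00000800000c000000000000) (nat_lit 0x400000400000c000000000070000013000038000010) (nat_lit 49) (nat_lit 3) (nat_lit 0x51442180000051341180000050f401800000512411a)))) (Tree.br (nat_lit 1303) (Tree.tip (nat_lit 1302) (Node.mv (nat_lit 0x2000002000001000003000000) (nat_lit 0x1000002000000000001) (nat_lit 0) (nat_lit 1) (nat_lit 0x17e40180000024a4018))) (Tree.tip (nat_lit 1303) (Node.mv (nat_lit 0xb000002000002000000) (nat_lit 0x3d000014000038000000000002) (nat_lit 74) (nat_lit 1) (nat_lit 0x7c4218000000334018)))))) (Tree.br (nat_lit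 1308) (Tree.br (nat_lit 1306) (Tree.br (nat_lit 1305) (Tree.tip (nat_lit 1304) (Node.img (nat_lit 0x6000002000002000002000000) (nat_lit 0x2000003000003000001000004000004000000000002) (nat_lit 520) (nat_lit 1) (nat_lit 130) (nat_lit 128))) (Tree.tip (nat_lit 1305) (Node.mv (nat_lit 0x2000002000002000002000000) (nat_lit 0x2000003000007000005000004000004000000000002) (nat_lit 98) (nat_lit 1) (nat_lit 0x5184018000000314119)))) (Tree.br (nat_lit 1307) (Tree.tip (nat_lit 1306) (Node.mv (nat_lit 0x3000006000002000000000000000000) (nat_lit 0x4000006000004000001000001000003000003000001) (nat_lit 49) (nat_lit 2) (nat_lit 0x344018000001724118000000324118))) (Tree.tip (nat_lit 1307) (Node.mv (nat_lit 0x4000005000001000007000000) (nat_lit 0x1000000000004000000000002) (nat_lit 1) (nat_lit 1) (nat_lit 0x24a40190000000b4018))))) (Tree.br (nat_lit 1310) (Tree.br (nat_lit 1309) (Tree.tip (nat_lit 1308) (Node.mv (nat_lit 0x1800000c000008000000000000) (nat_lit 0x10000020000013000000000008000008) (nat_lit 76) (nat_lit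 1) (nat_lit 0x89431800000046401b))) (Tree.tip (nat_lit 1309) (Node.mv (nat_lit 0x8000008000008000004000000) (nat_lit 0x800000000000000003000001b000014) (nat_lit 27) (nat_lit 1) (nat_lit 0xcd401800000001401a)))) (Tree.br (nat_lit 1311) (Tree.tip (nat_lit 1310) (Node.img (nat_lit 0x38000004) (nat_lit 0x400001b) (nat_lit 535) (nat_lit 4) (nat_lit 128) (nat_lit 128))) (Tree.tip (nat_lit 1311) (Node.img (nat_lit 0x400001c000002) (nat_lit 0x3000022000001) (nat_lit 396) (nat_lit 4) (nat_lit 128) (nat_lit 128)))))))) (Tree.br (nat_lit 1328) (Tree.br (nat_lit 1320) (Tree.br (nat_lit 1316) (Tree.br (nat_lit 1314) (Tree.br (nat_lit 1313) (Tree.tip (nat_lit 1312) (Node.mv (nat_lit 0x8000018000004) (nat_lit 0x600006400001b) (nat_lit 29) (nat_lit 2) (nat_lit 0x51f40190000051e401800000410401a))) (Tree.tip (nat_lit 1313) (Node.img (nat_lit 0x400000400001c000002) (nat_lit 0x4000000000000000002000001) (nat_lit 182) (nat_lit 6) (nat_lit 132) (nat_lit 128)))) (Tree.br (nat_lit 1315) (Tree.tip (nat_lit 1314) (Node.mv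 (nat_lit 0x400000400000c000002) (nat_lit 0x4000000000002000032000005) (nat_lit 28) (nat_lit 1) (nat_lit 0x5214018000004104019))) (Tree.tip (nat_lit 1315) (Node.mv (nat_lit 0x8000008000008000004000000000000) (nat_lit 0x800000000000600007400001b000010000010) (nat_lit 76) (nat_lit 3) (nat_lit 0x522421900000520421800000492401b0000018d421a))))) (Tree.br (nat_lit 1318) (Tree.br (nat_lit 1317) (Tree.tip (nat_lit 1316) (Node.img (nat_lit 0x2000002000002000001000000000000) (nat_lit 0x2000000000000000001000002000001000001) (nat_lit 500) (nat_lit 7) (nat_lit 129) (nat_lit 134))) (Tree.tip (nat_lit 1317) (Node.mv (nat_lit 0x8000008000008000000000000000000) (nat_lit 0x800000000000600007400001f000014000014) (nat_lit 50) (nat_lit 4) (nat_lit 0x52340180000020d401a00000217401a0000051d411800000524401a)))) (Tree.br (nat_lit 1319) (Tree.tip (nat_lit 1318) (Node.mv (nat_lit 0x400000c000004000004000000) (nat_lit 0xa00000b000030000000000008000008) (nat_lit 27) (nat_lit 1) (nat_lit 0x64411800000039401a))) (Tree.tip (nat_lit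 1319) (Node.img (nat_lit 0x3000003000000000003000000) (nat_lit 0x2000000000003) (nat_lit 92) (nat_lit 1) (nat_lit 129) (nat_lit 128)))))) (Tree.br (nat_lit 1324) (Tree.br (nat_lit 1322) (Tree.br (nat_lit 1321) (Tree.tip (nat_lit 1320) (Node.mv (nat_lit 0x1800000c000000000018000000) (nat_lit 0x20000013000010000000000018) (nat_lit 76) (nat_lit 1) (nat_lit 0x527401b000000894318))) (Tree.tip (nat_lit 1321) (Node.mv (nat_lit 0x400001c000004000004000000) (nat_lit 0x200000b000000000000000000000004) (nat_lit 97) (nat_lit 1) (nat_lit 0x27540180000000e4119)))) (Tree.br (nat_lit 1323) (Tree.tip (nat_lit 1322) (Node.img (nat_lit 0x2000006000002000002000002000000) (nat_lit 0x3000003000001000000000004000000000000000002) (nat_lit 496) (nat_lit 1) (nat_lit 130) (nat_lit 128))) (Tree.tip (nat_lit 1323) (Node.mv (nat_lit 0x6000002000002000002000000) (nat_lit 0x3000003000003000000000004000004000004000006) (nat_lit 121) (nat_lit 1) (nat_lit 0x52a4018000000044019))))) (Tree.br (nat_lit 1326) (Tree.br (nat_lit 1325)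 (Tree.tip (nat_lit 1324) (Node.img (nat_lit 0x400000600000000001e000000) (nat_lit 0x2000000000003) (nat_lit 767) (nat_lit 1) (nat_lit 132) (nat_lit 128))) (Tree.tip (nat_lit 1325) (Node.img (nat_lit 0x3c000000) (nat_lit 0x70000002000007) (nat_lit 17) (nat_lit 5) (nat_lit 128) (nat_lit 130)))) (Tree.br (nat_lit 1327) (Tree.tip (nat_lit 1326) (Node.mv (nat_lit 0x800000c00000000001c000000) (nat_lit 0x77000022000007) (nat_lit 29) (nat_lit 2) (nat_lit 0x52d4018000001cd41180000052c4019))) (Tree.tip (nat_lit 1327) (Node.img (nat_lit 0x3c000000) (nat_lit 0x7000002000070) (nat_lit 17) (nat_lit 4) (nat_lit 128) (nat_lit 128))))))) (Tree.br (nat_lit 1336) (Tree.br (nat_lit 1332) (Tree.br (nat_lit 1330) (Tree.br (nat_lit 1329) (Tree.tip (nat_lit 1328) (Node.mv (nat_lit 0x800000c00000000001c000000) (nat_lit 0x7000022000077) (nat_lit 29) (nat_lit 2) (nat_lit 0x11f40180000052f40180000052c4019))) (Tree.tip (nat_lit 1329) (Node.mv (nat_lit 0x400000600000000000e000000) (nat_lit 0x72000030000073) (nat_lit 28) (nat_lit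 1) (nat_lit 0x7c40190000052c4018)))) (Tree.br (nat_lit 1331) (Tree.tip (nat_lit 1330) (Node.mv (nat_lit 0x800000c00000000001e000000) (nat_lit 0x7000020000004) (nat_lit 50) (nat_lit 1) (nat_lit 0xc7411800000041401a))) (Tree.tip (nat_lit 1331) (Node.mv (nat_lit 0x800000c00000000001c000000) (nat_lit 0x10000037000022000034) (nat_lit 25) (nat_lit 1) (nat_lit 0x5324018000003004019))))) (Tree.br (nat_lit 1334) (Tree.br (nat_lit 1333) (Tree.tip (nat_lit 1332) (Node.img (nat_lit 0x800000800000800000e000000000000) (nat_lit 0x11000018000010) (nat_lit 277) (nat_lit 1) (nat_lit 132) (nat_lit 128))) (Tree.tip (nat_lit 1333) (Node.mv (nat_lit 0x800000c00000e000000000000) (nat_lit 0x8000008000000000000000011000018000010) (nat_lit 123) (nat_lit 1) (nat_lit 0x534401800000044421a)))) (Tree.br (nat_lit 1335) (Tree.tip (nat_lit 1334) (Node.mv (nat_lit 0x7000001000001000003000000) (nat_lit 0x5000000000002000002000000000001) (nat_lit 73) (nat_lit 1) (nat_lit 0x11c4118000000414018))) (Tree.tip (nat_lit 1335) (Node.mv (nat_lit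 0x4000006000007000000000000000000) (nat_lit 0x200000000000000001e00000e000004) (nat_lit 50) (nat_lit 1) (nat_lit 0x1b141180000002e4019)))))) (Tree.br (nat_lit 1340) (Tree.br (nat_lit 1338) (Tree.br (nat_lit 1337) (Tree.tip (nat_lit 1336) (Node.img (nat_lit 0x2000006000003000000) (nat_lit 0x2000002000000000000000004000005) (nat_lit 59) (nat_lit 1) (nat_lit 130) (nat_lit 128))) (Tree.tip (nat_lit 1337) (Node.mv (nat_lit 0x800001c000006000000000000) (nat_lit 0x400000600000700000000000800000e000004) (nat_lit 98) (nat_lit 1) (nat_lit 0x3ab4018000005384119)))) (Tree.br (nat_lit 1339) (Tree.tip (nat_lit 1338) (Node.mv (nat_lit 0x28000008000008000000) (nat_lit 0x10000010000018000054000007000000000008) (nat_lit 76) (nat_lit 1) (nat_lit 0x421401b000000714218))) (Tree.tip (nat_lit 1339) (Node.mv (nat_lit 0x800001c000004000000000000) (nat_lit 0x8000008000034000003000000000004000004) (nat_lit 73) (nat_lit 1) (nat_lit 0x40d401a000000524318))))) (Tree.br (nat_lit 1342) (Tree.br (nat_lit 1341) (Tree.tip (nat_lit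 1340) (Node.mv (nat_lit 0xc000003000001000001000000) (nat_lit 0x12000000000000000000000001) (nat_lit 97) (nat_lit 1) (nat_lit 0x184318000000414018))) (Tree.tip (nat_lit 1341) (Node.mv (nat_lit 0xa000038) (nat_lit 0x5000040) (nat_lit 26) (nat_lit 1) (nat_lit 0x27401800000025401a)))) (Tree.br (nat_lit 1343) (Tree.tip (nat_lit 1342) (Node.mv (nat_lit 0x2000002000002000001000001) (nat_lit 0x2000000000001000001000000000000) (nat_lit 48) (nat_lit 1) (nat_lit 0x4441180000017e4018))) (Tree.tip (nat_lit 1343) (Node.mv (nat_lit 0x2000002000001000001) (nat_lit 0x2000002000001000001000002000000) (nat_lit 97) (nat_lit 1) (nat_lit 0x53e4018000002164018))))))))) (Tree.br (nat_lit 1376) (Tree.br (nat_lit 1360) (Tree.br (nat_lit 1352) (Tree.br (nat_lit 1348) (Tree.br (nat_lit 1346) (Tree.br (nat_lit 1345) (Tree.tip (nat_lit 1344) (Node.mv (nat_lit 0x7000005000005000000) (nat_lit 0x2000002000003000000000000000000000004) (nat_lit 97) (nat_lit 1) (nat_lit 0x45e4118000000084019))) (Tree.tip (nat_lit 1345) (Node.img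 (nat_lit 0x5000005000007000000000000000000) (nat_lit 0x1000000000000000000000006000002000002) (nat_lit 1344) (nat_lit 3) (nat_lit 130) (nat_lit 134)))) (Tree.br (nat_lit 1347) (Tree.tip (nat_lit 1346) (Node.mv (nat_lit 0xa00000a00000a000000000000000000) (nat_lit 0x200000000007000001500000c000004000004) (nat_lit 74) (nat_lit 1) (nat_lit 0x54140190000001a4318))) (Tree.tip (nat_lit 1347) (Node.img (nat_lit 0xa00001b) (nat_lit 0x15000000) (nat_lit 575) (nat_lit 2) (nat_lit 128) (nat_lit 129))))) (Tree.br (nat_lit 1350) (Tree.br (nat_lit 1349) (Tree.tip (nat_lit 1348) (Node.mv (nat_lit 0xa00000b00000a) (nat_lit 0x15000010000015) (nat_lit 28) (nat_lit 1) (nat_lit 0x54341180000023f4018))) (Tree.tip (nat_lit 1349) (Node.img (nat_lit 0x2800000c) (nat_lit 0x54000003) (nat_lit 252) (nat_lit 1) (nat_lit 134) (nat_lit 128)))) (Tree.br (nat_lit 1351) (Tree.tip (nat_lit 1350) (Node.img (nat_lit 0x16000014) (nat_lit 0x2100002a) (nat_lit 631) (nat_lit 1) (nat_lit 133) (nat_lit 128))) (Tree.tip (nat_lit 1351) (Node.mv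 (nat_lit 0x28000028000028) (nat_lit 0x54000047000054) (nat_lit 26) (nat_lit 2) (nat_lit 0x544401a000005464019000005454118)))))) (Tree.br (nat_lit 1356) (Tree.br (nat_lit 1354) (Tree.br (nat_lit 1353) (Tree.tip (nat_lit 1352) (Node.img (nat_lit 0x5000007000002000000000000) (nat_lit 0x4000004000000000000000004000002000002) (nat_lit 230) (nat_lit 5) (nat_lit 128) (nat_lit 134))) (Tree.tip (nat_lit 1353) (Node.mv (nat_lit 0x1000005000007000000000000000000) (nat_lit 0x5000004000000000000000006000002000002) (nat_lit 49) (nat_lit 1) (nat_lit 0x54840180000000b4218)))) (Tree.br (nat_lit 1355) (Tree.tip (nat_lit 1354) (Node.img (nat_lit 0xe00000a000008000000) (nat_lit 0x30000010000001000000000008) (nat_lit 275) (nat_lit 6) (nat_lit 133) (nat_lit 128))) (Tree.tip (nat_lit 1355) (Node.mv (nat_lit 0xa00000a00000a000000) (nat_lit 0x400000400003600001400000100000000000a) (nat_lit 74) (nat_lit 2) (nat_lit 0x42140190000054a4018000002d84019))))) (Tree.br (nat_lit 1358) (Tree.br (nat_lit 1357) (Tree.tip (nat_lit 1356)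 (Node.mv (nat_lit 0x28000028000028000000) (nat_lit 0x10000054000007000000000028) (nat_lit 76) (nat_lit 1) (nat_lit 0x714218000002d8401b))) (Tree.tip (nat_lit 1357) (Node.mv (nat_lit 0x200000a00000a000000000000000000) (nat_lit 0x2000000000070000015000006000004000004) (nat_lit 74) (nat_lit 1) (nat_lit 0x1a4318000004924019)))) (Tree.br (nat_lit 1359) (Tree.tip (nat_lit 1358) (Node.mv (nat_lit 0x800000e00000a000008000000) (nat_lit 0x10000010000010000001000000000008) (nat_lit 76) (nat_lit 1) (nat_lit 0x99401b000000674218))) (Tree.tip (nat_lit 1359) (Node.mv (nat_lit 0x18000014000014000000) (nat_lit 0x63000026000022000000000014) (nat_lit 74) (nat_lit 1) (nat_lit 0x54a40190000045a4018))))))) (Tree.br (nat_lit 1368) (Tree.br (nat_lit 1364) (Tree.br (nat_lit 1362) (Tree.br (nat_lit 1361) (Tree.tip (nat_lit 1360) (Node.mv (nat_lit 0x14000014000014000000) (nat_lit 0x800000a00000f00002a000000000000000014) (nat_lit 75) (nat_lit 2) (nat_lit 0x540401a000001eb4018000002d8401a))) (Tree.tip (nat_lit 1361) (Node.mv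 (nat_lit 0xa00000a00000a000000) (nat_lit 0x4000004000006000015000031000000000008) (nat_lit 74) (nat_lit 1) (nat_lit 0x5404019000004974218)))) (Tree.br (nat_lit 1363) (Tree.tip (nat_lit 1362) (Node.img (nat_lit 0xc000028) (nat_lit 0x3000054) (nat_lit 252) (nat_lit 3) (nat_lit 134) (nat_lit 129))) (Tree.tip (nat_lit 1363) (Node.img (nat_lit 0x200000300000a000000) (nat_lit 0x2000002000000000000000015000005) (nat_lit 385) (nat_lit 7) (nat_lit 132) (nat_lit 133))))) (Tree.br (nat_lit 1366) (Tree.br (nat_lit 1365) (Tree.tip (nat_lit 1364) (Node.mv (nat_lit 0x28000008000028000000) (nat_lit 0x8000008000054000007000054000014) (nat_lit 50) (nat_lit 2) (nat_lit 0x553401a000005454218000005524118))) (Tree.tip (nat_lit 1365) (Node.mv (nat_lit 0x1400001c000000000000000000) (nat_lit 0x10000003000023000038000008000008) (nat_lit 73) (nat_lit 1) (nat_lit 0x3494018000000c74318)))) (Tree.br (nat_lit 1367) (Tree.tip (nat_lit 1366) (Node.mv (nat_lit 0xa00000e000008000000000000) (nat_lit 0x8000001000030000007000004000004)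 (nat_lit 50) (nat_lit 1) (nat_lit 0x27e4218000003414019))) (Tree.tip (nat_lit 1367) (Node.mv (nat_lit 0x4000007000004000000000000000000) (nat_lit 0x400000000000800003800000c000008000008) (nat_lit 75) (nat_lit 1) (nat_lit 0x492401a000000fb4318)))))) (Tree.br (nat_lit 1372) (Tree.br (nat_lit 1370) (Tree.br (nat_lit 1369) (Tree.tip (nat_lit 1368) (Node.img (nat_lit 0x400000f000004000000000000) (nat_lit 0x8000018000000000000000004000004) (nat_lit 138) (nat_lit 4) (nat_lit 128) (nat_lit 128))) (Tree.tip (nat_lit 1369) (Node.mv (nat_lit 0xa00000e000008000000000000) (nat_lit 0x10000031000010000000000008000008) (nat_lit 76) (nat_lit 1) (nat_lit 0x5584019000000244318)))) (Tree.br (nat_lit 1371) (Tree.tip (nat_lit 1370) (Node.img (nat_lit 0x2000002000003000000000000000000) (nat_lit 0x2000000000001000000000001000001000001) (nat_lit 13) (nat_lit 2) (nat_lit 128) (nat_lit 134))) (Tree.tip (nat_lit 1371) (Node.mv (nat_lit 0x4000014000014000000000000000000) (nat_lit 0x400000000002300002a000003000002000002) (nat_lit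 73) (nat_lit 2) (nat_lit 0x49a4218000002dc43180000055a4019))))) (Tree.br (nat_lit 1374) (Tree.br (nat_lit 1373) (Tree.tip (nat_lit 1372) (Node.mv (nat_lit 0xa00000a000002000000000000000000) (nat_lit 0x5000005000010000000000007000007000005) (nat_lit 49) (nat_lit 1) (nat_lit 0x54018000003784218))) (Tree.tip (nat_lit 1373) (Node.img (nat_lit 0x800000e000008000010) (nat_lit 0x8000000000001000010000000) (nat_lit 756) (nat_lit 7) (nat_lit 132) (nat_lit 132)))) (Tree.br (nat_lit 1375) (Tree.tip (nat_lit 1374) (Node.mv (nat_lit 0x800000e000008000004000000) (nat_lit 0x8000000000001000010000018000014) (nat_lit 28) (nat_lit 1) (nat_lit 0x55d4118000000a2401a))) (Tree.tip (nat_lit 1375) (Node.mv (nat_lit 0x800000e000008000000) (nat_lit 0x10000010000018000010000001000000000008) (nat_lit 76) (nat_lit 1) (nat_lit 0x421401b000000164218)))))))) (Tree.br (nat_lit 1392) (Tree.br (nat_lit 1384) (Tree.br (nat_lit 1380) (Tree.br (nat_lit 1378) (Tree.br (nat_lit 1377) (Tree.tip (nat_lit 1376) (Node.img (nat_lit 0x2000003000001000000000000)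 (nat_lit 0x2000001000000000002000001000001) (nat_lit 30) (nat_lit 4) (nat_lit 128) (nat_lit 128))) (Tree.tip (nat_lit 1377) (Node.mv (nat_lit 0x400001e000000000000000000) (nat_lit 0x4000002000000000007000002000002) (nat_lit 49) (nat_lit 1) (nat_lit 0x5604019000000674218)))) (Tree.br (nat_lit 1379) (Tree.tip (nat_lit 1378) (Node.mv (nat_lit 0x18000014000014000000) (nat_lit 0x800000800000f000006000020000000000014) (nat_lit 74) (nat_lit 2) (nat_lit 0x540401a0000045a4018000002d8401a))) (Tree.tip (nat_lit 1379) (Node.img (nat_lit 0x400000400003c000000) (nat_lit 0x4000000000000000002000007) (nat_lit 277) (nat_lit 4) (nat_lit 128) (nat_lit 128))))) (Tree.br (nat_lit 1382) (Tree.br (nat_lit 1381) (Tree.tip (nat_lit 1380) (Node.mv (nat_lit 0x400000400001c000000) (nat_lit 0x4000000000002000022000007) (nat_lit 29) (nat_lit 1) (nat_lit 0x5634018000000244119))) (Tree.tip (nat_lit 1381) (Node.img (nat_lit 0x100000f000001000002) (nat_lit 0x1000000000010000002000000) (nat_lit 209) (nat_lit 4) (nat_lit 128) (nat_lit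 128)))) (Tree.br (nat_lit 1383) (Tree.tip (nat_lit 1382) (Node.mv (nat_lit 0x200001e000000000004) (nat_lit 0x2000000000020000007000000) (nat_lit 25) (nat_lit 1) (nat_lit 0x5654019000000674118))) (Tree.tip (nat_lit 1383) (Node.img (nat_lit 0x1000001000000000003000002) (nat_lit 0x1000000000000) (nat_lit 75) (nat_lit 5) (nat_lit 128) (nat_lit 132)))))) (Tree.br (nat_lit 1388) (Tree.br (nat_lit 1386) (Tree.br (nat_lit 1385) (Tree.tip (nat_lit 1384) (Node.mv (nat_lit 0x400000400000000001e000000) (nat_lit 0x4000001000038) (nat_lit 3) (nat_lit 1) (nat_lit 0x5f401800000567401a))) (Tree.tip (nat_lit 1385) (Node.mv (nat_lit 0x8000008000008000038000000) (nat_lit 0x8000000000000000017000004000004) (nat_lit 50) (nat_lit 1) (nat_lit 0x3a401a000000e54118)))) (Tree.br (nat_lit 1387) (Tree.tip (nat_lit 1386) (Node.img (nat_lit 0x1000003000007000000) (nat_lit 0x3000003000002000000000000000005) (nat_lit 195) (nat_lit 5) (nat_lit 128) (nat_lit 133))) (Tree.tip (nat_lit 1387) (Node.mv (nat_lit 0x200000a00000e000000)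 (nat_lit 0x600000600000500003400000000000a) (nat_lit 50) (nat_lit 1) (nat_lit 0x56a40190000030e4118))))) (Tree.br (nat_lit 1390) (Tree.br (nat_lit 1389) (Tree.tip (nat_lit 1388) (Node.img (nat_lit 0x400000400001c000004000000) (nat_lit 0xb00000a) (nat_lit 108) (nat_lit 6) (nat_lit 132) (nat_lit 128))) (Tree.tip (nat_lit 1389) (Node.img (nat_lit 0x200000a000006000002000000000000) (nat_lit 0x1000005000014000000000000000002000002) (nat_lit 584) (nat_lit 1) (nat_lit 132) (nat_lit 128)))) (Tree.br (nat_lit 1391) (Tree.tip (nat_lit 1390) (Node.mv (nat_lit 0x400001400001c000000000000000000) (nat_lit 0x200000a00002800000000000f00000e000004) (nat_lit 50) (nat_lit 1) (nat_lit 0x56d40190000056c4118))) (Tree.tip (nat_lit 1391) (Node.mv (nat_lit 0x200000a00000e) (nat_lit 0x1000035000030) (nat_lit 26) (nat_lit 1) (nat_lit 0x30e4018000000264018))))))) (Tree.br (nat_lit 1400) (Tree.br (nat_lit 1396) (Tree.br (nat_lit 1394) (Tree.br (nat_lit 1393) (Tree.tip (nat_lit 1392) (Node.mv (nat_lit 0xe00000e000000000000)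 (nat_lit 0x600000700003000000000000c00000c) (nat_lit 98) (nat_lit 1) (nat_lit 0x4b74018000000b7401a))) (Tree.tip (nat_lit 1393) (Node.img (nat_lit 0x400000400000e000001) (nat_lit 0x4000000000000000010000002) (nat_lit 756) (nat_lit 1) (nat_lit 132) (nat_lit 128)))) (Tree.br (nat_lit 1395) (Tree.tip (nat_lit 1394) (Node.mv (nat_lit 0x800001800001c000000) (nat_lit 0x8000000000000000023000007) (nat_lit 1) (nat_lit 1) (nat_lit 0x57140190000026c4018))) (Tree.tip (nat_lit 1395) (Node.img (nat_lit 0x20000020000020000038000000) (nat_lit 0x1700004600004f) (nat_lit 356) (nat_lit 1) (nat_lit 134) (nat_lit 128))))) (Tree.br (nat_lit 1398) (Tree.br (nat_lit 1397) (Tree.tip (nat_lit 1396) (Node.mv (nat_lit 0x20000020000020000030000000) (nat_lit 0x1df0000ce00004f) (nat_lit 27) (nat_lit 3) (nat_lit 0x5734018000001a2401a000000d94018000000d2401a))) (Tree.tip (nat_lit 1397) (Node.mv (nat_lit 0x20000020000020000020000000) (nat_lit 0x1df0000de00005f) (nat_lit 28) (nat_lit 1) (nat_lit 0x574401800000001401c)))) (Tree.br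 (nat_lit 1399) (Tree.tip (nat_lit 1398) (Node.img (nat_lit 0x4000007000006000000) (nat_lit 0x4000004000000000000000018000008) (nat_lit 98) (nat_lit 5) (nat_lit 128) (nat_lit 133))) (Tree.tip (nat_lit 1399) (Node.mv (nat_lit 0x6000007000002000000000000) (nat_lit 0x400000c00001800000000001c00000c000004) (nat_lit 50) (nat_lit 1) (nat_lit 0x5764118000002784018)))))) (Tree.br (nat_lit 1404) (Tree.br (nat_lit 1402) (Tree.br (nat_lit 1401) (Tree.tip (nat_lit 1400) (Node.mv (nat_lit 0x1000001c000004000004000000) (nat_lit 0x23000002000000000000000004) (nat_lit 73) (nat_lit 1) (nat_lit 0x22340180000002a4319))) (Tree.tip (nat_lit 1401) (Node.img (nat_lit 0x400000600001c000002000000) (nat_lit 0x2000001000002) (nat_lit 538) (nat_lit 6) (nat_lit 132) (nat_lit 128)))) (Tree.br (nat_lit 1403) (Tree.tip (nat_lit 1402) (Node.mv (nat_lit 0x400000400001c000002000000) (nat_lit 0x2000022000001000002) (nat_lit 73) (nat_lit 1) (nat_lit 0x5794018000000254219))) (Tree.tip (nat_lit 1403) (Node.mv (nat_lit 0x1e00000400001c)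 (nat_lit 0x3000020) (nat_lit 25) (nat_lit 1) (nat_lit 0x674118000000254019))))) (Tree.br (nat_lit 1406) (Tree.br (nat_lit 1405) (Tree.tip (nat_lit 1404) (Node.mv (nat_lit 0x1c00000000003c) (nat_lit 0x2000007000002) (nat_lit 25) (nat_lit 1) (nat_lit 0x36b4018000002404019))) (Tree.tip (nat_lit 1405) (Node.mv (nat_lit 0x1e000004000038) (nat_lit 0x3000004) (nat_lit 25) (nat_lit 1) (nat_lit 0x6741180000036a4019)))) (Tree.br (nat_lit 1407) (Tree.tip (nat_lit 1406) (Node.mv (nat_lit 0x1e00000000003c) (nat_lit 0x7000000) (nat_lit 25) (nat_lit 1) (nat_lit 0x674118000002404019))) (Tree.tip (nat_lit 1407) (Node.img (nat_lit 0x2000001000003000001000000) (nat_lit 0x2000000000002000000000000000001) (nat_lit 81) (nat_lit 5) (nat_lit 128) (nat_lit 133))))))))))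
noncomputable def t0_11 : Tree := (Tree.br (nat_lit 1472) (Tree.br (nat_lit 1440) (Tree.br (nat_lit 1424) (Tree.br (nat_lit 1416) (Tree.br (nat_lit 1412) (Tree.br (nat_lit 1410) (Tree.br (nat_lit 1409) (Tree.tip (nat_lit 1408) (Node.mv (nat_lit 0x400000200001e000000000000) (nat_lit 0x4000000000004000000000003000002) (nat_lit 25) (nat_lit 1) (nat_lit 0x57f4019000000674118))) (Tree.tip (nat_lit 1409) (Node.mv (nat_lit 0x400000000001e000000000000) (nat_lit 0x4000000000007000000000003000002) (nat_lit 73) (nat_lit 1) (nat_lit 0x5804018000000244218)))) (Tree.br (nat_lit 1411) (Tree.tip (nat_lit 1410) (Node.img (nat_lit 0x2000003000000000003000000) (nat_lit 0x3000000000001) (nat_lit 197) (nat_lit 7) (nat_lit 129) (nat_lit 132))) (Tree.tip (nat_lit 1411) (Node.mv (nat_lit 0x1000001c00000000000c000000) (nat_lit 0x2800000300000c000000000004) (nat_lit 99) (nat_lit 1) (nat_lit 0x89431800000582401a))))) (Tree.br (nat_lit 1414) (Tree.br (nat_lit 1413) (Tree.tip (nat_lit 1412) (Node.mv (nat_lit 0x1000001c000000000018000000)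 (nat_lit 0x28000003000008000000000018) (nat_lit 99) (nat_lit 1) (nat_lit 0x5c401b000000894318))) (Tree.tip (nat_lit 1413) (Node.mv (nat_lit 0x1000001800000000001e000000) (nat_lit 0x8000001000038) (nat_lit 3) (nat_lit 1) (nat_lit 0x5f401800000311401b)))) (Tree.br (nat_lit 1415) (Tree.tip (nat_lit 1414) (Node.mv (nat_lit 0x8000008000038000000) (nat_lit 0x8000000000017000044000006) (nat_lit 2) (nat_lit 1) (nat_lit 0x1064118000005214019))) (Tree.tip (nat_lit 1415) (Node.mv (nat_lit 0xc000003000002000006000000) (nat_lit 0x12000000000000000000000004) (nat_lit 97) (nat_lit 1) (nat_lit 0x184318000000394019)))))) (Tree.br (nat_lit 1420) (Tree.br (nat_lit 1418) (Tree.br (nat_lit 1417) (Tree.tip (nat_lit 1416) (Node.mv (nat_lit 0x800000e00000400000c000000) (nat_lit 0x34000001000000000000000008) (nat_lit 100) (nat_lit 1) (nat_lit 0x5874019000000164318))) (Tree.tip (nat_lit 1417) (Node.mv (nat_lit 0x800000e000002000002000000) (nat_lit 0x34000001000000000000000002) (nat_lit 100) (nat_lit 1) (nat_lit 0x53c4019000000164318))))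 (Tree.br (nat_lit 1419) (Tree.tip (nat_lit 1418) (Node.mv (nat_lit 0x800000e00000200000e000000000000) (nat_lit 0x11000001000000000010000003000001) (nat_lit 25) (nat_lit 1) (nat_lit 0x3754118000002a14018))) (Tree.tip (nat_lit 1419) (Node.mv (nat_lit 0x800000e000002000002000000) (nat_lit 0x15000001000000000000000002) (nat_lit 1) (nat_lit 1) (nat_lit 0x3754018000000314019))))) (Tree.br (nat_lit 1422) (Tree.br (nat_lit 1421) (Tree.tip (nat_lit 1420) (Node.mv (nat_lit 0x200000100000f000000) (nat_lit 0x2000002000000000002000010000004) (nat_lit 49) (nat_lit 1) (nat_lit 0x3984018000000254118))) (Tree.tip (nat_lit 1421) (Node.mv (nat_lit 0x1000001c00000400001c) (nat_lit 0x20000002000003000020) (nat_lit 49) (nat_lit 1) (nat_lit 0x57b40180000002a4219)))) (Tree.br (nat_lit 1423) (Tree.tip (nat_lit 1422) (Node.mv (nat_lit 0x800000c00000200000e000000) (nat_lit 0x5000030000004) (nat_lit 50) (nat_lit 1) (nat_lit 0x26411800000041401a))) (Tree.tip (nat_lit 1423) (Node.mv (nat_lit 0x800000c00000000001e000000) (nat_lit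 0x4000020000007) (nat_lit 2) (nat_lit 1) (nat_lit 0xb0401800000311401a))))))) (Tree.br (nat_lit 1432) (Tree.br (nat_lit 1428) (Tree.br (nat_lit 1426) (Tree.br (nat_lit 1425) (Tree.tip (nat_lit 1424) (Node.mv (nat_lit 0x3000003000001000006000000) (nat_lit 0x1000000000000000002000000000004) (nat_lit 49) (nat_lit 1) (nat_lit 0xb4118000000394019))) (Tree.tip (nat_lit 1425) (Node.img (nat_lit 0x2000002000001000007000000) (nat_lit 0x2000000000000000002000000000004) (nat_lit 320) (nat_lit 7) (nat_lit 130) (nat_lit 133)))) (Tree.br (nat_lit 1427) (Tree.tip (nat_lit 1426) (Node.mv (nat_lit 0x2000003000001000006000000) (nat_lit 0x2000000000000000002000001000005) (nat_lit 24) (nat_lit 1) (nat_lit 0x5914018000000414018))) (Tree.tip (nat_lit 1427) (Node.mv (nat_lit 0x400000600000200001c000000) (nat_lit 0x1000002000002) (nat_lit 25) (nat_lit 1) (nat_lit 0x244118000000414019))))) (Tree.br (nat_lit 1430) (Tree.br (nat_lit 1429) (Tree.tip (nat_lit 1428) (Node.mv (nat_lit 0x200000200000100000e000000) (nat_lit 0x2000010000004)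 (nat_lit 49) (nat_lit 1) (nat_lit 0x254118000000394019))) (Tree.tip (nat_lit 1429) (Node.img (nat_lit 0x600000200001e000000) (nat_lit 0x4000000000000000000000003) (nat_lit 527) (nat_lit 3) (nat_lit 132) (nat_lit 132)))) (Tree.br (nat_lit 1431) (Tree.tip (nat_lit 1430) (Node.mv (nat_lit 0x600000200001c000000) (nat_lit 0x4000000000001000002000003) (nat_lit 25) (nat_lit 1) (nat_lit 0x5954018000000244118))) (Tree.tip (nat_lit 1431) (Node.mv (nat_lit 0x6000003000001000000000000) (nat_lit 0x2000002000019000000000000000001000001) (nat_lit 99) (nat_lit 1) (nat_lit 0x40d4018000000184318)))))) (Tree.br (nat_lit 1436) (Tree.br (nat_lit 1434) (Tree.br (nat_lit 1433) (Tree.tip (nat_lit 1432) (Node.mv (nat_lit 0x300000300000c000000000000) (nat_lit 0x1000000000000000012000002000002) (nat_lit 49) (nat_lit 1) (nat_lit 0x2e4018000000254218))) (Tree.tip (nat_lit 1433) (Node.mv (nat_lit 0x400000400000000000e000008) (nat_lit 0x8000018000001000010) (nat_lit 51) (nat_lit 1) (nat_lit 0x4a54018000002fd401a)))) (Tree.br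 (nat_lit 1435) (Tree.tip (nat_lit 1434) (Node.mv (nat_lit 0x4000004000000000007000008) (nat_lit 0x8000018000008000010) (nat_lit 27) (nat_lit 1) (nat_lit 0x2fe4018000000284018))) (Tree.tip (nat_lit 1435) (Node.mv (nat_lit 0x700000800000e) (nat_lit 0x8000010000001) (nat_lit 28) (nat_lit 1) (nat_lit 0x1a84118000000164018))))) (Tree.br (nat_lit 1438) (Tree.br (nat_lit 1437) (Tree.tip (nat_lit 1436) (Node.mv (nat_lit 0x6000007000000000003000000) (nat_lit 0x2000001000000000003000000000002) (nat_lit 48) (nat_lit 3) (nat_lit 0x4b44018000003124018000000ff4118000000ba4018))) (Tree.tip (nat_lit 1437) (Node.mv (nat_lit 0x38000018000010) (nat_lit 0x20000067000007000060000000) (nat_lit 50) (nat_lit 2) (nat_lit 0x284401a000000ec41180000004d4119)))) (Tree.br (nat_lit 1439) (Tree.tip (nat_lit 1438) (Node.mv (nat_lit 0xa00000e000008000000000000) (nat_lit 0x4000005000030000000000008000008) (nat_lit 98) (nat_lit 1) (nat_lit 0x2643180000002e401a))) (Tree.tip (nat_lit 1439) (Node.img (nat_lit 0x1800001c000000000008000000)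 (nat_lit 0x3000030000010000018) (nat_lit 254) (nat_lit 2) (nat_lit 128) (nat_lit 132)))))))) (Tree.br (nat_lit 1456) (Tree.br (nat_lit 1448) (Tree.br (nat_lit 1444) (Tree.br (nat_lit 1442) (Tree.br (nat_lit 1441) (Tree.tip (nat_lit 1440) (Node.mv (nat_lit 0x1c00000c000000000008000000) (nat_lit 0x2000073000030000010000018) (nat_lit 76) (nat_lit 1) (nat_lit 0x59f4018000000264319))) (Tree.tip (nat_lit 1441) (Node.img (nat_lit 0x4000007000003000001000001000000) (nat_lit 0x2000002000002) (nat_lit 843) (nat_lit 2) (nat_lit 128) (nat_lit 133)))) (Tree.br (nat_lit 1443) (Tree.tip (nat_lit 1442) (Node.mv (nat_lit 0xe000006000002000002000000) (nat_lit 0x19000001000000000004000004000004) (nat_lit 123) (nat_lit 1) (nat_lit 0x5a14019000003754118))) (Tree.tip (nat_lit 1443) (Node.mv (nat_lit 0xe000006000002000000000000) (nat_lit 0x19000001000000000004000006000006) (nat_lit 25) (nat_lit 1) (nat_lit 0x5a24018000000414019))))) (Tree.br (nat_lit 1446) (Tree.br (nat_lit 1445) (Tree.tip (nat_lit 1444) (Node.img (nat_lit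 0x800000c00000e000000000000) (nat_lit 0x18000018000010000000000001000018000010) (nat_lit 928) (nat_lit 3) (nat_lit 132) (nat_lit 134))) (Tree.tip (nat_lit 1445) (Node.img (nat_lit 0x800000c00000e000000000000000000) (nat_lit 0x100001c00001c00000c) (nat_lit 804) (nat_lit 2) (nat_lit 128) (nat_lit 133)))) (Tree.br (nat_lit 1447) (Tree.tip (nat_lit 1446) (Node.mv (nat_lit 0xc00000e000000000000000000) (nat_lit 0x1800001800001800000000000100001c00001c00000c) (nat_lit 123) (nat_lit 2) (nat_lit 0x5a54018000005a4411800000037411a))) (Tree.tip (nat_lit 1447) (Node.mv (nat_lit 0xc00000e000000000000000000) (nat_lit 0x800000800000300003000003c000014000010) (nat_lit 76) (nat_lit 1) (nat_lit 0x4ee4019000000c74318)))))) (Tree.br (nat_lit 1452) (Tree.br (nat_lit 1450) (Tree.br (nat_lit 1449) (Tree.tip (nat_lit 1448) (Node.img (nat_lit 0x1e000000) (nat_lit 0x70000020000073) (nat_lit 151) (nat_lit 6) (nat_lit 134) (nat_lit 128))) (Tree.tip (nat_lit 1449) (Node.mv (nat_lit 0x1c000000) (nat_lit 0xf00000620000f7) (nat_lit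 29) (nat_lit 3) (nat_lit 0x5a840190000007b40190000011f40180000052d4018)))) (Tree.br (nat_lit 1451) (Tree.tip (nat_lit 1450) (Node.img (nat_lit 0x800001c000008000000000000) (nat_lit 0x10000030000003000000000008000008) (nat_lit 47) (nat_lit 1) (nat_lit 133) (nat_lit 128))) (Tree.tip (nat_lit 1451) (Node.mv (nat_lit 0x800000c00000e000000000000) (nat_lit 0x10000030000033000000000008000008) (nat_lit 76) (nat_lit 1) (nat_lit 0x5aa4018000000184219))))) (Tree.br (nat_lit 1454) (Tree.br (nat_lit 1453) (Tree.tip (nat_lit 1452) (Node.img (nat_lit 0x400000c00001000000e000000) (nat_lit 0x8000001000008) (nat_lit 1242) (nat_lit 1) (nat_lit 132) (nat_lit 128))) (Tree.tip (nat_lit 1453) (Node.mv (nat_lit 0x400001e00000000000e000000) (nat_lit 0x38000001000008) (nat_lit 52) (nat_lit 1) (nat_lit 0x5ac4018000000284219)))) (Tree.br (nat_lit 1455) (Tree.tip (nat_lit 1454) (Node.img (nat_lit 0xe000008) (nat_lit 0x11000070) (nat_lit 26) (nat_lit 2) (nat_lit 128) (nat_lit 129))) (Tree.tip (nat_lit 1455) (Node.mv (nat_lit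 0x400000c00000000000e000000) (nat_lit 0x8000011000078) (nat_lit 3) (nat_lit 1) (nat_lit 0x5ae4018000002d9401a))))))) (Tree.br (nat_lit 1464) (Tree.br (nat_lit 1460) (Tree.br (nat_lit 1458) (Tree.br (nat_lit 1457) (Tree.tip (nat_lit 1456) (Node.img (nat_lit 0x400000e000001000002000000) (nat_lit 0x10000002000000000002) (nat_lit 410) (nat_lit 1) (nat_lit 132) (nat_lit 128))) (Tree.tip (nat_lit 1457) (Node.mv (nat_lit 0x800001c00000000001c000010) (nat_lit 0x20000007000002000024) (nat_lit 49) (nat_lit 1) (nat_lit 0x5b04019000000504018)))) (Tree.br (nat_lit 1459) (Tree.tip (nat_lit 1458) (Node.mv (nat_lit 0x800001c00000000001c000000) (nat_lit 0x20000017000002000034) (nat_lit 4) (nat_lit 1) (nat_lit 0x5b14018000002d9401b))) (Tree.tip (nat_lit 1459) (Node.mv (nat_lit 0x800001800000200001c000000) (nat_lit 0x11000002000030) (nat_lit 25) (nat_lit 1) (nat_lit 0x2ff4019000000244118))))) (Tree.br (nat_lit 1462) (Tree.br (nat_lit 1461) (Tree.tip (nat_lit 1460) (Node.img (nat_lit 0x2000007000004000006000000) (nat_lit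 0x800001c000000000000000000000002) (nat_lit 1237) (nat_lit 1) (nat_lit 132) (nat_lit 128))) (Tree.tip (nat_lit 1461) (Node.mv (nat_lit 0x2000007000000000006000000) (nat_lit 0x800001c000000000004000000000006) (nat_lit 50) (nat_lit 1) (nat_lit 0x5b44018000000084019)))) (Tree.br (nat_lit 1463) (Tree.tip (nat_lit 1462) (Node.img (nat_lit 0xf000004000006000000) (nat_lit 0x800001c000000000000000000000002) (nat_lit 745) (nat_lit 4) (nat_lit 128) (nat_lit 128))) (Tree.tip (nat_lit 1463) (Node.mv (nat_lit 0x200000f000000000006000000) (nat_lit 0x800001c000000000004000000000006) (nat_lit 50) (nat_lit 1) (nat_lit 0x5b64018000000084019)))))) (Tree.br (nat_lit 1468) (Tree.br (nat_lit 1466) (Tree.br (nat_lit 1465) (Tree.tip (nat_lit 1464) (Node.mv (nat_lit 0x10000018000000000038000000) (nat_lit 0xf000044000008) (nat_lit 51) (nat_lit 1) (nat_lit 0x146411800000041401b))) (Tree.tip (nat_lit 1465) (Node.mv (nat_lit 0x3000000e) (nat_lit 0x48000001) (nat_lit 27) (nat_lit 1) (nat_lit 0x18401a000000164018)))) (Tree.br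 (nat_lit 1467) (Tree.tip (nat_lit 1466) (Node.img (nat_lit 0x1000001e000000) (nat_lit 0x8000001000038) (nat_lit 60) (nat_lit 7) (nat_lit 133) (nat_lit 130))) (Tree.tip (nat_lit 1467) (Node.mv (nat_lit 0x1000001e000000) (nat_lit 0x800000100003b) (nat_lit 1) (nat_lit 1) (nat_lit 0x5ba4018000000674018))))) (Tree.br (nat_lit 1470) (Tree.br (nat_lit 1469) (Tree.tip (nat_lit 1468) (Node.mv (nat_lit 0x1000001f000000000008000000) (nat_lit 0x18000000000008) (nat_lit 51) (nat_lit 1) (nat_lit 0x28421800000041401b))) (Tree.tip (nat_lit 1469) (Node.mv (nat_lit 0x1000001e000000000008000000) (nat_lit 0x8000001000018000000000008) (nat_lit 72) (nat_lit 1) (nat_lit 0x5bc4018000000214318)))) (Tree.br (nat_lit 1471) (Tree.tip (nat_lit 1470) (Node.mv (nat_lit 0x800001c00000c000004000000) (nat_lit 0x6000007000000000000000008000008) (nat_lit 98) (nat_lit 1) (nat_lit 0x29741180000008d401a))) (Tree.tip (nat_lit 1471) (Node.img (nat_lit 0xa00001e000000000000) (nat_lit 0x400000400000400002000000b00000a) (nat_lit 1286) (nat_lit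 1) (nat_lit 133) (nat_lit 128))))))))) (Tree.br (nat_lit 1504) (Tree.br (nat_lit 1488) (Tree.br (nat_lit 1480) (Tree.br (nat_lit 1476) (Tree.br (nat_lit 1474) (Tree.br (nat_lit 1473) (Tree.tip (nat_lit 1472) (Node.mv (nat_lit 0xa00000e000000000000) (nat_lit 0x400000400000500003000000b00000a) (nat_lit 52) (nat_lit 1) (nat_lit 0x5bf4018000000244218))) (Tree.tip (nat_lit 1473) (Node.mv (nat_lit 0xc00000e000000000000) (nat_lit 0x1800003800003300000000000c00000c) (nat_lit 99) (nat_lit 1) (nat_lit 0x5ab401800000037401a)))) (Tree.br (nat_lit 1475) (Tree.tip (nat_lit 1474) (Node.mv (nat_lit 0x1c000006000004) (nat_lit 0x2000003000002000001000000) (nat_lit 49) (nat_lit 1) (nat_lit 0x6b4018000000674118))) (Tree.tip (nat_lit 1475) (Node.mv (nat_lit 0xc000006000004) (nat_lit 0x2000003000032000001000000) (nat_lit 52) (nat_lit 1) (nat_lit 0x5c24018000000184119))))) (Tree.br (nat_lit 1478) (Tree.br (nat_lit 1477) (Tree.tip (nat_lit 1476) (Node.mv (nat_lit 0x20000038000000) (nat_lit 0x5700004600000e) (nat_lit 26)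 (nat_lit 1) (nat_lit 0x39540180000002a411a))) (Tree.tip (nat_lit 1477) (Node.mv (nat_lit 0x200000a00000e000000000000000000) (nat_lit 0x1000005000014000010000003000003000002) (nat_lit 49) (nat_lit 1) (nat_lit 0x56d4018000002a14118)))) (Tree.br (nat_lit 1479) (Tree.tip (nat_lit 1478) (Node.mv (nat_lit 0x1800003c000000) (nat_lit 0x10000010000000000003000067) (nat_lit 76) (nat_lit 1) (nat_lit 0x33d4018000000c8401a))) (Tree.tip (nat_lit 1479) (Node.mv (nat_lit 0x800001c000000000018000000) (nat_lit 0x30000003000010000000000018) (nat_lit 100) (nat_lit 1) (nat_lit 0x527401b000000894318)))))) (Tree.br (nat_lit 1484) (Tree.br (nat_lit 1482) (Tree.br (nat_lit 1481) (Tree.tip (nat_lit 1480) (Node.img (nat_lit 0x4000006000000000003000001) (nat_lit 0x2000000000002000000000002) (nat_lit 1212) (nat_lit 1) (nat_lit 130) (nat_lit 128))) (Tree.tip (nat_lit 1481) (Node.mv (nat_lit 0x1000001800000000001e000000) (nat_lit 0x800000000000800002000000f) (nat_lit 2) (nat_lit 1) (nat_lit 0x5c8401a000000b04018)))) (Tree.br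 (nat_lit 1483) (Tree.tip (nat_lit 1482) (Node.mv (nat_lit 0x2000000e) (nat_lit 0x58000011) (nat_lit 28) (nat_lit 1) (nat_lit 0x5b94018000000134019))) (Tree.tip (nat_lit 1483) (Node.img (nat_lit 0xe000002000006000000) (nat_lit 0x1000003000010000000000000000004) (nat_lit 275) (nat_lit 3) (nat_lit 132) (nat_lit 133))))) (Tree.br (nat_lit 1486) (Tree.br (nat_lit 1485) (Tree.tip (nat_lit 1484) (Node.mv (nat_lit 0x400000e000000000006000000) (nat_lit 0x1000003000010000002000000000006) (nat_lit 49) (nat_lit 1) (nat_lit 0x5cb4018000000414019))) (Tree.tip (nat_lit 1485) (Node.mv (nat_lit 0xc00001c00000000000c000000) (nat_lit 0x2000003000000000004000000000008) (nat_lit 97) (nat_lit 1) (nat_lit 0x2fb4019000000274318)))) (Tree.br (nat_lit 1487) (Tree.tip (nat_lit 1486) (Node.img (nat_lit 0x200001e000000000006000000) (nat_lit 0x3000000000004) (nat_lit 736) (nat_lit 7) (nat_lit 132) (nat_lit 132))) (Tree.tip (nat_lit 1487) (Node.mv (nat_lit 0x600000e000000000006000000) (nat_lit 0x30000003000000000004) (nat_lit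 76) (nat_lit 1) (nat_lit 0x5ce4018000000254319))))))) (Tree.br (nat_lit 1496) (Tree.br (nat_lit 1492) (Tree.br (nat_lit 1490) (Tree.br (nat_lit 1489) (Tree.tip (nat_lit 1488) (Node.mv (nat_lit 0x200000600000000000f000000) (nat_lit 0x400000000000400000000001c) (nat_lit 3) (nat_lit 1) (nat_lit 0x4bc4019000000284018))) (Tree.tip (nat_lit 1489) (Node.mv (nat_lit 0x1000003000004000007000000) (nat_lit 0x2000002000000000002000000000003) (nat_lit 49) (nat_lit 1) (nat_lit 0x4814018000000084018)))) (Tree.br (nat_lit 1491) (Tree.tip (nat_lit 1490) (Node.mv (nat_lit 0x200000600000000001e000000) (nat_lit 0x4000000000004000000000007) (nat_lit 50) (nat_lit 1) (nat_lit 0x25b4018000000084019))) (Tree.tip (nat_lit 1491) (Node.mv (nat_lit 0x400000400000800000e000010) (nat_lit 0x8000000000001000008) (nat_lit 3) (nat_lit 1) (nat_lit 0x2fd401a000000274018))))) (Tree.br (nat_lit 1494) (Tree.br (nat_lit 1493) (Tree.tip (nat_lit 1492) (Node.mv (nat_lit 0x200000f000001000003000000) (nat_lit 0x1000010000000000000000002) (nat_lit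 96) (nat_lit 1) (nat_lit 0x254318000000394018))) (Tree.tip (nat_lit 1493) (Node.mv (nat_lit 0x1e00000000001c) (nat_lit 0x20000007000020) (nat_lit 25) (nat_lit 1) (nat_lit 0x4e64019000000674118)))) (Tree.br (nat_lit 1495) (Tree.tip (nat_lit 1494) (Node.mv (nat_lit 0x400000f000002000006000000) (nat_lit 0x2000030000038000000000004) (nat_lit 76) (nat_lit 1) (nat_lit 0x5d44019000000774218))) (Tree.tip (nat_lit 1495) (Node.mv (nat_lit 0x400000f000000000006000000) (nat_lit 0x200003000003a000000000006) (nat_lit 49) (nat_lit 1) (nat_lit 0x5d64018000000414019)))))) (Tree.br (nat_lit 1500) (Tree.br (nat_lit 1498) (Tree.br (nat_lit 1497) (Tree.tip (nat_lit 1496) (Node.img (nat_lit 0xc00000f000000) (nat_lit 0x2000070000038) (nat_lit 283) (nat_lit 6) (nat_lit 134) (nat_lit 128))) (Tree.tip (nat_lit 1497) (Node.mv (nat_lit 0x1800001e000000) (nat_lit 0x40000e0000073) (nat_lit 1) (nat_lit 1) (nat_lit 0x5d84019000000674018)))) (Tree.br (nat_lit 1499) (Tree.tip (nat_lit 1498) (Node.img (nat_lit 0x3000003000000000001000000)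 (nat_lit 0x2000000000000000001000000000001) (nat_lit 41) (nat_lit 6) (nat_lit 129) (nat_lit 128))) (Tree.tip (nat_lit 1499) (Node.mv (nat_lit 0x1800001e000000000000000000) (nat_lit 0x1000000000002000007f000008000008) (nat_lit 27) (nat_lit 1) (nat_lit 0x534218000005da401b))))) (Tree.br (nat_lit 1502) (Tree.br (nat_lit 1501) (Tree.tip (nat_lit 1500) (Node.mv (nat_lit 0x800001c000002000010000000) (nat_lit 0x2000031000000000010) (nat_lit 73) (nat_lit 1) (nat_lit 0x1804019000000674218))) (Tree.tip (nat_lit 1501) (Node.mv (nat_lit 0x800003c000000000010000000) (nat_lit 0x2000037000000000010) (nat_lit 49) (nat_lit 1) (nat_lit 0x5dc40180000012c4219)))) (Tree.br (nat_lit 1503) (Tree.tip (nat_lit 1502) (Node.img (nat_lit 0x600001e000000000000) (nat_lit 0x2000003000038000001000004000004) (nat_lit 1265) (nat_lit 6) (nat_lit 133) (nat_lit 128))) (Tree.tip (nat_lit 1503) (Node.mv (nat_lit 0x400001e000000000000) (nat_lit 0x200000300003b000001000004000004) (nat_lit 73) (nat_lit 1) (nat_lit 0x5de4018000000244218))))))))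 (Tree.br (nat_lit 1520) (Tree.br (nat_lit 1512) (Tree.br (nat_lit 1508) (Tree.br (nat_lit 1506) (Tree.br (nat_lit 1505) (Tree.tip (nat_lit 1504) (Node.mv (nat_lit 0x500000e000000000002000000) (nat_lit 0x1000002000010000002000000000002) (nat_lit 97) (nat_lit 1) (nat_lit 0x494018000000254318))) (Tree.tip (nat_lit 1505) (Node.mv (nat_lit 0x1c000014000014) (nat_lit 0x6b000022) (nat_lit 27) (nat_lit 1) (nat_lit 0x1394018000000474019)))) (Tree.br (nat_lit 1507) (Tree.tip (nat_lit 1506) (Node.img (nat_lit 0x3c000020) (nat_lit 0x700004200001e) (nat_lit 440) (nat_lit 4) (nat_lit 128) (nat_lit 128))) (Tree.tip (nat_lit 1507) (Node.mv (nat_lit 0x38000020) (nat_lit 0x700004600005e) (nat_lit 26) (nat_lit 1) (nat_lit 0x5e2401800000028401a))))) (Tree.br (nat_lit 1510) (Tree.br (nat_lit 1509) (Tree.tip (nat_lit 1508) (Node.img (nat_lit 0x200003c000000) (nat_lit 0x1000002000070) (nat_lit 259) (nat_lit 7) (nat_lit 134) (nat_lit 130))) (Tree.tip (nat_lit 1509) (Node.img (nat_lit 0x200003c) (nat_lit 0x71000002) (nat_lit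 174) (nat_lit 7) (nat_lit 134) (nat_lit 129)))) (Tree.br (nat_lit 1511) (Tree.tip (nat_lit 1510) (Node.mv (nat_lit 0x200001c000000) (nat_lit 0xf10000620000f0) (nat_lit 29) (nat_lit 2) (nat_lit 0x5e541180000007c401a000005e44018))) (Tree.tip (nat_lit 1511) (Node.img (nat_lit 0x10000010000038000000000000000000) (nat_lit 0x800004400000f000008000008) (nat_lit 327) (nat_lit 2) (nat_lit 128) (nat_lit 133)))))) (Tree.br (nat_lit 1516) (Tree.br (nat_lit 1514) (Tree.br (nat_lit 1513) (Tree.tip (nat_lit 1512) (Node.mv (nat_lit 0x10000038000020000000000000) (nat_lit 0x1000001000000800004400000f000008000008) (nat_lit 124) (nat_lit 1) (nat_lit 0x5e740180000000b421c))) (Tree.tip (nat_lit 1513) (Node.mv (nat_lit 0x400000e00000a) (nat_lit 0x2000031000034) (nat_lit 28) (nat_lit 1) (nat_lit 0x5f4018000004104019)))) (Tree.br (nat_lit 1515) (Tree.tip (nat_lit 1514) (Node.img (nat_lit 0x6000006000002000001000000) (nat_lit 0x2000003) (nat_lit 240) (nat_lit 6) (nat_lit 130) (nat_lit 128))) (Tree.tip (nat_lit 1515) (Node.mv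 (nat_lit 0xe000004000004000002000000) (nat_lit 0x1000038000000000004000006) (nat_lit 75) (nat_lit 1) (nat_lit 0x5ea40190000004d4318))))) (Tree.br (nat_lit 1518) (Tree.br (nat_lit 1517) (Tree.tip (nat_lit 1516) (Node.mv (nat_lit 0x400000e000004000004000000000000) (nat_lit 0x1000038000002000006000006) (nat_lit 25) (nat_lit 1) (nat_lit 0x5eb4018000000024119))) (Tree.tip (nat_lit 1517) (Node.mv (nat_lit 0x1000001e000000000008000000) (nat_lit 0x1000038000000000008) (nat_lit 51) (nat_lit 1) (nat_lit 0x5f421800000041401b)))) (Tree.br (nat_lit 1519) (Tree.tip (nat_lit 1518) (Node.mv (nat_lit 0x800001c000014000000000000) (nat_lit 0x6b000036000014) (nat_lit 51) (nat_lit 1) (nat_lit 0x2824019000003c84018))) (Tree.tip (nat_lit 1519) (Node.mv (nat_lit 0x1000000800000c000008000000) (nat_lit 0x74000003000000000008) (nat_lit 76) (nat_lit 1) (nat_lit 0xa8421800000041401b))))))) (Tree.br (nat_lit 1528) (Tree.br (nat_lit 1524) (Tree.br (nat_lit 1522) (Tree.br (nat_lit 1521) (Tree.tip (nat_lit 1520) (Node.mv (nat_lit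 0x1000001e000010000010000000) (nat_lit 0x10000000000001000008000008000008) (nat_lit 51) (nat_lit 1) (nat_lit 0x3a401b000000274218))) (Tree.tip (nat_lit 1521) (Node.img (nat_lit 0x2000003000003000000) (nat_lit 0x2000002000000000000000000000001) (nat_lit 38) (nat_lit 6) (nat_lit 129) (nat_lit 128)))) (Tree.br (nat_lit 1523) (Tree.tip (nat_lit 1522) (Node.mv (nat_lit 0x1c00001c000000) (nat_lit 0x1000001000001000000000006300000f) (nat_lit 76) (nat_lit 1) (nat_lit 0x26e4018000005f1401b))) (Tree.tip (nat_lit 1523) (Node.mv (nat_lit 0xc00001e000000000008) (nat_lit 0x400000400000000000000000b000000) (nat_lit 98) (nat_lit 1) (nat_lit 0x25b411800000135401a))))) (Tree.br (nat_lit 1526) (Tree.br (nat_lit 1525) (Tree.tip (nat_lit 1524) (Node.mv (nat_lit 0x3000007000002000000000000) (nat_lit 0x6000006000006000000000000000004000006000006) (nat_lit 121) (nat_lit 2) (nat_lit 0x19d40180000049c42180000008d4119))) (Tree.tip (nat_lit 1525) (Node.mv (nat_lit 0x800000c00000c000008000000000000) (nat_lit 0x3000030000010000018000018)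 (nat_lit 97) (nat_lit 1) (nat_lit 0x19d401a0000004d4318)))) (Tree.br (nat_lit 1527) (Tree.tip (nat_lit 1526) (Node.mv (nat_lit 0x800000c00000c000008) (nat_lit 0x18000018000010000003000030000000) (nat_lit 49) (nat_lit 1) (nat_lit 0x49c401a0000004d4118))) (Tree.tip (nat_lit 1527) (Node.mv (nat_lit 0x3000002000003000003000000) (nat_lit 0x4000004000005000000000000000002) (nat_lit 1) (nat_lit 1) (nat_lit 0x1ee40190000034a4018)))))) (Tree.br (nat_lit 1532) (Tree.br (nat_lit 1530) (Tree.br (nat_lit 1529) (Tree.tip (nat_lit 1528) (Node.mv (nat_lit 0x2000002000003000003000000) (nat_lit 0x5000005000005000000000000000002) (nat_lit 96) (nat_lit 1) (nat_lit 0x5f740180000000e4118))) (Tree.tip (nat_lit 1529) (Node.mv (nat_lit 0x1a000018000008000000000000) (nat_lit 0x8000001000027000007000004000004) (nat_lit 74) (nat_lit 1) (nat_lit 0x384018000000c24318)))) (Tree.br (nat_lit 1531) (Tree.tip (nat_lit 1530) (Node.img (nat_lit 0x400000e000004000000000000) (nat_lit 0x4000000000001000038000008000008) (nat_lit 56) (nat_lit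 1) (nat_lit 133) (nat_lit 128))) (Tree.tip (nat_lit 1531) (Node.mv (nat_lit 0x7000006000004000000000000) (nat_lit 0x4000000000019000038000008000008) (nat_lit 75) (nat_lit 1) (nat_lit 0x5fa4018000000254318))))) (Tree.br (nat_lit 1534) (Tree.br (nat_lit 1533) (Tree.tip (nat_lit 1532) (Node.img (nat_lit 0x7000006000004000004000000) (nat_lit 0x5000000000000000002000002000002) (nat_lit 963) (nat_lit 4) (nat_lit 128) (nat_lit 128))) (Tree.tip (nat_lit 1533) (Node.mv (nat_lit 0x7000004000004000004000000) (nat_lit 0x5000000000002000002000002000006) (nat_lit 73) (nat_lit 1) (nat_lit 0x5fc4018000000084019)))) (Tree.br (nat_lit 1535) (Tree.tip (nat_lit 1534) (Node.img (nat_lit 0x2000003000002000002000000000000) (nat_lit 0x2000002000000000000000001000005000006000006) (nat_lit 408) (nat_lit 3) (nat_lit 130) (nat_lit 135))) (Tree.tip (nat_lit 1535) (Node.mv (nat_lit 0xe000008000008000000000000) (nat_lit 0x8000018000018000001000004000014000018000018) (nat_lit 123) (nat_lit 1) (nat_lit 0x5fe401a000002474218))))))))))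
noncomputable def t0_12 : Tree := (Tree.br (nat_lit 1600) (Tree.br (nat_lit 1568) (Tree.br (nat_lit 1552) (Tree.br (nat_lit 1544) (Tree.br (nat_lit 1540) (Tree.br (nat_lit 1538) (Tree.br (nat_lit 1537) (Tree.tip (nat_lit 1536) (Node.img (nat_lit 0x4000007000006000004) (nat_lit 0xa00001a000000000000000000) (nat_lit 644) (nat_lit 4) (nat_lit 128) (nat_lit 128))) (Tree.tip (nat_lit 1537) (Node.mv (nat_lit 0x4000007000006000000000000000000) (nat_lit 0xa00001a000000000000000006000006000006) (nat_lit 50) (nat_lit 2) (nat_lit 0x4e040190000060042180000002e4019)))) (Tree.br (nat_lit 1539) (Tree.tip (nat_lit 1538) (Node.mv (nat_lit 0x7000004000006000000) (nat_lit 0xa00001e000000000000000000000002) (nat_lit 98) (nat_lit 1) (nat_lit 0x3594118000000014019))) (Tree.tip (nat_lit 1539) (Node.mv (nat_lit 0x1f000010000018000000) (nat_lit 0x18000000000000000000000008) (nat_lit 100) (nat_lit 1) (nat_lit 0x21431800000001401b))))) (Tree.br (nat_lit 1542) (Tree.br (nat_lit 1541) (Tree.tip (nat_lit 1540) (Node.mv (nat_lit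 0x3c000020000030000000) (nat_lit 0x30000002000007000000000010) (nat_lit 73) (nat_lit 1) (nat_lit 0x60340190000006e4218))) (Tree.tip (nat_lit 1541) (Node.mv (nat_lit 0xe00000800000c000000) (nat_lit 0x18000018000001000014000010000010) (nat_lit 99) (nat_lit 1) (nat_lit 0x3c401a000002474118)))) (Tree.br (nat_lit 1543) (Tree.tip (nat_lit 1542) (Node.mv (nat_lit 0x1c000010000000000000) (nat_lit 0x8000008000018000003000028000010000010) (nat_lit 99) (nat_lit 2) (nat_lit 0x350401b00000205421800000234401b))) (Tree.tip (nat_lit 1543) (Node.mv (nat_lit 0xe000008000008000000) (nat_lit 0x18000018000001000074000010000010) (nat_lit 99) (nat_lit 1) (nat_lit 0x24f4019000002474118)))))) (Tree.br (nat_lit 1548) (Tree.br (nat_lit 1546) (Tree.br (nat_lit 1545) (Tree.tip (nat_lit 1544) (Node.mv (nat_lit 0x400000e000000000002000000) (nat_lit 0x4000003000030000002000000000002) (nat_lit 97) (nat_lit 1) (nat_lit 0x264318000005da4019))) (Tree.tip (nat_lit 1545) (Node.mv (nat_lit 0x1800000c00000c000000000000) (nat_lit 0x4000024000003000000000008000008)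 (nat_lit 98) (nat_lit 1) (nat_lit 0x234318000000b7401a)))) (Tree.br (nat_lit 1547) (Tree.tip (nat_lit 1546) (Node.img (nat_lit 0x2000002000003000002000002000000) (nat_lit 0x6000006000004000001000000000000000000000002) (nat_lit 522) (nat_lit 1) (nat_lit 130) (nat_lit 128))) (Tree.tip (nat_lit 1547) (Node.mv (nat_lit 0x2000003000002000002000000) (nat_lit 0x6000006000006000001000000000001000001000003) (nat_lit 121) (nat_lit 1) (nat_lit 0x60a4018000000034018))))) (Tree.br (nat_lit 1550) (Tree.br (nat_lit 1549) (Tree.tip (nat_lit 1548) (Node.img (nat_lit 0xf000004000004) (nat_lit 0x800000800001c000000000000000000) (nat_lit 136) (nat_lit 1) (nat_lit 132) (nat_lit 128))) (Tree.tip (nat_lit 1549) (Node.mv (nat_lit 0xf000004000004) (nat_lit 0xa00000a00001e000000000002000000) (nat_lit 73) (nat_lit 2) (nat_lit 0xc40190000060c4018000001044019)))) (Tree.br (nat_lit 1551) (Tree.tip (nat_lit 1550) (Node.mv (nat_lit 0x400000400000000000e000001) (nat_lit 0x4000010000002) (nat_lit 1) (nat_lit 1) (nat_lit 0x24a4019000000184018)))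 (Tree.tip (nat_lit 1551) (Node.mv (nat_lit 0x600000f000004000000000000) (nat_lit 0x8000018000000000000000004000004) (nat_lit 99) (nat_lit 1) (nat_lit 0x8040190000002a4318))))))) (Tree.br (nat_lit 1560) (Tree.br (nat_lit 1556) (Tree.br (nat_lit 1554) (Tree.br (nat_lit 1553) (Tree.tip (nat_lit 1552) (Node.mv (nat_lit 0x1000000800000c000008000000) (nat_lit 0x70000013000000000008) (nat_lit 76) (nat_lit 1) (nat_lit 0x1f421800000041401b))) (Tree.tip (nat_lit 1553) (Node.mv (nat_lit 0x3e000008) (nat_lit 0xc1000014) (nat_lit 30) (nat_lit 1) (nat_lit 0x12a401800000067401a)))) (Tree.br (nat_lit 1555) (Tree.tip (nat_lit 1554) (Node.img (nat_lit 0xc000005000004000004000000) (nat_lit 0x2000012000002000000000000000004) (nat_lit 1382) (nat_lit 5) (nat_lit 128) (nat_lit 133))) (Tree.tip (nat_lit 1555) (Node.mv (nat_lit 0x4000005000004000004000000) (nat_lit 0xa00001a000002000000000000000004) (nat_lit 99) (nat_lit 1) (nat_lit 0x612401800000031411a))))) (Tree.br (nat_lit 1558) (Tree.br (nat_lit 1557) (Tree.tip (nat_lit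 1556) (Node.mv (nat_lit 0x7000005000005000000) (nat_lit 0x2000003000000000002000000000004) (nat_lit 97) (nat_lit 1) (nat_lit 0xff4118000000084019))) (Tree.tip (nat_lit 1557) (Node.img (nat_lit 0x400000e000002) (nat_lit 0x3000030000001) (nat_lit 59) (nat_lit 5) (nat_lit 128) (nat_lit 130)))) (Tree.br (nat_lit 1559) (Tree.tip (nat_lit 1558) (Node.mv (nat_lit 0x800000e00000a000000000000) (nat_lit 0x4000007000030000001000008000008) (nat_lit 98) (nat_lit 1) (nat_lit 0x61542180000002e401a))) (Tree.tip (nat_lit 1559) (Node.mv (nat_lit 0x800000e00000c000000000000) (nat_lit 0x10000030000030000003000008000008) (nat_lit 76) (nat_lit 1) (nat_lit 0x5584019000000234218)))))) (Tree.br (nat_lit 1564) (Tree.br (nat_lit 1562) (Tree.br (nat_lit 1561) (Tree.tip (nat_lit 1560) (Node.img (nat_lit 0x100000e000002) (nat_lit 0x2000010000001) (nat_lit 50) (nat_lit 7) (nat_lit 132) (nat_lit 130))) (Tree.tip (nat_lit 1561) (Node.mv (nat_lit 0x9000007000002) (nat_lit 0x12000018000001) (nat_lit 27) (nat_lit 1) (nat_lit 0x61840180000002a4118))))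 (Tree.br (nat_lit 1563) (Tree.tip (nat_lit 1562) (Node.img (nat_lit 0x1000003000001000001000001000000) (nat_lit 0x1000001000000000000000002000002000000000001) (nat_lit 379) (nat_lit 2) (nat_lit 128) (nat_lit 135))) (Tree.tip (nat_lit 1563) (Node.mv (nat_lit 0x2000006000002000002000002000000) (nat_lit 0x2000002000000000000000004000005000001000002) (nat_lit 48) (nat_lit 1) (nat_lit 0x61a4019000000014118))))) (Tree.br (nat_lit 1566) (Tree.br (nat_lit 1565) (Tree.tip (nat_lit 1564) (Node.mv (nat_lit 0x6000002000002000002000000) (nat_lit 0x2000003000003000001000004000005000001000002) (nat_lit 121) (nat_lit 1) (nat_lit 0x61b4018000000104118))) (Tree.tip (nat_lit 1565) (Node.mv (nat_lit 0x2000002000002000002000000) (nat_lit 0x2000003000007000005000004000005000001000002) (nat_lit 98) (nat_lit 1) (nat_lit 0x61c4018000000314119)))) (Tree.br (nat_lit 1567) (Tree.tip (nat_lit 1566) (Node.img (nat_lit 0x2000000000002000002000002) (nat_lit 0x5000005000007000000000000000000) (nat_lit 249) (nat_lit 5) (nat_lit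 128) (nat_lit 133))) (Tree.tip (nat_lit 1567) (Node.mv (nat_lit 0x38000008000008) (nat_lit 0x1400001c00001c000044000007000000) (nat_lit 99) (nat_lit 1) (nat_lit 0x61e401a000000714118)))))))) (Tree.br (nat_lit 1584) (Tree.br (nat_lit 1576) (Tree.br (nat_lit 1572) (Tree.br (nat_lit 1570) (Tree.br (nat_lit 1569) (Tree.tip (nat_lit 1568) (Node.mv (nat_lit 0x200001c000004000004) (nat_lit 0x800000800003d000003000000000000) (nat_lit 49) (nat_lit 1) (nat_lit 0x4574018000000244218))) (Tree.tip (nat_lit 1569) (Node.img (nat_lit 0x200001c000004000004) (nat_lit 0xa00000d000000000000000000) (nat_lit 646) (nat_lit 7) (nat_lit 132) (nat_lit 132)))) (Tree.br (nat_lit 1571) (Tree.tip (nat_lit 1570) (Node.mv (nat_lit 0x1c000004000004) (nat_lit 0xa0000ef0000600000e2000000) (nat_lit 73) (nat_lit 2) (nat_lit 0x6214018000000834119000000b64019))) (Tree.tip (nat_lit 1571) (Node.mv (nat_lit 0x1c000004000004) (nat_lit 0xa0000ff0000620000f0000000) (nat_lit 73) (nat_lit 2) (nat_lit 0x6214018000005e64118000000b64019))))) (Tree.br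 (nat_lit 1574) (Tree.br (nat_lit 1573) (Tree.tip (nat_lit 1572) (Node.mv (nat_lit 0x200001c000004000004) (nat_lit 0x800000a00003c000003000003000000) (nat_lit 49) (nat_lit 2) (nat_lit 0x2854018000004574018000001044019))) (Tree.tip (nat_lit 1573) (Node.mv (nat_lit 0x1c000004000004) (nat_lit 0x800000a00003f000003000003000000) (nat_lit 73) (nat_lit 3) (nat_lit 0x6204018000006244018000002864018000006214018)))) (Tree.br (nat_lit 1575) (Tree.tip (nat_lit 1574) (Node.img (nat_lit 0xe000002) (nat_lit 0x38000011000039) (nat_lit 306) (nat_lit 1) (nat_lit 133) (nat_lit 128))) (Tree.tip (nat_lit 1575) (Node.mv (nat_lit 0x18000008000008) (nat_lit 0x1400001c0001fe0000e60001e7000000) (nat_lit 53) (nat_lit 4) (nat_lit 0x62340190000062540190000062240190000061f401800000626411a)))))) (Tree.br (nat_lit 1580) (Tree.br (nat_lit 1578) (Tree.br (nat_lit 1577) (Tree.tip (nat_lit 1576) (Node.mv (nat_lit 0x3c000008000008) (nat_lit 0x400000400000e000003000033000000) (nat_lit 25) (nat_lit 1) (nat_lit 0x884019000000684118)))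 (Tree.tip (nat_lit 1577) (Node.mv (nat_lit 0x38000008000008) (nat_lit 0x400000400000e000007000037000000) (nat_lit 50) (nat_lit 2) (nat_lit 0x62840180000006f4118000001424019)))) (Tree.br (nat_lit 1579) (Tree.tip (nat_lit 1578) (Node.img (nat_lit 0x38000008000008000000) (nat_lit 0x6000007000037000000000008) (nat_lit 604) (nat_lit 2) (nat_lit 128) (nat_lit 132))) (Tree.tip (nat_lit 1579) (Node.mv (nat_lit 0x18000008000008000000) (nat_lit 0x1c60000e70001f7000000000008) (nat_lit 77) (nat_lit 3) (nat_lit 0x225401900000083421a0000062a401800000072421a))))) (Tree.br (nat_lit 1582) (Tree.br (nat_lit 1581) (Tree.tip (nat_lit 1580) (Node.mv (nat_lit 0x16000004000004) (nat_lit 0x2000002000073000028000072000000) (nat_lit 51) (nat_lit 2) (nat_lit 0x7c41190000006d40180000022b4119))) (Tree.tip (nat_lit 1581) (Node.mv (nat_lit 0x1e000008) (nat_lit 0x700000e1000014) (nat_lit 29) (nat_lit 1) (nat_lit 0x6114018000000794119)))) (Tree.br (nat_lit 1583) (Tree.tip (nat_lit 1582) (Node.mv (nat_lit 0xe000008000008) (nat_lit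 0x100000770000f0000034000000) (nat_lit 52) (nat_lit 2) (nat_lit 0x2394118000000d74218000002bd4019))) (Tree.tip (nat_lit 1583) (Node.img (nat_lit 0x38000020) (nat_lit 0x6000057) (nat_lit 53) (nat_lit 4) (nat_lit 128) (nat_lit 128))))))) (Tree.br (nat_lit 1592) (Tree.br (nat_lit 1588) (Tree.br (nat_lit 1586) (Tree.br (nat_lit 1585) (Tree.tip (nat_lit 1584) (Node.img (nat_lit 0xe000008) (nat_lit 0x77000031000030) (nat_lit 86) (nat_lit 2) (nat_lit 128) (nat_lit 130))) (Tree.tip (nat_lit 1585) (Node.mv (nat_lit 0x30000020000020) (nat_lit 0x400001de0003ce0003d7000000) (nat_lit 51) (nat_lit 3) (nat_lit 0x62e401a000002e6411800000630411a0000062f4118)))) (Tree.br (nat_lit 1587) (Tree.tip (nat_lit 1586) (Node.img (nat_lit 0x38000020) (nat_lit 0x7000006000047) (nat_lit 91) (nat_lit 4) (nat_lit 128) (nat_lit 128))) (Tree.tip (nat_lit 1587) (Node.mv (nat_lit 0x30000020000020000000000000000000) (nat_lit 0x1700000e000047000000000070000070000050) (nat_lit 123) (nat_lit 1) (nat_lit 0x63244180000005b401c))))) (Tree.br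 (nat_lit 1590) (Tree.br (nat_lit 1589) (Tree.tip (nat_lit 1588) (Node.img (nat_lit 0x2000002000002000000000002000000) (nat_lit 0x7000005000005) (nat_lit 249) (nat_lit 4) (nat_lit 128) (nat_lit 128))) (Tree.tip (nat_lit 1589) (Node.mv (nat_lit 0x3c000020000020000000000000000000) (nat_lit 0x2000017000000000070000070000050) (nat_lit 29) (nat_lit 2) (nat_lit 0x26a441800000634401c000002424119)))) (Tree.br (nat_lit 1591) (Tree.tip (nat_lit 1590) (Node.img (nat_lit 0x1e000010000010000010) (nat_lit 0x27000020000000000000000000) (nat_lit 354) (nat_lit 3) (nat_lit 133) (nat_lit 132))) (Tree.tip (nat_lit 1591) (Node.mv (nat_lit 0x1e000010000010000000000000000000) (nat_lit 0x27000020000008000000000018000018000008) (nat_lit 52) (nat_lit 1) (nat_lit 0x636421800000034401b)))))) (Tree.br (nat_lit 1596) (Tree.br (nat_lit 1594) (Tree.br (nat_lit 1593) (Tree.tip (nat_lit 1592) (Node.mv (nat_lit 0x38000020000020000000000000000000) (nat_lit 0x4f000046000017000000000070000070000050) (nat_lit 122) (nat_lit 3) (nat_lit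 0x6374019000000db4418000006354018000002f24418))) (Tree.tip (nat_lit 1593) (Node.img (nat_lit 0x1e00000c000008000000000000) (nat_lit 0x300000000000000000400000c00000c) (nat_lit 1157) (nat_lit 6) (nat_lit 132) (nat_lit 128)))) (Tree.br (nat_lit 1595) (Tree.tip (nat_lit 1594) (Node.mv (nat_lit 0x1e000008000008000000000000) (nat_lit 0x300006000007400000400000c00000c) (nat_lit 74) (nat_lit 1) (nat_lit 0x6394018000003824319))) (Tree.tip (nat_lit 1595) (Node.mv (nat_lit 0xe000008000008000000000000) (nat_lit 0x1000003300007000007400000400000c00000c) (nat_lit 100) (nat_lit 2) (nat_lit 0x2bd42190000063a4018000000754119))))) (Tree.br (nat_lit 1598) (Tree.br (nat_lit 1597) (Tree.tip (nat_lit 1596) (Node.img (nat_lit 0x800001e000008000008) (nat_lit 0x4000007000020000000000000) (nat_lit 1231) (nat_lit 5) (nat_lit 128) (nat_lit 132))) (Tree.tip (nat_lit 1597) (Node.mv (nat_lit 0x1e000008000008) (nat_lit 0x1400001f000021000000000000) (nat_lit 75) (nat_lit 1) (nat_lit 0x63c4018000002474018)))) (Tree.br (nat_lit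 1599) (Tree.tip (nat_lit 1598) (Node.img (nat_lit 0x3c000010) (nat_lit 0xe70000c3000008) (nat_lit 563) (nat_lit 1) (nat_lit 135) (nat_lit 128))) (Tree.tip (nat_lit 1599) (Node.mv (nat_lit 0x1c000010000010) (nat_lit 0x280000280000ff0000e3000008000000) (nat_lit 53) (nat_lit 3) (nat_lit 0x63d40190000060d401a0000063e41180000023e4019))))))))) (Tree.br (nat_lit 1632) (Tree.br (nat_lit 1616) (Tree.br (nat_lit 1608) (Tree.br (nat_lit 1604) (Tree.br (nat_lit 1602) (Tree.br (nat_lit 1601) (Tree.tip (nat_lit 1600) (Node.mv (nat_lit 0x38000020000020000000) (nat_lit 0xce000046000017000000000020) (nat_lit 78) (nat_lit 1) (nat_lit 0x237421800000075401b))) (Tree.tip (nat_lit 1601) (Node.mv (nat_lit 0x78000020000020000000) (nat_lit 0x3e000006000007000000000020) (nat_lit 74) (nat_lit 1) (nat_lit 0x2e44018000000694319)))) (Tree.br (nat_lit 1603) (Tree.tip (nat_lit 1602) (Node.mv (nat_lit 0x38000020000020000000) (nat_lit 0xfe000046000007000000000020) (nat_lit 78) (nat_lit 2) (nat_lit 0x6414018000001cd431900000033401c)))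 (Tree.tip (nat_lit 1603) (Node.img (nat_lit 0x3000002000002000000) (nat_lit 0x1000003000000000001000000000002) (nat_lit 23) (nat_lit 6) (nat_lit 129) (nat_lit 128))))) (Tree.br (nat_lit 1606) (Tree.br (nat_lit 1605) (Tree.tip (nat_lit 1604) (Node.mv (nat_lit 0x38000020000020000000) (nat_lit 0x1000003e000046000017000000000020) (nat_lit 78) (nat_lit 2) (nat_lit 0x641401800000237421800000643401c))) (Tree.tip (nat_lit 1605) (Node.img (nat_lit 0xf000008000008000000) (nat_lit 0x400001c000000000000000000000008) (nat_lit 177) (nat_lit 5) (nat_lit 128) (nat_lit 133)))) (Tree.br (nat_lit 1607) (Tree.tip (nat_lit 1606) (Node.mv (nat_lit 0x38000020000020000000) (nat_lit 0x10000070000006000017000000000020) (nat_lit 74) (nat_lit 3) (nat_lit 0x645401a000001fb40190000026b421800000643401c))) (Tree.tip (nat_lit 1607) (Node.mv (nat_lit 0x1e000008000008) (nat_lit 0x1400003f000020000000000000) (nat_lit 75) (nat_lit 1) (nat_lit 0x63c4018000001434019)))))) (Tree.br (nat_lit 1612) (Tree.br (nat_lit 1610) (Tree.br (nat_lit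 1609) (Tree.tip (nat_lit 1608) (Node.mv (nat_lit 0xe000008000008000000) (nat_lit 0x1400003f000030000004000000000008) (nat_lit 76) (nat_lit 3) (nat_lit 0x647411800000075401900000643401a00000033401a))) (Tree.tip (nat_lit 1609) (Node.mv (nat_lit 0x30000020000020000000) (nat_lit 0x500000500001fe0001ce000017000000000020) (nat_lit 75) (nat_lit 5) (nat_lit 0x63f411900000644401800000642401800000640401800000648401a000006464018)))) (Tree.br (nat_lit 1611) (Tree.tip (nat_lit 1610) (Node.mv (nat_lit 0x16000004000004) (nat_lit 0x2000007000028000072000000) (nat_lit 51) (nat_lit 2) (nat_lit 0xdc41180000014240180000022b4119))) (Tree.tip (nat_lit 1611) (Node.mv (nat_lit 0xb000002000002000000000000000000) (nat_lit 0x3c000014000039000000000003000003000001) (nat_lit 122) (nat_lit 2) (nat_lit 0x7c4418000004e340180000022b4418))))) (Tree.br (nat_lit 1614) (Tree.br (nat_lit 1613) (Tree.tip (nat_lit 1612) (Node.mv (nat_lit 0x1e000004000004000002) (nat_lit 0x2000007000000000000000002000000) (nat_lit 98) (nat_lit 1) (nat_lit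 0x864118000000024019))) (Tree.tip (nat_lit 1613) (Node.mv (nat_lit 0x1e000004000004000000000000000000) (nat_lit 0x2000002000007000000000002000002000002000002000002) (nat_lit 49) (nat_lit 2) (nat_lit 0x64c42180000006d43180000020d4019)))) (Tree.br (nat_lit 1615) (Tree.tip (nat_lit 1614) (Node.mv (nat_lit 0x16000004000004000000000000000000) (nat_lit 0x2000002000007000028000072000002000002000002000002) (nat_lit 123) (nat_lit 2) (nat_lit 0xdc44180000064d40180000022b4419))) (Tree.tip (nat_lit 1615) (Node.mv (nat_lit 0x16000004000004) (nat_lit 0x800000800003c000029000072000000) (nat_lit 51) (nat_lit 1) (nat_lit 0x45740180000022b4119))))))) (Tree.br (nat_lit 1624) (Tree.br (nat_lit 1620) (Tree.br (nat_lit 1618) (Tree.br (nat_lit 1617) (Tree.tip (nat_lit 1616) (Node.mv (nat_lit 0x16000004000004) (nat_lit 0x800000800007f000029000070000000) (nat_lit 51) (nat_lit 2) (nat_lit 0xdc41180000045740180000007c4119))) (Tree.tip (nat_lit 1617) (Node.mv (nat_lit 0xc000008000008000000000000000000) (nat_lit 0x1400001c0000fe0000730000e4000004000004000004000004)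 (nat_lit 125) (nat_lit 4) (nat_lit 0x65043190000064e40190000064f43190000020e42180000062c4319)))) (Tree.br (nat_lit 1619) (Tree.tip (nat_lit 1618) (Node.mv (nat_lit 0x6000004000004000000000000000000) (nat_lit 0x200000200007b000038000072000000000006000006000002) (nat_lit 124) (nat_lit 3) (nat_lit 0x64b40190000062c4318000005174219000000354019))) (Tree.tip (nat_lit 1619) (Node.img (nat_lit 0x3000002000002000000000000000000) (nat_lit 0x2000000000001000005000007000007000005) (nat_lit 90) (nat_lit 6) (nat_lit 130) (nat_lit 128))))) (Tree.br (nat_lit 1622) (Tree.br (nat_lit 1621) (Tree.tip (nat_lit 1620) (Node.img (nat_lit 0x2000002000002000000000000000000) (nat_lit 0x4000006000004000000000005000007000007000005) (nat_lit 1449) (nat_lit 7) (nat_lit 130) (nat_lit 135))) (Tree.tip (nat_lit 1621) (Node.mv (nat_lit 0x6000004000004000000000000000000) (nat_lit 0x800000800007c00003900007200000a00000e00000e00000a) (nat_lit 124) (nat_lit 3) (nat_lit 0x64b40190000065440190000064f4318000006534019)))) (Tree.br (nat_lit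 1623) (Tree.tip (nat_lit 1622) (Node.mv (nat_lit 0x16000004000004000000) (nat_lit 0x73000028000070000000000004) (nat_lit 75) (nat_lit 1) (nat_lit 0x7c4219000002234018))) (Tree.tip (nat_lit 1623) (Node.mv (nat_lit 0x6000004000004000000000000000000) (nat_lit 0x200007700003800007200000a00000e00000e00000a) (nat_lit 124) (nat_lit 3) (nat_lit 0x65642180000065340190000064a4318000000354019)))))) (Tree.br (nat_lit 1628) (Tree.br (nat_lit 1626) (Tree.br (nat_lit 1625) (Tree.tip (nat_lit 1624) (Node.img (nat_lit 0x3000002000002000000000000000000) (nat_lit 0x1000000000001000000000006000006000004) (nat_lit 54) (nat_lit 1) (nat_lit 130) (nat_lit 128))) (Tree.tip (nat_lit 1625) (Node.img (nat_lit 0x3000002000002000000000000) (nat_lit 0x3000000000000000005000007000005) (nat_lit 306) (nat_lit 4) (nat_lit 128) (nat_lit 128)))) (Tree.br (nat_lit 1627) (Tree.tip (nat_lit 1626) (Node.mv (nat_lit 0xc000008000008000000000000000000) (nat_lit 0x1400001c00003c00002300000400001400001c00001c000014) (nat_lit 125) (nat_lit 4)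 (nat_lit 0x653401a00000659411a00000658401a0000020e421800000035401a))) (Tree.tip (nat_lit 1627) (Node.mv (nat_lit 0x6000004000004000000000000000000) (nat_lit 0x800000800007f00003900007000000a00000e00000e00000a) (nat_lit 124) (nat_lit 2) (nat_lit 0x65440190000065043180000005b4019))))) (Tree.br (nat_lit 1630) (Tree.br (nat_lit 1629) (Tree.tip (nat_lit 1628) (Node.mv (nat_lit 0x38000020000020) (nat_lit 0x400000400000ee000046000017000000) (nat_lit 54) (nat_lit 1) (nat_lit 0x23741180000060c401b))) (Tree.tip (nat_lit 1629) (Node.mv (nat_lit 0x30000020000020000000000000000000) (nat_lit 0x400000400000fe00004e000017000000000030000030000010) (nat_lit 123) (nat_lit 2) (nat_lit 0x64242180000065c431800000035401c)))) (Tree.br (nat_lit 1631) (Tree.tip (nat_lit 1630) (Node.mv (nat_lit 0x38000020000020000000) (nat_lit 0x5e000046000017000000000020) (nat_lit 78) (nat_lit 1) (nat_lit 0x237421800000033401c))) (Tree.tip (nat_lit 1631) (Node.img (nat_lit 0x1000001e000010000010) (nat_lit 0x8000008000001000000000000) (nat_lit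 302) (nat_lit 4) (nat_lit 128) (nat_lit 128)))))))) (Tree.br (nat_lit 1648) (Tree.br (nat_lit 1640) (Tree.br (nat_lit 1636) (Tree.br (nat_lit 1634) (Tree.br (nat_lit 1633) (Tree.tip (nat_lit 1632) (Node.mv (nat_lit 0x1000001c000010000010000000) (nat_lit 0x8000018000008000003000008000008000008) (nat_lit 73) (nat_lit 3) (nat_lit 0x5f040180000065f4118000000ea401b000000224218))) (Tree.tip (nat_lit 1633) (Node.img (nat_lit 0x2000002000002000002000000) (nat_lit 0x4000007000005000000000001000001000001) (nat_lit 145) (nat_lit 1) (nat_lit 130) (nat_lit 128)))) (Tree.br (nat_lit 1635) (Tree.tip (nat_lit 1634) (Node.mv (nat_lit 0x1c000010000010000000) (nat_lit 0x28000038000038000003000008000008000008) (nat_lit 100) (nat_lit 2) (nat_lit 0x661401b000006604018000002474119))) (Tree.tip (nat_lit 1635) (Node.img (nat_lit 0x2000003000002000002000000000000) (nat_lit 0x2000000000000000001000005000007000006) (nat_lit 147) (nat_lit 1) (nat_lit 130) (nat_lit 128))))) (Tree.br (nat_lit 1638) (Tree.br (nat_lit 1637) (Tree.tip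 (nat_lit 1636) (Node.mv (nat_lit 0xe000008000008000000000000) (nat_lit 0x1800001800000100000400001400001c000018) (nat_lit 123) (nat_lit 1) (nat_lit 0x663401a000002474218))) (Tree.tip (nat_lit 1637) (Node.mv (nat_lit 0x1c000010000010000000000000) (nat_lit 0x8000018000018000003000008000028000038000030) (nat_lit 124) (nat_lit 2) (nat_lit 0x660411800000663401b0000000f411b)))) (Tree.br (nat_lit 1639) (Tree.tip (nat_lit 1638) (Node.img (nat_lit 0xe000008000008000000) (nat_lit 0x1400001c000001000000000000000008) (nat_lit 508) (nat_lit 4) (nat_lit 128) (nat_lit 128))) (Tree.tip (nat_lit 1639) (Node.img (nat_lit 0x3000002000002000000000000) (nat_lit 0x6000007000007000000000001000001000003000003) (nat_lit 161) (nat_lit 1) (nat_lit 130) (nat_lit 128)))))) (Tree.br (nat_lit 1644) (Tree.br (nat_lit 1642) (Tree.br (nat_lit 1641) (Tree.tip (nat_lit 1640) (Node.mv (nat_lit 0x30000020000020000000000000) (nat_lit 0x7000007000007e00004e000017000050000070000070) (nat_lit 99) (nat_lit 5) (nat_lit 0x665401900000664401a00000662411900000667401c0000065e411800000666411a)))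 (Tree.tip (nat_lit 1641) (Node.mv (nat_lit 0x20000020000020000000000000000000) (nat_lit 0x700000700003fe0001de000397000050000070000070000050) (nat_lit 124) (nat_lit 8) (nat_lit 0x66841180000065b401b00000657401b00000655401b00000651401a0000065a401a0000064942180000065d401800000652401b)))) (Tree.br (nat_lit 1643) (Tree.tip (nat_lit 1642) (Node.img (nat_lit 0xc00000c000008000004) (nat_lit 0xa000003000030000004000000) (nat_lit 285) (nat_lit 1) (nat_lit 133) (nat_lit 128))) (Tree.tip (nat_lit 1643) (Node.mv (nat_lit 0x400000c00000800000c000000) (nat_lit 0xa00000b000030000004000000000004) (nat_lit 99) (nat_lit 1) (nat_lit 0x66a411800000001401a))))) (Tree.br (nat_lit 1646) (Tree.br (nat_lit 1645) (Tree.tip (nat_lit 1644) (Node.mv (nat_lit 0xc00000800000c000000) (nat_lit 0x8000008000013000070000013000014) (nat_lit 52) (nat_lit 2) (nat_lit 0xe6411800000538401a0000001f4118))) (Tree.tip (nat_lit 1645) (Node.img (nat_lit 0x1e000010000010) (nat_lit 0x8000038000001000000000000) (nat_lit 305) (nat_lit 4) (nat_lit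 128) (nat_lit 128)))) (Tree.br (nat_lit 1647) (Tree.tip (nat_lit 1646) (Node.mv (nat_lit 0x38000020000020) (nat_lit 0x100000ff000046000007000000) (nat_lit 50) (nat_lit 2) (nat_lit 0xd74219000000db41180000066d4019))) (Tree.tip (nat_lit 1647) (Node.img (nat_lit 0xe00000800000c000000) (nat_lit 0x10000018000001000000000000000004) (nat_lit 275) (nat_lit 2) (nat_lit 128) (nat_lit 133))))))) (Tree.br (nat_lit 1656) (Tree.br (nat_lit 1652) (Tree.br (nat_lit 1650) (Tree.br (nat_lit 1649) (Tree.tip (nat_lit 1648) (Node.img (nat_lit 0x7000004000006000000) (nat_lit 0x400000400000800003800000800000a) (nat_lit 1112) (nat_lit 5) (nat_lit 128) (nat_lit 133))) (Tree.tip (nat_lit 1649) (Node.mv (nat_lit 0xe000008000008000000) (nat_lit 0x18000018000011000070000014000014) (nat_lit 26) (nat_lit 2) (nat_lit 0x67040190000066f4018000001aa4118)))) (Tree.br (nat_lit 1651) (Tree.tip (nat_lit 1650) (Node.mv (nat_lit 0x38000020000030000000000000000000) (nat_lit 0x30000006000017000000000010000010000010) (nat_lit 122) (nat_lit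 2) (nat_lit 0x60442180000026a44180000055a401c))) (Tree.tip (nat_lit 1651) (Node.mv (nat_lit 0xe00000800000c) (nat_lit 0x400001c00001c000001000004000000) (nat_lit 75) (nat_lit 1) (nat_lit 0x1a6401a000002474018))))) (Tree.br (nat_lit 1654) (Tree.br (nat_lit 1653) (Tree.tip (nat_lit 1652) (Node.mv (nat_lit 0x38000020) (nat_lit 0xee000046000017) (nat_lit 26) (nat_lit 1) (nat_lit 0xd741190000026a4018))) (Tree.tip (nat_lit 1653) (Node.img (nat_lit 0x4000007000004000004) (nat_lit 0x8000038000008000000000000) (nat_lit 136) (nat_lit 5) (nat_lit 128) (nat_lit 132)))) (Tree.br (nat_lit 1655) (Tree.tip (nat_lit 1654) (Node.mv (nat_lit 0x700000c000004000000) (nat_lit 0xc00003c000008000000000008000008) (nat_lit 98) (nat_lit 1) (nat_lit 0x67541180000008d401a))) (Tree.tip (nat_lit 1655) (Node.mv (nat_lit 0x7000004000004000000) (nat_lit 0xc00003c00000800003a000008000008) (nat_lit 51) (nat_lit 1) (nat_lit 0x6764018000001014218)))))) (Tree.br (nat_lit 1660) (Tree.br (nat_lit 1658) (Tree.br (nat_lit 1657) (Tree.tip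 (nat_lit 1656) (Node.img (nat_lit 0xf000008000008000008000000) (nat_lit 0x18000000000000000010000010000010) (nat_lit 354) (nat_lit 7) (nat_lit 132) (nat_lit 133))) (Tree.tip (nat_lit 1657) (Node.img (nat_lit 0xf000008000008000008000000) (nat_lit 0x18000000000000000004000004000004) (nat_lit 372) (nat_lit 5) (nat_lit 128) (nat_lit 133)))) (Tree.br (nat_lit 1659) (Tree.tip (nat_lit 1658) (Node.mv (nat_lit 0xf000008000008000000000000000000) (nat_lit 0x1800000000000000001400001c00001c000014) (nat_lit 51) (nat_lit 2) (nat_lit 0x679411800000005401a000006784118))) (Tree.tip (nat_lit 1659) (Node.mv (nat_lit 0xe000008000008000000000000000000) (nat_lit 0x800000000007400001700001c00001c000014) (nat_lit 100) (nat_lit 2) (nat_lit 0x252401800000653401a000001014419))))) (Tree.br (nat_lit 1662) (Tree.br (nat_lit 1661) (Tree.tip (nat_lit 1660) (Node.img (nat_lit 0xe000010000010000010000000) (nat_lit 0x1000008000000000000000010) (nat_lit 360) (nat_lit 3) (nat_lit 132) (nat_lit 132))) (Tree.tip (nat_lit 1661) (Node.mv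 (nat_lit 0x1e000010000010000000000000) (nat_lit 0x27000021000008000000000010000010) (nat_lit 28) (nat_lit 1) (nat_lit 0x63641180000067c4018)))) (Tree.br (nat_lit 1663) (Tree.tip (nat_lit 1662) (Node.mv (nat_lit 0x3c000020000020000000) (nat_lit 0x60000002000017000010000010) (nat_lit 28) (nat_lit 1) (nat_lit 0x26a42180000020f401a))) (Tree.tip (nat_lit 1663) (Node.mv (nat_lit 0x3c000020000020000000) (nat_lit 0x67000002000007000010000010) (nat_lit 28) (nat_lit 1) (nat_lit 0xdb42180000020f401a))))))))))
noncomputable def t0_13 : Tree := (Tree.br (nat_lit 1728) (Tree.br (nat_lit 1696) (Tree.br (nat_lit 1680) (Tree.br (nat_lit 1672) (Tree.br (nat_lit 1668) (Tree.br (nat_lit 1666) (Tree.br (nat_lit 1665) (Tree.tip (nat_lit 1664) (Node.mv (nat_lit 0x38000020000020000000) (nat_lit 0x67000006000047000010000010) (nat_lit 74) (nat_lit 1) (nat_lit 0x67f401800000028421a))) (Tree.tip (nat_lit 1665) (Node.img (nat_lit 0x3000002000002000002000000000000) (nat_lit 0x1000000000005000007000004) (nat_lit 823) (nat_lit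 6) (nat_lit 130) (nat_lit 128)))) (Tree.br (nat_lit 1667) (Tree.tip (nat_lit 1666) (Node.img (nat_lit 0x3000002000002000002000000) (nat_lit 0x2000002000002000000000001000005000004000006) (nat_lit 380) (nat_lit 3) (nat_lit 130) (nat_lit 135))) (Tree.tip (nat_lit 1667) (Node.mv (nat_lit 0x7000004000004000000000000000000) (nat_lit 0x400000400000500000000000200000a00000e00000e000008) (nat_lit 50) (nat_lit 3) (nat_lit 0x5fd4118000006824119000006814019000000064119))))) (Tree.br (nat_lit 1670) (Tree.br (nat_lit 1669) (Tree.tip (nat_lit 1668) (Node.img (nat_lit 0xe000008000008000008) (nat_lit 0x10000018000011000000000000000000) (nat_lit 277) (nat_lit 3) (nat_lit 132) (nat_lit 133))) (Tree.tip (nat_lit 1669) (Node.mv (nat_lit 0xe000008000008000000000000000000) (nat_lit 0x1000001800001100000000000000001c00001c000014) (nat_lit 51) (nat_lit 1) (nat_lit 0x5401a000006844218)))) (Tree.br (nat_lit 1671) (Tree.tip (nat_lit 1670) (Node.img (nat_lit 0x3000002000002000002000000000000) (nat_lit 0x4000004000001000000000004000006000004)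 (nat_lit 755) (nat_lit 4) (nat_lit 128) (nat_lit 128))) (Tree.tip (nat_lit 1671) (Node.mv (nat_lit 0x3000002000002000000000000000000) (nat_lit 0x5000004000001000000000006000006000004) (nat_lit 49) (nat_lit 1) (nat_lit 0x68640180000000e4218)))))) (Tree.br (nat_lit 1676) (Tree.br (nat_lit 1674) (Tree.br (nat_lit 1673) (Tree.tip (nat_lit 1672) (Node.mv (nat_lit 0x4000007000004000004000000) (nat_lit 0x200000e000038000008000008000008000008) (nat_lit 121) (nat_lit 1) (nat_lit 0x6754118000001034019))) (Tree.tip (nat_lit 1673) (Node.img (nat_lit 0x4000007000004000004) (nat_lit 0x800001a000008000000000000) (nat_lit 322) (nat_lit 5) (nat_lit 128) (nat_lit 132)))) (Tree.br (nat_lit 1675) (Tree.tip (nat_lit 1674) (Node.mv (nat_lit 0x7000004000004000000) (nat_lit 0x200000e00003e000008000008000008000008) (nat_lit 98) (nat_lit 2) (nat_lit 0x6884018000000904019000006894118))) (Tree.tip (nat_lit 1675) (Node.img (nat_lit 0xe000008000008000008000000) (nat_lit 0x1000034000000000000000008) (nat_lit 507) (nat_lit 4)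 (nat_lit 128) (nat_lit 128))))) (Tree.br (nat_lit 1678) (Tree.br (nat_lit 1677) (Tree.tip (nat_lit 1676) (Node.mv (nat_lit 0xe000008000008000000000000) (nat_lit 0x4000001000034000000000008000008) (nat_lit 27) (nat_lit 1) (nat_lit 0x68b40180000000e411a))) (Tree.tip (nat_lit 1677) (Node.mv (nat_lit 0x4000007000004000004) (nat_lit 0x400000e00001a000000000002000002) (nat_lit 25) (nat_lit 1) (nat_lit 0x6004018000005f14019)))) (Tree.br (nat_lit 1679) (Tree.tip (nat_lit 1678) (Node.img (nat_lit 0xe000008) (nat_lit 0x1000074) (nat_lit 13) (nat_lit 4) (nat_lit 128) (nat_lit 128))) (Tree.tip (nat_lit 1679) (Node.mv (nat_lit 0x800000e000008000008) (nat_lit 0x4000004000001000074000000) (nat_lit 98) (nat_lit 1) (nat_lit 0x68e411800000030401a))))))) (Tree.br (nat_lit 1688) (Tree.br (nat_lit 1684) (Tree.br (nat_lit 1682) (Tree.br (nat_lit 1681) (Tree.tip (nat_lit 1680) (Node.mv (nat_lit 0xe000008000008000000) (nat_lit 0xc00000c000001000010000010000018) (nat_lit 99) (nat_lit 1) (nat_lit 0x13c40180000000f401a)))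 (Tree.tip (nat_lit 1681) (Node.img (nat_lit 0xe000008000008000008000000) (nat_lit 0x11000014000000000000000008) (nat_lit 753) (nat_lit 5) (nat_lit 128) (nat_lit 132)))) (Tree.br (nat_lit 1683) (Tree.tip (nat_lit 1682) (Node.mv (nat_lit 0xe000008000008000000000000000000) (nat_lit 0x10000011000034000000000018000018000010) (nat_lit 51) (nat_lit 3) (nat_lit 0x68b4118000002b3421800000686401a000006914118))) (Tree.tip (nat_lit 1683) (Node.mv (nat_lit 0xe000008000008000000) (nat_lit 0x18000018000011000070000010000010) (nat_lit 99) (nat_lit 1) (nat_lit 0x13d4019000002474118))))) (Tree.br (nat_lit 1686) (Tree.br (nat_lit 1685) (Tree.tip (nat_lit 1684) (Node.mv (nat_lit 0x7000004000004000000) (nat_lit 0xc00001c00000800003a00000800000c) (nat_lit 98) (nat_lit 1) (nat_lit 0x24f40180000013f4018))) (Tree.tip (nat_lit 1685) (Node.img (nat_lit 0xe000008000008000008000000) (nat_lit 0x18000001000010000010000010000010) (nat_lit 122) (nat_lit 5) (nat_lit 128) (nat_lit 133)))) (Tree.br (nat_lit 1687) (Tree.tip (nat_lit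 1686) (Node.mv (nat_lit 0xe000008000008000000000000) (nat_lit 0x1c000001000010000010000018000010) (nat_lit 27) (nat_lit 1) (nat_lit 0x69540180000000e411a))) (Tree.tip (nat_lit 1687) (Node.img (nat_lit 0x2000003000002000002000000) (nat_lit 0x2000002000000000000000005000005000004) (nat_lit 250) (nat_lit 7) (nat_lit 130) (nat_lit 134)))))) (Tree.br (nat_lit 1692) (Tree.br (nat_lit 1690) (Tree.br (nat_lit 1689) (Tree.tip (nat_lit 1688) (Node.mv (nat_lit 0x3000002000002000002000000) (nat_lit 0x2000002000000000001000005000005000006) (nat_lit 72) (nat_lit 1) (nat_lit 0x6974018000000084018))) (Tree.tip (nat_lit 1689) (Node.mv (nat_lit 0x400000800000f000004) (nat_lit 0xc000008000000000000000018) (nat_lit 3) (nat_lit 1) (nat_lit 0xfd401a000000284018)))) (Tree.br (nat_lit 1691) (Tree.tip (nat_lit 1690) (Node.mv (nat_lit 0x200000f000000000004000000) (nat_lit 0x800000800001c000000000004000000000004) (nat_lit 50) (nat_lit 1) (nat_lit 0x60c4118000000084019))) (Tree.tip (nat_lit 1691) (Node.img (nat_lit 0x400000400001c000000000000)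 (nat_lit 0x4000000000000000022000007000002) (nat_lit 491) (nat_lit 2) (nat_lit 128) (nat_lit 133))))) (Tree.br (nat_lit 1694) (Tree.br (nat_lit 1693) (Tree.tip (nat_lit 1692) (Node.img (nat_lit 0x200000200000e000000000000000000) (nat_lit 0x4000004000010000007000007000006) (nat_lit 604) (nat_lit 4) (nat_lit 128) (nat_lit 128))) (Tree.tip (nat_lit 1693) (Node.mv (nat_lit 0x400001c000000000000000000) (nat_lit 0x400000c00000800002200000f00000e00000c) (nat_lit 122) (nat_lit 3) (nat_lit 0x69c4019000003d8401a0000069b411800000492401a)))) (Tree.br (nat_lit 1695) (Tree.tip (nat_lit 1694) (Node.img (nat_lit 0x600000f000000) (nat_lit 0x30000038) (nat_lit 146) (nat_lit 6) (nat_lit 133) (nat_lit 128))) (Tree.tip (nat_lit 1695) (Node.mv (nat_lit 0xc00001e000000) (nat_lit 0x60000073) (nat_lit 1) (nat_lit 1) (nat_lit 0x69e4019000000674018)))))))) (Tree.br (nat_lit 1712) (Tree.br (nat_lit 1704) (Tree.br (nat_lit 1700) (Tree.br (nat_lit 1698) (Tree.br (nat_lit 1697) (Tree.tip (nat_lit 1696) (Node.img (nat_lit 0x1000003c)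 (nat_lit 0x27000002) (nat_lit 150) (nat_lit 7) (nat_lit 133) (nat_lit 129))) (Tree.tip (nat_lit 1697) (Node.mv (nat_lit 0x1000001c000000) (nat_lit 0x1ef0000e20000e0) (nat_lit 29) (nat_lit 2) (nat_lit 0x6a04118000003364019000000524119)))) (Tree.br (nat_lit 1699) (Tree.tip (nat_lit 1698) (Node.mv (nat_lit 0x400000e00000c000004) (nat_lit 0x2000003000030000003000000) (nat_lit 52) (nat_lit 1) (nat_lit 0x864018000000234118))) (Tree.tip (nat_lit 1699) (Node.mv (nat_lit 0x1400001c000000000000000000) (nat_lit 0x4000020000022000007000002000002) (nat_lit 73) (nat_lit 1) (nat_lit 0x38140180000002a4319))))) (Tree.br (nat_lit 1702) (Tree.br (nat_lit 1701) (Tree.tip (nat_lit 1700) (Node.mv (nat_lit 0x4000006000000000003000000) (nat_lit 0x1000003000003000000000003000000000003) (nat_lit 49) (nat_lit 1) (nat_lit 0xe24018000000414019))) (Tree.tip (nat_lit 1701) (Node.mv (nat_lit 0x200000a00000e000000) (nat_lit 0x2000000000070000011000004) (nat_lit 2) (nat_lit 1) (nat_lit 0x1a41180000000b4019)))) (Tree.br (nat_lit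 1703) (Tree.tip (nat_lit 1702) (Node.mv (nat_lit 0xf000006000000000000000000) (nat_lit 0x39000030000000000002000002000002) (nat_lit 25) (nat_lit 1) (nat_lit 0x2cb4318000000494018))) (Tree.tip (nat_lit 1703) (Node.img (nat_lit 0x1a00000a) (nat_lit 0x4000005) (nat_lit 197) (nat_lit 3) (nat_lit 132) (nat_lit 129)))))) (Tree.br (nat_lit 1708) (Tree.br (nat_lit 1706) (Tree.br (nat_lit 1705) (Tree.tip (nat_lit 1704) (Node.mv (nat_lit 0xe00000a00000a) (nat_lit 0x10000074000005) (nat_lit 28) (nat_lit 1) (nat_lit 0xfb4119000006a74018))) (Tree.tip (nat_lit 1705) (Node.img (nat_lit 0xf000004000004) (nat_lit 0x8000008000018000000000008000000) (nat_lit 109) (nat_lit 1) (nat_lit 132) (nat_lit 128)))) (Tree.br (nat_lit 1707) (Tree.tip (nat_lit 1706) (Node.mv (nat_lit 0xe00000a000008) (nat_lit 0x10000010000030000010000011000000) (nat_lit 52) (nat_lit 1) (nat_lit 0x6a94019000000674118))) (Tree.tip (nat_lit 1707) (Node.img (nat_lit 0xe000006000004) (nat_lit 0x2000003000030000000000000) (nat_lit 98) (nat_lit 1) (nat_lit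 133) (nat_lit 128))))) (Tree.br (nat_lit 1710) (Tree.br (nat_lit 1709) (Tree.tip (nat_lit 1708) (Node.mv (nat_lit 0x38000018000010) (nat_lit 0x80000ef0000c7000000000000) (nat_lit 50) (nat_lit 2) (nat_lit 0x2cb411a000000ec4118000006ab401a))) (Tree.tip (nat_lit 1709) (Node.img (nat_lit 0xc00000f000000000000000000) (nat_lit 0x4000000000000000018000008000008) (nat_lit 171) (nat_lit 7) (nat_lit 132) (nat_lit 133)))) (Tree.br (nat_lit 1711) (Tree.tip (nat_lit 1710) (Node.mv (nat_lit 0xf000007000000000000000000) (nat_lit 0x4000000000018000018000008000008) (nat_lit 75) (nat_lit 1) (nat_lit 0x6ad4018000000254318))) (Tree.tip (nat_lit 1711) (Node.mv (nat_lit 0x7000007000000000000000000) (nat_lit 0x800000800001e000018000000000004000004000004) (nat_lit 99) (nat_lit 1) (nat_lit 0x3ca4018000000184318))))))) (Tree.br (nat_lit 1720) (Tree.br (nat_lit 1716) (Tree.br (nat_lit 1714) (Tree.br (nat_lit 1713) (Tree.tip (nat_lit 1712) (Node.img (nat_lit 0x1800001c000000000000000000) (nat_lit 0x8000000000003000030000010000010)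 (nat_lit 72) (nat_lit 1) (nat_lit 133) (nat_lit 128))) (Tree.tip (nat_lit 1713) (Node.mv (nat_lit 0xc00001c000000000000000000) (nat_lit 0x20000020000078000070000003000030000010000010) (nat_lit 100) (nat_lit 2) (nat_lit 0x6b04018000006af401a000000894318)))) (Tree.br (nat_lit 1715) (Tree.tip (nat_lit 1714) (Node.img (nat_lit 0x1c00000c000004) (nat_lit 0xe00000e00000f000000000000000000) (nat_lit 1083) (nat_lit 6) (nat_lit 132) (nat_lit 128))) (Tree.tip (nat_lit 1715) (Node.mv (nat_lit 0x1c00000c000000000000000000) (nat_lit 0xe00000e00000f000000000000000006000006000006) (nat_lit 50) (nat_lit 2) (nat_lit 0x25f4019000006b2421800000046401a))))) (Tree.br (nat_lit 1718) (Tree.br (nat_lit 1717) (Tree.tip (nat_lit 1716) (Node.mv (nat_lit 0x7000007000000000000000000) (nat_lit 0x4000018000018000018000008000008) (nat_lit 75) (nat_lit 1) (nat_lit 0x32a4018000000254318))) (Tree.tip (nat_lit 1717) (Node.mv (nat_lit 0x7000007000000000000) (nat_lit 0x8000018000018000018000004000004) (nat_lit 75) (nat_lit 1) (nat_lit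 0x31d4018000000184218)))) (Tree.br (nat_lit 1719) (Tree.tip (nat_lit 1718) (Node.img (nat_lit 0x400000400001e000000000000000000) (nat_lit 0x8000001000038000008000008) (nat_lit 437) (nat_lit 5) (nat_lit 128) (nat_lit 133))) (Tree.tip (nat_lit 1719) (Node.mv (nat_lit 0x400000600000e000000000000000000) (nat_lit 0x8000031000038000008000008) (nat_lit 76) (nat_lit 1) (nat_lit 0x6b64018000000254319)))))) (Tree.br (nat_lit 1724) (Tree.br (nat_lit 1722) (Tree.br (nat_lit 1721) (Tree.tip (nat_lit 1720) (Node.mv (nat_lit 0x300000f000008000000) (nat_lit 0x1800001800001c000000000004000004) (nat_lit 75) (nat_lit 1) (nat_lit 0x32640180000002a4218))) (Tree.tip (nat_lit 1721) (Node.mv (nat_lit 0x300000f000000000000) (nat_lit 0x1800001800001c00000000001c000004) (nat_lit 27) (nat_lit 1) (nat_lit 0x6b84018000000284118)))) (Tree.br (nat_lit 1723) (Tree.tip (nat_lit 1722) (Node.mv (nat_lit 0x3000007000000000000) (nat_lit 0x1800001800001c00001800001c000004) (nat_lit 51) (nat_lit 1) (nat_lit 0x6b94018000000254218))) (Tree.tip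 (nat_lit 1723) (Node.mv (nat_lit 0xc00001c000000000000) (nat_lit 0xc00000c00000e000070000003000034000014) (nat_lit 76) (nat_lit 2) (nat_lit 0x3c94018000003b04119000000894218))))) (Tree.br (nat_lit 1726) (Tree.br (nat_lit 1725) (Tree.tip (nat_lit 1724) (Node.img (nat_lit 0x1e000000000000000000) (nat_lit 0x8000038000001000030000010000010) (nat_lit 173) (nat_lit 7) (nat_lit 133) (nat_lit 133))) (Tree.tip (nat_lit 1725) (Node.mv (nat_lit 0x600000e000000000000000000) (nat_lit 0x8000038000031000030000010000010) (nat_lit 76) (nat_lit 1) (nat_lit 0x6bc4018000000254319)))) (Tree.br (nat_lit 1727) (Tree.tip (nat_lit 1726) (Node.mv (nat_lit 0x1600001e000000000000000000) (nat_lit 0x10000034000008000001000008000008000008) (nat_lit 99) (nat_lit 1) (nat_lit 0x3154019000000164318))) (Tree.tip (nat_lit 1727) (Node.mv (nat_lit 0x600001e000000000000000000) (nat_lit 0x10000034000038000001000008000008000008) (nat_lit 100) (nat_lit 1) (nat_lit 0x6be40180000002a4319))))))))) (Tree.br (nat_lit 1760) (Tree.br (nat_lit 1744)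 (Tree.br (nat_lit 1736) (Tree.br (nat_lit 1732) (Tree.br (nat_lit 1730) (Tree.br (nat_lit 1729) (Tree.tip (nat_lit 1728) (Node.img (nat_lit 0x2000003000000000003000000) (nat_lit 0x2000001000000000001000000000003) (nat_lit 631) (nat_lit 4) (nat_lit 128) (nat_lit 128))) (Tree.tip (nat_lit 1729) (Node.mv (nat_lit 0x1800001800000000000c000000) (nat_lit 0x800002400000700000400000000000c) (nat_lit 74) (nat_lit 1) (nat_lit 0x6c0401a000000894318)))) (Tree.br (nat_lit 1731) (Tree.tip (nat_lit 1730) (Node.mv (nat_lit 0x1800001800000000000c000000) (nat_lit 0x2000000700000c000000000004) (nat_lit 74) (nat_lit 1) (nat_lit 0x89431800000582401a))) (Tree.tip (nat_lit 1731) (Node.mv (nat_lit 0x1800001800000000000c000000) (nat_lit 0x800002400000700000c000000000008) (nat_lit 74) (nat_lit 1) (nat_lit 0x59c401a000000894318))))) (Tree.br (nat_lit 1734) (Tree.br (nat_lit 1733) (Tree.tip (nat_lit 1732) (Node.mv (nat_lit 0x4000006000001000003000000000000000000) (nat_lit 0x1000001000002000000000003000002000002) (nat_lit 49)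 (nat_lit 1) (nat_lit 0x2344018000003114219))) (Tree.tip (nat_lit 1733) (Node.mv (nat_lit 0x400000600000000000e000000) (nat_lit 0x2000030000077) (nat_lit 1) (nat_lit 1) (nat_lit 0x724018000003114019)))) (Tree.br (nat_lit 1735) (Tree.tip (nat_lit 1734) (Node.img (nat_lit 0x400000600000000001e000000) (nat_lit 0x3000000000002) (nat_lit 904) (nat_lit 7) (nat_lit 132) (nat_lit 132))) (Tree.tip (nat_lit 1735) (Node.mv (nat_lit 0x400000600000000000f000000) (nat_lit 0x3b000010000002) (nat_lit 28) (nat_lit 1) (nat_lit 0x6c64018000000794118)))))) (Tree.br (nat_lit 1740) (Tree.br (nat_lit 1738) (Tree.br (nat_lit 1737) (Tree.tip (nat_lit 1736) (Node.img (nat_lit 0x1000000000003000002000000000000) (nat_lit 0x1000000000001000000000001000002000002) (nat_lit 252) (nat_lit 7) (nat_lit 129) (nat_lit 134))) (Tree.tip (nat_lit 1737) (Node.img (nat_lit 0x800000e) (nat_lit 0x74000001) (nat_lit 13) (nat_lit 5) (nat_lit 128) (nat_lit 129)))) (Tree.br (nat_lit 1739) (Tree.tip (nat_lit 1738) (Node.mv (nat_lit 0x800000c000000000006000004000000000000)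 (nat_lit 0x76000003000002000000000002000004000004) (nat_lit 121) (nat_lit 1) (nat_lit 0x6c94518000006c84019))) (Tree.tip (nat_lit 1739) (Node.img (nat_lit 0x6000002000002000001000000) (nat_lit 0x4000000000000000000000002000001) (nat_lit 80) (nat_lit 6) (nat_lit 130) (nat_lit 128))))) (Tree.br (nat_lit 1742) (Tree.br (nat_lit 1741) (Tree.tip (nat_lit 1740) (Node.mv (nat_lit 0xc00000400001c000000000000) (nat_lit 0xc000000000000000002000007000002) (nat_lit 25) (nat_lit 1) (nat_lit 0x5214118000006cb4019))) (Tree.tip (nat_lit 1741) (Node.mv (nat_lit 0x38000008000070) (nat_lit 0x4000007000008) (nat_lit 26) (nat_lit 1) (nat_lit 0x18741180000036a401a)))) (Tree.br (nat_lit 1743) (Tree.tip (nat_lit 1742) (Node.img (nat_lit 0x1800000c000030) (nat_lit 0x13000000) (nat_lit 890) (nat_lit 6) (nat_lit 133) (nat_lit 128))) (Tree.tip (nat_lit 1743) (Node.mv (nat_lit 0x18000008000070) (nat_lit 0x17000008) (nat_lit 26) (nat_lit 1) (nat_lit 0x6ce40180000036a401a))))))) (Tree.br (nat_lit 1752) (Tree.br (nat_lit 1748)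 (Tree.br (nat_lit 1746) (Tree.br (nat_lit 1745) (Tree.tip (nat_lit 1744) (Node.mv (nat_lit 0x1000001a000008000018000000) (nat_lit 0x400000f000001000000000000000010) (nat_lit 99) (nat_lit 1) (nat_lit 0x33b411800000039401b))) (Tree.tip (nat_lit 1745) (Node.mv (nat_lit 0x800000e000006000002000000000000) (nat_lit 0x11000001000000000000000002000002) (nat_lit 25) (nat_lit 1) (nat_lit 0x3754118000000414019)))) (Tree.br (nat_lit 1747) (Tree.tip (nat_lit 1746) (Node.img (nat_lit 0x1000007000004000006000000) (nat_lit 0x4000000000002000000000002) (nat_lit 786) (nat_lit 1) (nat_lit 130) (nat_lit 128))) (Tree.tip (nat_lit 1747) (Node.mv (nat_lit 0x200000e00000000000f000000) (nat_lit 0x800000000001c000000000004) (nat_lit 51) (nat_lit 1) (nat_lit 0x6d240190000002a4118))))) (Tree.br (nat_lit 1750) (Tree.br (nat_lit 1749) (Tree.tip (nat_lit 1748) (Node.mv (nat_lit 0x800000000001e000000) (nat_lit 0x8000000000038000001000014) (nat_lit 51) (nat_lit 1) (nat_lit 0x524118000001c3401a))) (Tree.tip (nat_lit 1749) (Node.img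 (nat_lit 0x1000003c000000) (nat_lit 0x20000002000007) (nat_lit 274) (nat_lit 2) (nat_lit 128) (nat_lit 130)))) (Tree.br (nat_lit 1751) (Tree.tip (nat_lit 1750) (Node.mv (nat_lit 0x10000078000000) (nat_lit 0x2e000006000007) (nat_lit 26) (nat_lit 1) (nat_lit 0x6d54018000000694119))) (Tree.tip (nat_lit 1751) (Node.mv (nat_lit 0x800000c00000200001e000000000000) (nat_lit 0x4000000000007000002) (nat_lit 25) (nat_lit 1) (nat_lit 0x4b54019000000674118)))))) (Tree.br (nat_lit 1756) (Tree.br (nat_lit 1754) (Tree.br (nat_lit 1753) (Tree.tip (nat_lit 1752) (Node.mv (nat_lit 0x800000c00000000001e000000000000) (nat_lit 0x7000000000007000002) (nat_lit 73) (nat_lit 1) (nat_lit 0x6d74018000000244218))) (Tree.tip (nat_lit 1753) (Node.mv (nat_lit 0x400000600000000000f000000) (nat_lit 0x200001000003b) (nat_lit 28) (nat_lit 1) (nat_lit 0x52c4018000000774018)))) (Tree.br (nat_lit 1755) (Tree.tip (nat_lit 1754) (Node.mv (nat_lit 0x400000000001c000008000000) (nat_lit 0x4000000000004000020000007000008) (nat_lit 26) (nat_lit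 1) (nat_lit 0x23411800000273401a))) (Tree.tip (nat_lit 1755) (Node.mv (nat_lit 0x400000600000000000f000000) (nat_lit 0x300001000003a) (nat_lit 28) (nat_lit 1) (nat_lit 0x6c64018000000774018))))) (Tree.br (nat_lit 1758) (Tree.br (nat_lit 1757) (Tree.tip (nat_lit 1756) (Node.img (nat_lit 0x3000000000002000003000000) (nat_lit 0x1000000000002000000000000000001) (nat_lit 189) (nat_lit 6) (nat_lit 129) (nat_lit 128))) (Tree.tip (nat_lit 1757) (Node.mv (nat_lit 0x600000300000800000c000000) (nat_lit 0x4000018000008000000000000000004) (nat_lit 99) (nat_lit 1) (nat_lit 0x6dc401a000000184318)))) (Tree.br (nat_lit 1759) (Tree.tip (nat_lit 1758) (Node.mv (nat_lit 0x600000300000000000f000000) (nat_lit 0x4000018000008000018000000000004) (nat_lit 51) (nat_lit 1) (nat_lit 0x6dd40180000002a4118))) (Tree.tip (nat_lit 1759) (Node.mv (nat_lit 0x3c000020) (nat_lit 0xe7000042000010) (nat_lit 30) (nat_lit 1) (nat_lit 0x2f2401800000079411a)))))))) (Tree.br (nat_lit 1776) (Tree.br (nat_lit 1768) (Tree.br (nat_lit 1764) (Tree.br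 (nat_lit 1762) (Tree.br (nat_lit 1761) (Tree.tip (nat_lit 1760) (Node.mv (nat_lit 0x2000003000000000003c000000) (nat_lit 0x17000002000017) (nat_lit 4) (nat_lit 1) (nat_lit 0xdb401800000311401c))) (Tree.tip (nat_lit 1761) (Node.mv (nat_lit 0x400000400001e000000000000) (nat_lit 0x4000000000003000000000002000002) (nat_lit 73) (nat_lit 1) (nat_lit 0x374019000000244218)))) (Tree.br (nat_lit 1763) (Tree.tip (nat_lit 1762) (Node.mv (nat_lit 0x1000001c00000200001e000000) (nat_lit 0x24000002000000000000000003) (nat_lit 73) (nat_lit 1) (nat_lit 0x59540180000002a4319))) (Tree.tip (nat_lit 1763) (Node.img (nat_lit 0x1e000002000006000000) (nat_lit 0x3000000000000000000000004) (nat_lit 527) (nat_lit 1) (nat_lit 132) (nat_lit 128))))) (Tree.br (nat_lit 1766) (Tree.br (nat_lit 1765) (Tree.tip (nat_lit 1764) (Node.mv (nat_lit 0x1000001c000002000006000000) (nat_lit 0x23000002000000000000000004) (nat_lit 73) (nat_lit 1) (nat_lit 0x6e340180000002a4319))) (Tree.tip (nat_lit 1765) (Node.mv (nat_lit 0x800000e000001000001000001)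 (nat_lit 0x12000001000000000000000000) (nat_lit 72) (nat_lit 1) (nat_lit 0x2a4318000000314018)))) (Tree.br (nat_lit 1767) (Tree.tip (nat_lit 1766) (Node.mv (nat_lit 0x1000001800000000001e000000) (nat_lit 0xb000001000038) (nat_lit 49) (nat_lit 1) (nat_lit 0x5854018000000244118))) (Tree.tip (nat_lit 1767) (Node.img (nat_lit 0x1e000000000000000000) (nat_lit 0x2000003000020000007000004000004) (nat_lit 347) (nat_lit 7) (nat_lit 133) (nat_lit 133)))))) (Tree.br (nat_lit 1772) (Tree.br (nat_lit 1770) (Tree.br (nat_lit 1769) (Tree.tip (nat_lit 1768) (Node.mv (nat_lit 0x1000001800000000001c000000000000000000) (nat_lit 0x200000b00002300003f000004000004) (nat_lit 73) (nat_lit 1) (nat_lit 0x6e74018000005854218))) (Tree.tip (nat_lit 1769) (Node.img (nat_lit 0x1e000000) (nat_lit 0xe00000600000e7) (nat_lit 469) (nat_lit 4) (nat_lit 128) (nat_lit 128)))) (Tree.br (nat_lit 1771) (Tree.tip (nat_lit 1770) (Node.img (nat_lit 0x1e000008) (nat_lit 0xe00000e1000017) (nat_lit 1547) (nat_lit 4) (nat_lit 128) (nat_lit 128)))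 (Tree.tip (nat_lit 1771) (Node.mv (nat_lit 0x1e000000) (nat_lit 0xe00000e10000ff) (nat_lit 3) (nat_lit 2) (nat_lit 0x6ea4018000006e940180000005f4018))))) (Tree.br (nat_lit 1774) (Tree.br (nat_lit 1773) (Tree.tip (nat_lit 1772) (Node.mv (nat_lit 0x800000c00000000000e000001) (nat_lit 0x6000030000076) (nat_lit 28) (nat_lit 1) (nat_lit 0x6db40190000012c4018))) (Tree.tip (nat_lit 1773) (Node.mv (nat_lit 0x1000001800000000001e000000) (nat_lit 0xc0000600000ef) (nat_lit 1) (nat_lit 1) (nat_lit 0x6ec4019000000674018)))) (Tree.br (nat_lit 1775) (Tree.tip (nat_lit 1774) (Node.mv (nat_lit 0x800000c00000100000e000000) (nat_lit 0x6000030000076) (nat_lit 28) (nat_lit 1) (nat_lit 0x6d94019000002404118))) (Tree.tip (nat_lit 1775) (Node.mv (nat_lit 0x1000001800000000001e000000) (nat_lit 0xf0000600000ec) (nat_lit 49) (nat_lit 1) (nat_lit 0x6ee4019000000244118))))))) (Tree.br (nat_lit 1784) (Tree.br (nat_lit 1780) (Tree.br (nat_lit 1778) (Tree.br (nat_lit 1777) (Tree.tip (nat_lit 1776) (Node.mv (nat_lit 0x800000d000001000001000001)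 (nat_lit 0x12000002000000000000000000) (nat_lit 73) (nat_lit 1) (nat_lit 0x2a4318000000314018))) (Tree.tip (nat_lit 1777) (Node.mv (nat_lit 0x800000c000001000003000001000000) (nat_lit 0x13000003000000000000000002000002) (nat_lit 96) (nat_lit 1) (nat_lit 0x6f041180000008d4018)))) (Tree.br (nat_lit 1779) (Tree.tip (nat_lit 1778) (Node.mv (nat_lit 0x1000001800000200001e000000000000) (nat_lit 0x26000006000000000000000007000004) (nat_lit 25) (nat_lit 1) (nat_lit 0x6f14019000000674118))) (Tree.tip (nat_lit 1779) (Node.mv (nat_lit 0x1000001800000000001e000000000000) (nat_lit 0x26000006000003000000000007000004) (nat_lit 73) (nat_lit 1) (nat_lit 0x6f24018000000244218))))) (Tree.br (nat_lit 1782) (Tree.br (nat_lit 1781) (Tree.tip (nat_lit 1780) (Node.img (nat_lit 0x7c000010) (nat_lit 0x83000028) (nat_lit 1553) (nat_lit 1) (nat_lit 135) (nat_lit 128))) (Tree.tip (nat_lit 1781) (Node.mv (nat_lit 0x3c000010) (nat_lit 0xe0000c3000028) (nat_lit 30) (nat_lit 1) (nat_lit 0x6f44018000000694119)))) (Tree.br (nat_lit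 1783) (Tree.tip (nat_lit 1782) (Node.img (nat_lit 0x3c000010) (nat_lit 0x2000027) (nat_lit 150) (nat_lit 6) (nat_lit 133) (nat_lit 128))) (Tree.tip (nat_lit 1783) (Node.mv (nat_lit 0x3c000000) (nat_lit 0xe0000c300003f) (nat_lit 4) (nat_lit 2) (nat_lit 0x6f54018000000584019000006f64018)))))) (Tree.br (nat_lit 1788) (Tree.br (nat_lit 1786) (Tree.br (nat_lit 1785) (Tree.tip (nat_lit 1784) (Node.mv (nat_lit 0x1000001800000200001e000000000000) (nat_lit 0xec000006000004000000000003000002) (nat_lit 98) (nat_lit 1) (nat_lit 0x5804018000006c94419))) (Tree.tip (nat_lit 1785) (Node.mv (nat_lit 0x1000001800000000001e000000000000) (nat_lit 0xec000006000007000000000003000002) (nat_lit 73) (nat_lit 1) (nat_lit 0x6f84018000000244218)))) (Tree.br (nat_lit 1787) (Tree.tip (nat_lit 1786) (Node.mv (nat_lit 0x800000c000000000003000001000000000000) (nat_lit 0x76000003000002000000000002000001000001) (nat_lit 121) (nat_lit 1) (nat_lit 0x27c4018000006c94518))) (Tree.tip (nat_lit 1787) (Node.mv (nat_lit 0x1000001800000000001e000000000000000000)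 (nat_lit 0xec000006000004000000000007000002000002) (nat_lit 49) (nat_lit 1) (nat_lit 0x6fa4019000000674218))))) (Tree.br (nat_lit 1790) (Tree.br (nat_lit 1789) (Tree.tip (nat_lit 1788) (Node.mv (nat_lit 0x800000c00000100000f000000) (nat_lit 0x74000003000002000010000038) (nat_lit 73) (nat_lit 1) (nat_lit 0x1514018000006c94318))) (Tree.tip (nat_lit 1789) (Node.mv (nat_lit 0x1000001800000000001e000000) (nat_lit 0xe8000006000007000020000070) (nat_lit 49) (nat_lit 1) (nat_lit 0x6fc4019000000244118)))) (Tree.br (nat_lit 1791) (Tree.tip (nat_lit 1790) (Node.mv (nat_lit 0x400000200001e000000000000) (nat_lit 0x400000400000000000400000000000b000002) (nat_lit 74) (nat_lit 1) (nat_lit 0x34c4018000003984119))) (Tree.tip (nat_lit 1791) (Node.mv (nat_lit 0x2000003000000000003c000020) (nat_lit 0x1d000000c000000000002000017) (nat_lit 75) (nat_lit 1) (nat_lit 0x26a4018000006c9431a))))))))))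
noncomputable def t0_14 : Tree := (Tree.br (nat_lit 1856) (Tree.br (nat_lit 1824) (Tree.br (nat_lit 1808) (Tree.br (nat_lit 1800) (Tree.br (nat_lit 1796) (Tree.br (nat_lit 1794) (Tree.br (nat_lit 1793) (Tree.tip (nat_lit 1792) (Node.mv (nat_lit 0x2000003000000000003c000000) (nat_lit 0x1d000000c000000000002000077) (nat_lit 5) (nat_lit 1) (nat_lit 0x6ff401800000028401a))) (Tree.tip (nat_lit 1793) (Node.mv (nat_lit 0x2000003000000000003c000020) (nat_lit 0x1d000000c000007000002000010) (nat_lit 75) (nat_lit 1) (nat_lit 0x2f24018000006c9431a)))) (Tree.br (nat_lit 1795) (Tree.tip (nat_lit 1794) (Node.mv (nat_lit 0x2000003000000000003c000000) (nat_lit 0x1d000000c000007000002000070) (nat_lit 5) (nat_lit 1) (nat_lit 0x701401800000028401a))) (Tree.tip (nat_lit 1795) (Node.img (nat_lit 0x1e000000) (nat_lit 0x7000020000073) (nat_lit 166) (nat_lit 4) (nat_lit 128) (nat_lit 128))))) (Tree.br (nat_lit 1798) (Tree.br (nat_lit 1797) (Tree.tip (nat_lit 1796) (Node.mv (nat_lit 0x20000030000000000038000000000000000000)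 (nat_lit 0x1d000000c00000f0000460000f7000004000004) (nat_lit 74) (nat_lit 3) (nat_lit 0x7034219000007024218000007004218000003bb4019))) (Tree.tip (nat_lit 1797) (Node.img (nat_lit 0x100000100000f000001000000) (nat_lit 0x10000002000002) (nat_lit 302) (nat_lit 7) (nat_lit 132) (nat_lit 132)))) (Tree.br (nat_lit 1799) (Tree.tip (nat_lit 1798) (Node.mv (nat_lit 0x200000100000f000001000000) (nat_lit 0x2000001000000000010000002000002) (nat_lit 96) (nat_lit 1) (nat_lit 0x7054018000000314118))) (Tree.tip (nat_lit 1799) (Node.mv (nat_lit 0x800000c000002000002000002) (nat_lit 0x15000003000000000000000000) (nat_lit 73) (nat_lit 1) (nat_lit 0x3754018000000314019)))))) (Tree.br (nat_lit 1804) (Tree.br (nat_lit 1802) (Tree.br (nat_lit 1801) (Tree.tip (nat_lit 1800) (Node.mv (nat_lit 0x1000001800000000003c000020) (nat_lit 0xe8000006000000000002000017) (nat_lit 74) (nat_lit 1) (nat_lit 0x26a4018000006c94319))) (Tree.tip (nat_lit 1801) (Node.mv (nat_lit 0x1000001800000000003c000000) (nat_lit 0xe8000006000000000002000077)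 (nat_lit 5) (nat_lit 1) (nat_lit 0x708401800000028401a)))) (Tree.br (nat_lit 1803) (Tree.tip (nat_lit 1802) (Node.mv (nat_lit 0x1000001800000000001c000000) (nat_lit 0xe80000060000e00000620000ff) (nat_lit 29) (nat_lit 3) (nat_lit 0x7094018000001c140190000007c401a000000534019))) (Tree.tip (nat_lit 1803) (Node.mv (nat_lit 0x1000001c00000000003c) (nat_lit 0x20000002000007000000) (nat_lit 49) (nat_lit 1) (nat_lit 0x57e40180000002a4219))))) (Tree.br (nat_lit 1806) (Tree.br (nat_lit 1805) (Tree.tip (nat_lit 1804) (Node.img (nat_lit 0x200000000001f000001) (nat_lit 0x2000000000003000000000000) (nat_lit 1468) (nat_lit 3) (nat_lit 132) (nat_lit 132))) (Tree.tip (nat_lit 1805) (Node.mv (nat_lit 0x200000000000f000001) (nat_lit 0x200000000003b000010000000) (nat_lit 28) (nat_lit 1) (nat_lit 0x70c4018000000794118)))) (Tree.br (nat_lit 1807) (Tree.tip (nat_lit 1806) (Node.mv (nat_lit 0x400000000001e000000) (nat_lit 0x4000000000076000020000003) (nat_lit 1) (nat_lit 1) (nat_lit 0x70d4019000000674018))) (Tree.tip (nat_lit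 1807) (Node.img (nat_lit 0x2000003000000000001000000) (nat_lit 0x2000002000001000000000001000000000001) (nat_lit 252) (nat_lit 6) (nat_lit 129) (nat_lit 128))))))) (Tree.br (nat_lit 1816) (Tree.br (nat_lit 1812) (Tree.br (nat_lit 1810) (Tree.br (nat_lit 1809) (Tree.tip (nat_lit 1808) (Node.mv (nat_lit 0x18000018000000000004000000) (nat_lit 0x8000008000024000007000004000000000004) (nat_lit 74) (nat_lit 1) (nat_lit 0x70f401a000000894318))) (Tree.tip (nat_lit 1809) (Node.mv (nat_lit 0x1e000002000000000006000000) (nat_lit 0x3000001000000000002000000000004) (nat_lit 120) (nat_lit 1) (nat_lit 0x3084018000002404418)))) (Tree.br (nat_lit 1811) (Tree.tip (nat_lit 1810) (Node.img (nat_lit 0x200000200000000001e000000) (nat_lit 0x3000000000004) (nat_lit 960) (nat_lit 1) (nat_lit 132) (nat_lit 128))) (Tree.tip (nat_lit 1811) (Node.img (nat_lit 0x1a00001a) (nat_lit 0x5000001) (nat_lit 92) (nat_lit 5) (nat_lit 128) (nat_lit 129))))) (Tree.br (nat_lit 1814) (Tree.br (nat_lit 1813) (Tree.tip (nat_lit 1812) (Node.mv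 (nat_lit 0x1800001a00000000001e000000) (nat_lit 0x7000001000003000000000004) (nat_lit 97) (nat_lit 1) (nat_lit 0x7134318000007124018))) (Tree.tip (nat_lit 1813) (Node.img (nat_lit 0x1200001a) (nat_lit 0x21000004) (nat_lit 189) (nat_lit 1) (nat_lit 133) (nat_lit 128)))) (Tree.br (nat_lit 1815) (Tree.tip (nat_lit 1814) (Node.mv (nat_lit 0x1000001a00000000001e000000) (nat_lit 0x23000004000003000000000004) (nat_lit 97) (nat_lit 1) (nat_lit 0x7124018000007154318))) (Tree.tip (nat_lit 1815) (Node.mv (nat_lit 0x1800001800000000001e000000) (nat_lit 0x27000007000003000000000004) (nat_lit 73) (nat_lit 2) (nat_lit 0x7164018000007144018000003724318)))))) (Tree.br (nat_lit 1820) (Tree.br (nat_lit 1818) (Tree.br (nat_lit 1817) (Tree.tip (nat_lit 1816) (Node.mv (nat_lit 0x30000030000000000038000000) (nat_lit 0x4e00000e0000070000460000ef) (nat_lit 26) (nat_lit 2) (nat_lit 0xdb4018000007174019000000534019))) (Tree.tip (nat_lit 1817) (Node.mv (nat_lit 0x1c00000c000000000002000000) (nat_lit 0x4000004000002000003000002000000000002)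 (nat_lit 73) (nat_lit 1) (nat_lit 0x70f4019000000164318)))) (Tree.br (nat_lit 1819) (Tree.tip (nat_lit 1818) (Node.mv (nat_lit 0x1e000002000000000007000000) (nat_lit 0x3000000000000000003000000000004) (nat_lit 49) (nat_lit 1) (nat_lit 0x24c4118000000394019))) (Tree.tip (nat_lit 1819) (Node.mv (nat_lit 0x1c00000c000000000004) (nat_lit 0x73000062000000000004000000) (nat_lit 73) (nat_lit 1) (nat_lit 0x2cb4219000003054018))))) (Tree.br (nat_lit 1822) (Tree.br (nat_lit 1821) (Tree.tip (nat_lit 1820) (Node.img (nat_lit 0x400000400000400000e) (nat_lit 0x4000000000000000003000030) (nat_lit 204) (nat_lit 1) (nat_lit 133) (nat_lit 128))) (Tree.tip (nat_lit 1821) (Node.mv (nat_lit 0x400000400000000000e000000) (nat_lit 0x4000000000000000007000030000002) (nat_lit 50) (nat_lit 1) (nat_lit 0x71c4118000000014019)))) (Tree.br (nat_lit 1823) (Tree.tip (nat_lit 1822) (Node.mv (nat_lit 0x800000800000400001e000000) (nat_lit 0x4000004000000000000000007) (nat_lit 74) (nat_lit 1) (nat_lit 0x25b401800000041401a))) (Tree.tip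 (nat_lit 1823) (Node.mv (nat_lit 0x800000800000400001e000000) (nat_lit 0x8000008000004000004000008000000000003) (nat_lit 74) (nat_lit 2) (nat_lit 0x1dd411a0000025b4018000000ff411a)))))))) (Tree.br (nat_lit 1840) (Tree.br (nat_lit 1832) (Tree.br (nat_lit 1828) (Tree.br (nat_lit 1826) (Tree.br (nat_lit 1825) (Tree.tip (nat_lit 1824) (Node.img (nat_lit 0x2000002000001000003000000) (nat_lit 0x2000000000000000002000000000001) (nat_lit 750) (nat_lit 3) (nat_lit 129) (nat_lit 133))) (Tree.tip (nat_lit 1825) (Node.mv (nat_lit 0x800000800000000001e000000) (nat_lit 0x800000800000400000400000c000000000007) (nat_lit 50) (nat_lit 3) (nat_lit 0x71f40180000071e401800000720401a00000516401a)))) (Tree.br (nat_lit 1827) (Tree.tip (nat_lit 1826) (Node.mv (nat_lit 0x18000018000004000004) (nat_lit 0x8000008000024000007000000000000) (nat_lit 50) (nat_lit 1) (nat_lit 0x8942180000045e401a))) (Tree.tip (nat_lit 1827) (Node.img (nat_lit 0x800000c00000000001e000000) (nat_lit 0x4000000000004000000000007) (nat_lit 1488) (nat_lit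 1) (nat_lit 132) (nat_lit 128))))) (Tree.br (nat_lit 1830) (Tree.br (nat_lit 1829) (Tree.tip (nat_lit 1828) (Node.mv (nat_lit 0x1800001800000000001e000000) (nat_lit 0x24000007000004000000000007) (nat_lit 74) (nat_lit 1) (nat_lit 0x7234018000000894318))) (Tree.tip (nat_lit 1829) (Node.mv (nat_lit 0x800000c00000000001e) (nat_lit 0x800000800000000000000000f000020) (nat_lit 26) (nat_lit 1) (nat_lit 0x1dd401a000000c74018)))) (Tree.br (nat_lit 1831) (Tree.tip (nat_lit 1830) (Node.mv (nat_lit 0x1800001800000000001e000000) (nat_lit 0x20000007000007000020000004) (nat_lit 74) (nat_lit 1) (nat_lit 0x5324018000000894318))) (Tree.tip (nat_lit 1831) (Node.img (nat_lit 0x400000400000000000f000000) (nat_lit 0x4000000000018) (nat_lit 587) (nat_lit 1) (nat_lit 132) (nat_lit 128)))))) (Tree.br (nat_lit 1836) (Tree.br (nat_lit 1834) (Tree.br (nat_lit 1833) (Tree.tip (nat_lit 1832) (Node.mv (nat_lit 0x10000010000000000038000000) (nat_lit 0x17000006000067) (nat_lit 26) (nat_lit 1) (nat_lit 0xdb401800000727401a))) (Tree.tip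 (nat_lit 1833) (Node.mv (nat_lit 0x10000018000000000038) (nat_lit 0x1000001000000800000000000f000044) (nat_lit 27) (nat_lit 1) (nat_lit 0x14640180000045e401b)))) (Tree.br (nat_lit 1835) (Tree.tip (nat_lit 1834) (Node.mv (nat_lit 0x30000030000000000038) (nat_lit 0x1000001000004800000e00000f000044) (nat_lit 51) (nat_lit 1) (nat_lit 0x7294018000000894219))) (Tree.tip (nat_lit 1835) (Node.mv (nat_lit 0x1000001800000000000c000000) (nat_lit 0x800002c00000700000c00000000000c) (nat_lit 99) (nat_lit 3) (nat_lit 0x6c34018000006c14018000006c2401800000214401a))))) (Tree.br (nat_lit 1838) (Tree.br (nat_lit 1837) (Tree.tip (nat_lit 1836) (Node.img (nat_lit 0x1e000000) (nat_lit 0xe70000600000e0) (nat_lit 469) (nat_lit 5) (nat_lit 128) (nat_lit 130))) (Tree.tip (nat_lit 1837) (Node.mv (nat_lit 0x38000000) (nat_lit 0x1cf0000c60001cf) (nat_lit 26) (nat_lit 3) (nat_lit 0x6e940190000072c4019000000db4018000000584019)))) (Tree.br (nat_lit 1839) (Tree.tip (nat_lit 1838) (Node.img (nat_lit 0x1000001000001000000e) (nat_lit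 0x10000000000000000008000001) (nat_lit 360) (nat_lit 1) (nat_lit 132) (nat_lit 128))) (Tree.tip (nat_lit 1839) (Node.mv (nat_lit 0x1000001000001000003c000000) (nat_lit 0x10000000000000000008000003000007) (nat_lit 25) (nat_lit 1) (nat_lit 0x72e41180000006e4018))))))) (Tree.br (nat_lit 1848) (Tree.br (nat_lit 1844) (Tree.br (nat_lit 1842) (Tree.br (nat_lit 1841) (Tree.tip (nat_lit 1840) (Node.mv (nat_lit 0x3000003000000000003c000000) (nat_lit 0x10000000000000000018000003000017) (nat_lit 52) (nat_lit 1) (nat_lit 0x72f401800000041401c))) (Tree.tip (nat_lit 1841) (Node.mv (nat_lit 0x30000030000000000038000000) (nat_lit 0x100000000000000001df0000c70001d7) (nat_lit 26) (nat_lit 2) (nat_lit 0x73040180000072c4019000000db4018)))) (Tree.br (nat_lit 1843) (Tree.tip (nat_lit 1842) (Node.mv (nat_lit 0x20000030000000000038000000) (nat_lit 0x100000100000000001df0000c70001df) (nat_lit 100) (nat_lit 2) (nat_lit 0x73140180000072d401800000214401b))) (Tree.tip (nat_lit 1843) (Node.mv (nat_lit 0x1000001c00000000001e000000)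 (nat_lit 0x23000002000003000000000004) (nat_lit 49) (nat_lit 1) (nat_lit 0x6e44018000000244118))))) (Tree.br (nat_lit 1846) (Tree.br (nat_lit 1845) (Tree.tip (nat_lit 1844) (Node.mv (nat_lit 0x2000003800000200001c) (nat_lit 0x40000006000001000002) (nat_lit 50) (nat_lit 1) (nat_lit 0x36b40180000002a421a))) (Tree.tip (nat_lit 1845) (Node.mv (nat_lit 0x2000003800000000003c) (nat_lit 0x40000006000007000002) (nat_lit 25) (nat_lit 1) (nat_lit 0x7344018000002404019)))) (Tree.br (nat_lit 1847) (Tree.tip (nat_lit 1846) (Node.mv (nat_lit 0x1000001c00000800000c000000) (nat_lit 0x28000003000000000000000004) (nat_lit 73) (nat_lit 1) (nat_lit 0x36c40180000002a4319))) (Tree.tip (nat_lit 1847) (Node.mv (nat_lit 0x1000001c00000000000c000000) (nat_lit 0x2800000300000800000000000c) (nat_lit 51) (nat_lit 1) (nat_lit 0x736401800000041401b)))))) (Tree.br (nat_lit 1852) (Tree.br (nat_lit 1850) (Tree.br (nat_lit 1849) (Tree.tip (nat_lit 1848) (Node.mv (nat_lit 0x1e00000000001e000000) (nat_lit 0x3000000000003000000000004)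 (nat_lit 49) (nat_lit 1) (nat_lit 0x6e34018000000244118))) (Tree.tip (nat_lit 1849) (Node.mv (nat_lit 0x800000c00000000000e000000) (nat_lit 0x4000000000074000030000077) (nat_lit 28) (nat_lit 2) (nat_lit 0x72340180000007c40190000058f4018)))) (Tree.br (nat_lit 1851) (Tree.tip (nat_lit 1850) (Node.mv (nat_lit 0x20000030000000000038000000) (nat_lit 0x1000000000001700000600003f) (nat_lit 26) (nat_lit 1) (nat_lit 0xdb401800000301401b))) (Tree.tip (nat_lit 1851) (Node.img (nat_lit 0x2000002000000000007000000) (nat_lit 0x2000000000005) (nat_lit 272) (nat_lit 5) (nat_lit 128) (nat_lit 132))))) (Tree.br (nat_lit 1854) (Tree.br (nat_lit 1853) (Tree.tip (nat_lit 1852) (Node.mv (nat_lit 0x1000001800000000001c000000) (nat_lit 0x800002c00000700000c00000000001c) (nat_lit 99) (nat_lit 2) (nat_lit 0x5c401b000006c140180000073b401a))) (Tree.tip (nat_lit 1853) (Node.mv (nat_lit 0x1000001c000008000018000000) (nat_lit 0x28000003000000000000000010) (nat_lit 99) (nat_lit 1) (nat_lit 0x89431800000039401b)))) (Tree.br (nat_lit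 1855) (Tree.tip (nat_lit 1854) (Node.mv (nat_lit 0x200000b00000800000c000000) (nat_lit 0x400001c000000000000000000000004) (nat_lit 99) (nat_lit 1) (nat_lit 0x388411800000001401a))) (Tree.tip (nat_lit 1855) (Node.mv (nat_lit 0x10000018000008000018000000) (nat_lit 0xc0000ef000007000000000000000010) (nat_lit 99) (nat_lit 1) (nat_lit 0x373411800000039401b))))))))) (Tree.br (nat_lit 1888) (Tree.br (nat_lit 1872) (Tree.br (nat_lit 1864) (Tree.br (nat_lit 1860) (Tree.br (nat_lit 1858) (Tree.br (nat_lit 1857) (Tree.tip (nat_lit 1856) (Node.mv (nat_lit 0x400000000003c000000) (nat_lit 0x4000000000006000002000073) (nat_lit 50) (nat_lit 1) (nat_lit 0x4fa4018000000244119))) (Tree.tip (nat_lit 1857) (Node.mv (nat_lit 0x200000000001e000000000000000000) (nat_lit 0x2000000000003000000000006000004000004) (nat_lit 97) (nat_lit 1) (nat_lit 0x4924019000000244318)))) (Tree.br (nat_lit 1859) (Tree.tip (nat_lit 1858) (Node.mv (nat_lit 0x800000c000000000003000001000000000000) (nat_lit 0x72000013000002000000000002000001000001)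 (nat_lit 121) (nat_lit 1) (nat_lit 0x1a45180000027c4018))) (Tree.tip (nat_lit 1859) (Node.mv (nat_lit 0x1000001800000000001e000000000000000000) (nat_lit 0xe4000026000004000000000007000002000002) (nat_lit 49) (nat_lit 1) (nat_lit 0x7424019000000674218))))) (Tree.br (nat_lit 1862) (Tree.br (nat_lit 1861) (Tree.tip (nat_lit 1860) (Node.img (nat_lit 0x2000000000003000001000000000000) (nat_lit 0x2000000000003000000000000000001000001) (nat_lit 188) (nat_lit 4) (nat_lit 128) (nat_lit 128))) (Tree.tip (nat_lit 1861) (Node.mv (nat_lit 0x800000c000000000003000001000000000000) (nat_lit 0x72000013000003000000000000000001000001) (nat_lit 121) (nat_lit 1) (nat_lit 0x74440180000001a4518)))) (Tree.br (nat_lit 1863) (Tree.tip (nat_lit 1862) (Node.mv (nat_lit 0x1000001800000000001e000000000000000000) (nat_lit 0xe4000026000006000000000003000002000002) (nat_lit 49) (nat_lit 1) (nat_lit 0x7454019000000674218))) (Tree.tip (nat_lit 1863) (Node.mv (nat_lit 0xe000001000007000000) (nat_lit 0x2000002000010000002000000000004)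 (nat_lit 49) (nat_lit 1) (nat_lit 0x3984018000000184218)))))) (Tree.br (nat_lit 1868) (Tree.br (nat_lit 1866) (Tree.br (nat_lit 1865) (Tree.tip (nat_lit 1864) (Node.mv (nat_lit 0x1c00000200001e000000000000) (nat_lit 0x20000004000000000003000002) (nat_lit 74) (nat_lit 1) (nat_lit 0x34c4018000000184319))) (Tree.tip (nat_lit 1865) (Node.img (nat_lit 0x3c000000) (nat_lit 0x6000002000077) (nat_lit 416) (nat_lit 5) (nat_lit 128) (nat_lit 130)))) (Tree.br (nat_lit 1867) (Tree.tip (nat_lit 1866) (Node.mv (nat_lit 0x38000000) (nat_lit 0xe0000460000ff) (nat_lit 26) (nat_lit 3) (nat_lit 0x7494018000000534019000000dc4019000000584019))) (Tree.tip (nat_lit 1867) (Node.mv (nat_lit 0x800000800000000000f000000) (nat_lit 0x10000030000010000038) (nat_lit 4) (nat_lit 1) (nat_lit 0x59a4019000000204018))))) (Tree.br (nat_lit 1870) (Tree.br (nat_lit 1869) (Tree.tip (nat_lit 1868) (Node.mv (nat_lit 0x1000001000000000001e000000) (nat_lit 0x20000060000020000073) (nat_lit 1) (nat_lit 1) (nat_lit 0x74b4019000000674018))) (Tree.tip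 (nat_lit 1869) (Node.img (nat_lit 0x7c000008) (nat_lit 0x83000030) (nat_lit 379) (nat_lit 5) (nat_lit 128) (nat_lit 129)))) (Tree.br (nat_lit 1871) (Tree.tip (nat_lit 1870) (Node.mv (nat_lit 0x78000008) (nat_lit 0x870001f0) (nat_lit 26) (nat_lit 2) (nat_lit 0x175401b0000074d401800000077401a))) (Tree.tip (nat_lit 1871) (Node.mv (nat_lit 0x400000000003e000000) (nat_lit 0x4000000000006000000000003) (nat_lit 50) (nat_lit 1) (nat_lit 0x25b4018000000244119))))))) (Tree.br (nat_lit 1880) (Tree.br (nat_lit 1876) (Tree.br (nat_lit 1874) (Tree.br (nat_lit 1873) (Tree.tip (nat_lit 1872) (Node.mv (nat_lit 0x7c000000) (nat_lit 0x1c7000082000007) (nat_lit 31) (nat_lit 1) (nat_lit 0xdb401800000079411b))) (Tree.tip (nat_lit 1873) (Node.img (nat_lit 0x3e000000) (nat_lit 0xe00000c100001c) (nat_lit 683) (nat_lit 5) (nat_lit 128) (nat_lit 130)))) (Tree.br (nat_lit 1875) (Tree.tip (nat_lit 1874) (Node.mv (nat_lit 0x3c000000) (nat_lit 0x1c70001c200003f) (nat_lit 30) (nat_lit 2) (nat_lit 0x75040180000075140190000006e4019)))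 (Tree.tip (nat_lit 1875) (Node.img (nat_lit 0x7c000000) (nat_lit 0x1c7000082000038) (nat_lit 816) (nat_lit 2) (nat_lit 128) (nat_lit 130))))) (Tree.br (nat_lit 1878) (Tree.br (nat_lit 1877) (Tree.tip (nat_lit 1876) (Node.mv (nat_lit 0x3c000000) (nat_lit 0x1c70000c20001f8) (nat_lit 30) (nat_lit 2) (nat_lit 0x7c401b00000753401800000077401a))) (Tree.tip (nat_lit 1877) (Node.img (nat_lit 0x100000e000001) (nat_lit 0x2000010000002) (nat_lit 34) (nat_lit 1) (nat_lit 132) (nat_lit 128)))) (Tree.br (nat_lit 1879) (Tree.tip (nat_lit 1878) (Node.img (nat_lit 0x200001c000002000006000000) (nat_lit 0x1000002000000000000000004) (nat_lit 860) (nat_lit 1) (nat_lit 132) (nat_lit 128))) (Tree.tip (nat_lit 1879) (Node.mv (nat_lit 0x1c000002000006000000) (nat_lit 0x7000022000004000000000004) (nat_lit 97) (nat_lit 1) (nat_lit 0x7564018000007554219)))))) (Tree.br (nat_lit 1884) (Tree.br (nat_lit 1882) (Tree.br (nat_lit 1881) (Tree.tip (nat_lit 1880) (Node.img (nat_lit 0x3c00000000001e) (nat_lit 0x7000000) (nat_lit 1406)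 (nat_lit 2) (nat_lit 128) (nat_lit 130))) (Tree.tip (nat_lit 1881) (Node.mv (nat_lit 0x1c00000000001e) (nat_lit 0xe00000600000e7000000) (nat_lit 53) (nat_lit 1) (nat_lit 0x7c411a000007584018)))) (Tree.br (nat_lit 1883) (Tree.tip (nat_lit 1882) (Node.img (nat_lit 0x1e000000000003000001) (nat_lit 0x3000000000002000000000000) (nat_lit 1240) (nat_lit 3) (nat_lit 132) (nat_lit 132))) (Tree.tip (nat_lit 1883) (Node.mv (nat_lit 0x3c00000000001e000000) (nat_lit 0x6000000000004000000000003) (nat_lit 1) (nat_lit 1) (nat_lit 0x75a4019000000674018))))) (Tree.br (nat_lit 1886) (Tree.br (nat_lit 1885) (Tree.tip (nat_lit 1884) (Node.mv (nat_lit 0x1000001000000000001e000020) (nat_lit 0x20000063000020000040) (nat_lit 49) (nat_lit 1) (nat_lit 0x59a401a000000244118))) (Tree.tip (nat_lit 1885) (Node.mv (nat_lit 0x1000001000000000001e000000) (nat_lit 0x20000063000020000070) (nat_lit 5) (nat_lit 1) (nat_lit 0x75c4018000000204019)))) (Tree.br (nat_lit 1887) (Tree.tip (nat_lit 1886) (Node.mv (nat_lit 0x1000001800000200001e000000)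 (nat_lit 0x24000026000004000020000003) (nat_lit 74) (nat_lit 1) (nat_lit 0x6e24018000004e64119))) (Tree.tip (nat_lit 1887) (Node.mv (nat_lit 0x1000001800000000001e000000) (nat_lit 0x24000026000007000020000003) (nat_lit 49) (nat_lit 1) (nat_lit 0x75e4018000000244118)))))))) (Tree.br (nat_lit 1904) (Tree.br (nat_lit 1896) (Tree.br (nat_lit 1892) (Tree.br (nat_lit 1890) (Tree.br (nat_lit 1889) (Tree.tip (nat_lit 1888) (Node.img (nat_lit 0x1000001c000002) (nat_lit 0x20000002000001) (nat_lit 80) (nat_lit 2) (nat_lit 128) (nat_lit 130))) (Tree.tip (nat_lit 1889) (Node.mv (nat_lit 0x1000001800000200003c000000) (nat_lit 0x200000060000e10000400000e0) (nat_lit 74) (nat_lit 1) (nat_lit 0x7c401a000007604218)))) (Tree.br (nat_lit 1891) (Tree.tip (nat_lit 1890) (Node.mv (nat_lit 0x1000001800000000003c000000) (nat_lit 0x200000060000e70000400000e0) (nat_lit 49) (nat_lit 1) (nat_lit 0x7614018000002404119))) (Tree.tip (nat_lit 1891) (Node.mv (nat_lit 0x800000c00000200001e000000) (nat_lit 0x70000013000004000020000070)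 (nat_lit 73) (nat_lit 1) (nat_lit 0x15140190000001a4318))))) (Tree.br (nat_lit 1894) (Tree.br (nat_lit 1893) (Tree.tip (nat_lit 1892) (Node.mv (nat_lit 0x800000c00000000001e000000) (nat_lit 0x70000013000007000020000070) (nat_lit 49) (nat_lit 1) (nat_lit 0x7634018000000244118))) (Tree.tip (nat_lit 1893) (Node.mv (nat_lit 0x800000c000002000006000000) (nat_lit 0x72000013000004000000000004) (nat_lit 73) (nat_lit 1) (nat_lit 0x1a4318000003124019)))) (Tree.br (nat_lit 1895) (Tree.tip (nat_lit 1894) (Node.mv (nat_lit 0x1000001800000000001c000000000000000000) (nat_lit 0xe400002600000c00000300003f000002000002) (nat_lit 73) (nat_lit 1) (nat_lit 0x7434018000005854218))) (Tree.tip (nat_lit 1895) (Node.mv (nat_lit 0x800000c000000000006000004000000000000) (nat_lit 0x72000013000002000000000002000004000004) (nat_lit 121) (nat_lit 1) (nat_lit 0x1a4518000006c84019)))))) (Tree.br (nat_lit 1900) (Tree.br (nat_lit 1898) (Tree.br (nat_lit 1897) (Tree.tip (nat_lit 1896) (Node.mv (nat_lit 0x800000c000000000006000000000000000000)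 (nat_lit 0x72000013000006000000000006000004000004) (nat_lit 50) (nat_lit 1) (nat_lit 0x767401800000311421a))) (Tree.tip (nat_lit 1897) (Node.mv (nat_lit 0x800000c00000000000e000000) (nat_lit 0x10000034000030000037) (nat_lit 28) (nat_lit 1) (nat_lit 0x58f4018000003004019)))) (Tree.br (nat_lit 1899) (Tree.tip (nat_lit 1898) (Node.mv (nat_lit 0x1000001800000000001c000000000000) (nat_lit 0x2600000600000b00000300003f000004) (nat_lit 49) (nat_lit 1) (nat_lit 0x6f34018000005854118))) (Tree.tip (nat_lit 1899) (Node.mv (nat_lit 0x20000030000000000038000000) (nat_lit 0x400000d70000460000f7) (nat_lit 26) (nat_lit 2) (nat_lit 0x6e040180000075d4019000005854019))))) (Tree.br (nat_lit 1902) (Tree.br (nat_lit 1901) (Tree.tip (nat_lit 1900) (Node.mv (nat_lit 0x2000003000000000003c000000) (nat_lit 0x17000002000030) (nat_lit 4) (nat_lit 1) (nat_lit 0x112401800000311401c))) (Tree.tip (nat_lit 1901) (Node.img (nat_lit 0x3c000010) (nat_lit 0x4300002e) (nat_lit 1195) (nat_lit 2) (nat_lit 128) (nat_lit 129)))) (Tree.br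 (nat_lit 1903) (Tree.tip (nat_lit 1902) (Node.mv (nat_lit 0x2000003000000000003c000000) (nat_lit 0x1000004300003e) (nat_lit 4) (nat_lit 1) (nat_lit 0x76d401800000311401c))) (Tree.tip (nat_lit 1903) (Node.mv (nat_lit 0x20000030000000000038000000000000000000) (nat_lit 0x400001700004700003e000008000008) (nat_lit 74) (nat_lit 2) (nat_lit 0x76e4218000006e740190000076c4218))))))) (Tree.br (nat_lit 1912) (Tree.br (nat_lit 1908) (Tree.br (nat_lit 1906) (Tree.br (nat_lit 1905) (Tree.tip (nat_lit 1904) (Node.mv (nat_lit 0x3c000010) (nat_lit 0x1c70000c2000028) (nat_lit 30) (nat_lit 1) (nat_lit 0x112401800000230401b))) (Tree.tip (nat_lit 1905) (Node.mv (nat_lit 0x2000003000000000003c000000) (nat_lit 0x1d70000c2000038) (nat_lit 4) (nat_lit 1) (nat_lit 0x770401800000311401c)))) (Tree.br (nat_lit 1907) (Tree.tip (nat_lit 1906) (Node.mv (nat_lit 0x1000001800000000001c000000) (nat_lit 0xf00002300003f) (nat_lit 25) (nat_lit 1) (nat_lit 0x584018000005854018))) (Tree.tip (nat_lit 1907) (Node.mv (nat_lit 0x1000001800000000001c000000000000)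 (nat_lit 0x26000006000007000022000077000004) (nat_lit 49) (nat_lit 3) (nat_lit 0x6f34018000000dc4118000000534118000000584118))))) (Tree.br (nat_lit 1910) (Tree.br (nat_lit 1909) (Tree.tip (nat_lit 1908) (Node.mv (nat_lit 0x800000c000000000007000003000000000000) (nat_lit 0x2000006000000000004000003000001) (nat_lit 97) (nat_lit 1) (nat_lit 0x4b54119000000374018))) (Tree.tip (nat_lit 1909) (Node.mv (nat_lit 0x800000c00000000000f000001000000000000) (nat_lit 0x2000006000010000006000003000001) (nat_lit 49) (nat_lit 1) (nat_lit 0x7744018000000184218)))) (Tree.br (nat_lit 1911) (Tree.tip (nat_lit 1910) (Node.mv (nat_lit 0x1000001800000000001e000000000000000000) (nat_lit 0x400000c00002000000f000006000002) (nat_lit 49) (nat_lit 1) (nat_lit 0x7754019000000674218))) (Tree.tip (nat_lit 1911) (Node.mv (nat_lit 0x1000001800000000001c000000000000000000) (nat_lit 0x400000c00002300007f000006000002) (nat_lit 73) (nat_lit 2) (nat_lit 0x7764018000000534218000005854218)))))) (Tree.br (nat_lit 1916) (Tree.br (nat_lit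 1914) (Tree.br (nat_lit 1913) (Tree.tip (nat_lit 1912) (Node.mv (nat_lit 0x1000001800000000001c000000000000000000) (nat_lit 0x400000f00002300003b000002000002) (nat_lit 73) (nat_lit 1) (nat_lit 0x3bb4018000005854218))) (Tree.tip (nat_lit 1913) (Node.img (nat_lit 0x200000000001e000004) (nat_lit 0x2000000000003000000000000) (nat_lit 279) (nat_lit 7) (nat_lit 132) (nat_lit 132)))) (Tree.br (nat_lit 1915) (Tree.tip (nat_lit 1914) (Node.mv (nat_lit 0x800000c00000000001e000004) (nat_lit 0x72000013000003000000000000) (nat_lit 73) (nat_lit 1) (nat_lit 0x1a4318000007794018))) (Tree.tip (nat_lit 1915) (Node.mv (nat_lit 0x800000c00000000001e000000) (nat_lit 0x72000013000007000000000004) (nat_lit 2) (nat_lit 1) (nat_lit 0x77a401800000311401a))))) (Tree.br (nat_lit 1918) (Tree.br (nat_lit 1917) (Tree.tip (nat_lit 1916) (Node.mv (nat_lit 0x800000c00000000001e000004) (nat_lit 0x70000013000000000020000072) (nat_lit 73) (nat_lit 1) (nat_lit 0x22b40190000001a4318))) (Tree.tip (nat_lit 1917) (Node.img (nat_lit 0x1e000004)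 (nat_lit 0x3000020000072) (nat_lit 482) (nat_lit 6) (nat_lit 134) (nat_lit 128)))) (Tree.br (nat_lit 1919) (Tree.tip (nat_lit 1918) (Node.mv (nat_lit 0x800000c00000000001e000000) (nat_lit 0x72000013000003000020000076) (nat_lit 2) (nat_lit 2) (nat_lit 0x77c40180000077a40180000077d4018))) (Tree.tip (nat_lit 1919) (Node.mv (nat_lit 0x800000c00000000001e000000) (nat_lit 0x70000013000004000020000076) (nat_lit 2) (nat_lit 1) (nat_lit 0x77c401800000311401a))))))))))
noncomputable def t0_15 : Tree := (Tree.br (nat_lit 1984) (Tree.br (nat_lit 1952) (Tree.br (nat_lit 1936) (Tree.br (nat_lit 1928) (Tree.br (nat_lit 1924) (Tree.br (nat_lit 1922) (Tree.br (nat_lit 1921) (Tree.tip (nat_lit 1920) (Node.mv (nat_lit 0x800000c00000000001e000000) (nat_lit 0x7000020000076) (nat_lit 2) (nat_lit 1) (nat_lit 0x77d401800000311401a))) (Tree.tip (nat_lit 1921) (Node.mv (nat_lit 0x800000c00000000000e000000) (nat_lit 0x72000013000007000030000076) (nat_lit 28) (nat_lit 4) (nat_lit 0x77e40180000076440180000077f40180000077b4018000007804018))))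 (Tree.br (nat_lit 1923) (Tree.tip (nat_lit 1922) (Node.mv (nat_lit 0x1c00000200001e000000) (nat_lit 0x7000002000000000000000007) (nat_lit 73) (nat_lit 1) (nat_lit 0x6e34018000005954018))) (Tree.tip (nat_lit 1923) (Node.mv (nat_lit 0x1800000200001e000000000000) (nat_lit 0x400000700002600000400000000000f000002) (nat_lit 98) (nat_lit 3) (nat_lit 0x7484018000007824118000007474119000005804018))))) (Tree.br (nat_lit 1926) (Tree.br (nat_lit 1925) (Tree.tip (nat_lit 1924) (Node.mv (nat_lit 0x1800000000001e000000000000) (nat_lit 0x400000700002600000700000000000f000002) (nat_lit 73) (nat_lit 1) (nat_lit 0x7834018000000244218))) (Tree.tip (nat_lit 1925) (Node.mv (nat_lit 0x2000002000000000003c000000) (nat_lit 0x400000c00000420000e7) (nat_lit 25) (nat_lit 1) (nat_lit 0x74b401a0000006e4018)))) (Tree.br (nat_lit 1927) (Tree.tip (nat_lit 1926) (Node.mv (nat_lit 0x2000002000000000003c000000) (nat_lit 0x400000c70000420000e0) (nat_lit 25) (nat_lit 1) (nat_lit 0x74b401a000000694118))) (Tree.tip (nat_lit 1927) (Node.mv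 (nat_lit 0x3e000000) (nat_lit 0xc100003c) (nat_lit 4) (nat_lit 1) (nat_lit 0x4154018000000284019)))))) (Tree.br (nat_lit 1932) (Tree.br (nat_lit 1930) (Tree.br (nat_lit 1929) (Tree.tip (nat_lit 1928) (Node.mv (nat_lit 0x78000000) (nat_lit 0x18600007f) (nat_lit 26) (nat_lit 2) (nat_lit 0x11f40180000078740190000006e4019))) (Tree.tip (nat_lit 1929) (Node.mv (nat_lit 0x3c000000) (nat_lit 0x70000c300003c) (nat_lit 25) (nat_lit 1) (nat_lit 0x7874018000000694118)))) (Tree.br (nat_lit 1931) (Tree.tip (nat_lit 1930) (Node.img (nat_lit 0x78000000) (nat_lit 0xe000006000077) (nat_lit 707) (nat_lit 7) (nat_lit 134) (nat_lit 130))) (Tree.tip (nat_lit 1931) (Node.mv (nat_lit 0x70000000) (nat_lit 0x1e00018e00007f) (nat_lit 27) (nat_lit 4) (nat_lit 0x78940190000078a401800000788401800000058401a000000db4019))))) (Tree.br (nat_lit 1934) (Tree.br (nat_lit 1933) (Tree.tip (nat_lit 1932) (Node.mv (nat_lit 0x38000000) (nat_lit 0xf0000460000f7) (nat_lit 26) (nat_lit 2) (nat_lit 0xdb40180000011f4018000000dc4019))) (Tree.tip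 (nat_lit 1933) (Node.img (nat_lit 0x1e000000) (nat_lit 0xe00000e10000fc) (nat_lit 686) (nat_lit 5) (nat_lit 128) (nat_lit 130)))) (Tree.br (nat_lit 1935) (Tree.tip (nat_lit 1934) (Node.mv (nat_lit 0x70000000) (nat_lit 0x39e00038e0003f7) (nat_lit 27) (nat_lit 3) (nat_lit 0x78a40180000078d401a0000072c401a0000052f4019))) (Tree.tip (nat_lit 1935) (Node.mv (nat_lit 0x800000800000000000e000000) (nat_lit 0x10000070000030000077) (nat_lit 28) (nat_lit 2) (nat_lit 0x534018000001c14018000003004019))))))) (Tree.br (nat_lit 1944) (Tree.br (nat_lit 1940) (Tree.br (nat_lit 1938) (Tree.br (nat_lit 1937) (Tree.tip (nat_lit 1936) (Node.mv (nat_lit 0x200000000000f000001) (nat_lit 0x2000000000003000010000038) (nat_lit 28) (nat_lit 1) (nat_lit 0x70c4018000000774018))) (Tree.tip (nat_lit 1937) (Node.mv (nat_lit 0x400000000001e000000) (nat_lit 0x4000000000006000020000073) (nat_lit 1) (nat_lit 1) (nat_lit 0x7904019000000674018)))) (Tree.br (nat_lit 1939) (Tree.tip (nat_lit 1938) (Node.mv (nat_lit 0x200000000000f000001000000000000)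 (nat_lit 0x2000000000003000000000018000001000001) (nat_lit 51) (nat_lit 1) (nat_lit 0x7444018000000284218))) (Tree.tip (nat_lit 1939) (Node.mv (nat_lit 0x400000000001e000000000000000000) (nat_lit 0x4000000000006000000000033000002000002) (nat_lit 49) (nat_lit 1) (nat_lit 0x7924019000000674218))))) (Tree.br (nat_lit 1942) (Tree.br (nat_lit 1941) (Tree.tip (nat_lit 1940) (Node.mv (nat_lit 0x1000000000003c000000000000000000) (nat_lit 0x1000000000001f00000200000f000008000008) (nat_lit 51) (nat_lit 1) (nat_lit 0xdb421800000744401b))) (Tree.tip (nat_lit 1941) (Node.img (nat_lit 0x3000002000000000003000000) (nat_lit 0x1000000000000000002000000000001) (nat_lit 189) (nat_lit 7) (nat_lit 129) (nat_lit 133)))) (Tree.br (nat_lit 1943) (Tree.tip (nat_lit 1942) (Node.mv (nat_lit 0xc00000c000000000006000000) (nat_lit 0x2000003000030000004000000000002) (nat_lit 97) (nat_lit 1) (nat_lit 0x4d4318000007954019))) (Tree.tip (nat_lit 1943) (Node.mv (nat_lit 0x800001c00000000001e000000) (nat_lit 0x6000060000004000000000003)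 (nat_lit 98) (nat_lit 1) (nat_lit 0x24b4018000000264319)))))) (Tree.br (nat_lit 1948) (Tree.br (nat_lit 1946) (Tree.br (nat_lit 1945) (Tree.tip (nat_lit 1944) (Node.mv (nat_lit 0x1000000800001e000000000000) (nat_lit 0x10000000000010000001000008000008) (nat_lit 76) (nat_lit 1) (nat_lit 0x37401b000000164218))) (Tree.tip (nat_lit 1945) (Node.mv (nat_lit 0x1000000800003c000000000000) (nat_lit 0x1000000000001000000300000f000008) (nat_lit 49) (nat_lit 1) (nat_lit 0x79840180000006e4118)))) (Tree.br (nat_lit 1947) (Tree.tip (nat_lit 1946) (Node.img (nat_lit 0x2000002000001000001000000) (nat_lit 0x2000002000001000001000000000000000001) (nat_lit 392) (nat_lit 7) (nat_lit 129) (nat_lit 134))) (Tree.tip (nat_lit 1947) (Node.mv (nat_lit 0x400000200000f000000) (nat_lit 0x400000400000600000200000400000000001a) (nat_lit 98) (nat_lit 2) (nat_lit 0x79a4019000007274018000005164019))))) (Tree.br (nat_lit 1950) (Tree.br (nat_lit 1949) (Tree.tip (nat_lit 1948) (Node.img (nat_lit 0x1a00001a) (nat_lit 0x1000005) (nat_lit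 92) (nat_lit 4) (nat_lit 128) (nat_lit 128))) (Tree.tip (nat_lit 1949) (Node.mv (nat_lit 0x1a00001800000000001e000000) (nat_lit 0x1000007000003000000000004) (nat_lit 73) (nat_lit 1) (nat_lit 0x79c4318000007124018)))) (Tree.br (nat_lit 1951) (Tree.tip (nat_lit 1950) (Node.mv (nat_lit 0x1a00000800000000001e000000) (nat_lit 0x4000007000003000000000004) (nat_lit 73) (nat_lit 1) (nat_lit 0x7124018000006a74318))) (Tree.tip (nat_lit 1951) (Node.mv (nat_lit 0x1800001800000000001e000000) (nat_lit 0x7000027000003000000000004) (nat_lit 97) (nat_lit 2) (nat_lit 0x79d40180000079e4018000000294318)))))))) (Tree.br (nat_lit 1968) (Tree.br (nat_lit 1960) (Tree.br (nat_lit 1956) (Tree.br (nat_lit 1954) (Tree.br (nat_lit 1953) (Tree.tip (nat_lit 1952) (Node.mv (nat_lit 0x400000000000e000001000000000000) (nat_lit 0x4000000000006000010000002000002000002) (nat_lit 49) (nat_lit 1) (nat_lit 0x7444019000000184218))) (Tree.tip (nat_lit 1953) (Node.mv (nat_lit 0x800000000001e000000000000000000) (nat_lit 0x800000000000c000020000007000004000004)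 (nat_lit 49) (nat_lit 1) (nat_lit 0x7a04019000000674218)))) (Tree.br (nat_lit 1955) (Tree.tip (nat_lit 1954) (Node.mv (nat_lit 0x1000000000003c000000) (nat_lit 0x1000000000001700000200002f) (nat_lit 100) (nat_lit 1) (nat_lit 0xdb40180000073b401b))) (Tree.tip (nat_lit 1955) (Node.mv (nat_lit 0x800001800000000001e000000) (nat_lit 0x24000007000020000004) (nat_lit 49) (nat_lit 1) (nat_lit 0x4f04019000000244118))))) (Tree.br (nat_lit 1958) (Tree.br (nat_lit 1957) (Tree.tip (nat_lit 1956) (Node.mv (nat_lit 0xc00000c00000100000e) (nat_lit 0x2000072000002000010) (nat_lit 52) (nat_lit 1) (nat_lit 0x4e54018000000264219))) (Tree.tip (nat_lit 1957) (Node.mv (nat_lit 0x1800001800000000001e) (nat_lit 0x40000e4000007000020) (nat_lit 25) (nat_lit 1) (nat_lit 0x7a44019000000244018)))) (Tree.br (nat_lit 1959) (Tree.tip (nat_lit 1958) (Node.mv (nat_lit 0x1000000000003c000000) (nat_lit 0x10000000000017000002000067) (nat_lit 100) (nat_lit 1) (nat_lit 0xdb401800000727401a))) (Tree.tip (nat_lit 1959) (Node.mv (nat_lit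 0x800000c00000000000f000000) (nat_lit 0x200000700003000003400001000003a) (nat_lit 98) (nat_lit 2) (nat_lit 0x79640180000074b40180000073b4019)))))) (Tree.br (nat_lit 1964) (Tree.br (nat_lit 1962) (Tree.br (nat_lit 1961) (Tree.tip (nat_lit 1960) (Node.mv (nat_lit 0x400000400000100000e000000) (nat_lit 0x2000006000010000002) (nat_lit 49) (nat_lit 1) (nat_lit 0x5164019000000254118))) (Tree.tip (nat_lit 1961) (Node.mv (nat_lit 0x800000800000000001e000000) (nat_lit 0x400000f000020000004) (nat_lit 49) (nat_lit 1) (nat_lit 0x7a84019000000244118)))) (Tree.br (nat_lit 1963) (Tree.tip (nat_lit 1962) (Node.mv (nat_lit 0x1000001800000000001e000000) (nat_lit 0x400000e0000e400000f000020000004) (nat_lit 99) (nat_lit 2) (nat_lit 0x7a54118000007a94018000007964019))) (Tree.tip (nat_lit 1963) (Node.img (nat_lit 0x400000400001e000000000000000000) (nat_lit 0x100003c000008000008) (nat_lit 317) (nat_lit 7) (nat_lit 133) (nat_lit 133))))) (Tree.br (nat_lit 1966) (Tree.br (nat_lit 1965) (Tree.tip (nat_lit 1964) (Node.mv (nat_lit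 0x400000000001e000000000000000000) (nat_lit 0x400000000000400000100003f000008000008) (nat_lit 98) (nat_lit 1) (nat_lit 0x7ab40180000025b4218))) (Tree.tip (nat_lit 1965) (Node.mv (nat_lit 0x1000001c00000000001e000000) (nat_lit 0xe0000022000000000000000003) (nat_lit 0) (nat_lit 1) (nat_lit 0x1a43190000012c4018)))) (Tree.br (nat_lit 1967) (Tree.tip (nat_lit 1966) (Node.img (nat_lit 0x1e000002000002000000) (nat_lit 0x4000007000000000000000000000002) (nat_lit 177) (nat_lit 7) (nat_lit 132) (nat_lit 133))) (Tree.tip (nat_lit 1967) (Node.mv (nat_lit 0x1e000000000002000000) (nat_lit 0x4000007000000000003000000000002) (nat_lit 49) (nat_lit 1) (nat_lit 0x7ae4018000000674218))))))) (Tree.br (nat_lit 1976) (Tree.br (nat_lit 1972) (Tree.br (nat_lit 1970) (Tree.br (nat_lit 1969) (Tree.tip (nat_lit 1968) (Node.img (nat_lit 0x1c00000400001e) (nat_lit 0x20000003000000) (nat_lit 1403) (nat_lit 2) (nat_lit 128) (nat_lit 130))) (Tree.tip (nat_lit 1969) (Node.mv (nat_lit 0x1c00000000001e000000000000000000) (nat_lit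 0x400002000000700000000000c000008000008) (nat_lit 98) (nat_lit 1) (nat_lit 0x492401a000007b04318)))) (Tree.br (nat_lit 1971) (Tree.tip (nat_lit 1970) (Node.mv (nat_lit 0x1c00000000001e000000000000) (nat_lit 0x20000007000000000003000002) (nat_lit 73) (nat_lit 1) (nat_lit 0x7484018000000244218))) (Tree.tip (nat_lit 1971) (Node.img (nat_lit 0x400000400001e000000) (nat_lit 0x4000000000000000001000038) (nat_lit 316) (nat_lit 7) (nat_lit 133) (nat_lit 132))))) (Tree.br (nat_lit 1974) (Tree.br (nat_lit 1973) (Tree.tip (nat_lit 1972) (Node.mv (nat_lit 0xc00000000001e000000000000000000) (nat_lit 0x800000800000c00000000000400000100003c000008000008) (nat_lit 98) (nat_lit 3) (nat_lit 0x7b34218000007ab401800000421421a00000492401a))) (Tree.tip (nat_lit 1973) (Node.img (nat_lit 0xc00000400001e000000000000) (nat_lit 0x8000000000000000000000007000002) (nat_lit 745) (nat_lit 7) (nat_lit 132) (nat_lit 133)))) (Tree.br (nat_lit 1975) (Tree.tip (nat_lit 1974) (Node.mv (nat_lit 0xc00000000001e000000000000) (nat_lit 0x800000800000c000000000004000000000007000002)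 (nat_lit 74) (nat_lit 2) (nat_lit 0x7b5401800000421411a0000025b4118))) (Tree.tip (nat_lit 1975) (Node.img (nat_lit 0x1e000002000002) (nat_lit 0x4000007000020000000000000) (nat_lit 305) (nat_lit 6) (nat_lit 133) (nat_lit 128)))))) (Tree.br (nat_lit 1980) (Tree.br (nat_lit 1978) (Tree.br (nat_lit 1977) (Tree.tip (nat_lit 1976) (Node.mv (nat_lit 0x1e000000000002) (nat_lit 0x4000007000020000003000000) (nat_lit 25) (nat_lit 1) (nat_lit 0x7b74018000000674118))) (Tree.tip (nat_lit 1977) (Node.mv (nat_lit 0x1c00000000001e000000) (nat_lit 0x4000004000020000007000000000008) (nat_lit 49) (nat_lit 1) (nat_lit 0x7474019000000244118)))) (Tree.br (nat_lit 1979) (Tree.tip (nat_lit 1978) (Node.img (nat_lit 0xf000001000001000000000000) (nat_lit 0x2000010000002000000000001000001) (nat_lit 361) (nat_lit 5) (nat_lit 128) (nat_lit 133))) (Tree.tip (nat_lit 1979) (Node.mv (nat_lit 0x1e000000000002000000000000) (nat_lit 0x4000020000007000000000002000002) (nat_lit 73) (nat_lit 1) (nat_lit 0x7ba4019000000674318))))) (Tree.br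 (nat_lit 1982) (Tree.br (nat_lit 1981) (Tree.tip (nat_lit 1980) (Node.img (nat_lit 0x1e000000000006000000) (nat_lit 0x3000000000003000000000004) (nat_lit 888) (nat_lit 7) (nat_lit 132) (nat_lit 132))) (Tree.tip (nat_lit 1981) (Node.mv (nat_lit 0x1e000000000004000000) (nat_lit 0x73000020000073000002000004) (nat_lit 25) (nat_lit 1) (nat_lit 0x7c4219000007bc4018)))) (Tree.br (nat_lit 1983) (Tree.tip (nat_lit 1982) (Node.mv (nat_lit 0x800001e000000) (nat_lit 0x340000e0000073) (nat_lit 52) (nat_lit 1) (nat_lit 0x5d940180000002a4119))) (Tree.tip (nat_lit 1983) (Node.img (nat_lit 0x1e000000) (nat_lit 0x37000020000070) (nat_lit 145) (nat_lit 4) (nat_lit 128) (nat_lit 128))))))))) (Tree.br (nat_lit 2016) (Tree.br (nat_lit 2000) (Tree.br (nat_lit 1992) (Tree.br (nat_lit 1988) (Tree.br (nat_lit 1986) (Tree.br (nat_lit 1985) (Tree.tip (nat_lit 1984) (Node.img (nat_lit 0x1e000000000004000000) (nat_lit 0x4000007000000000003000002000006) (nat_lit 1166) (nat_lit 4) (nat_lit 128) (nat_lit 128))) (Tree.tip (nat_lit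 1985) (Node.mv (nat_lit 0x800000e000000000004000000) (nat_lit 0x40000770000f0000073000002000006) (nat_lit 76) (nat_lit 3) (nat_lit 0x7bd4018000007be4218000007c04018000007bf4218)))) (Tree.br (nat_lit 1987) (Tree.tip (nat_lit 1986) (Node.mv (nat_lit 0x400000e000002000006000000) (nat_lit 0x2000030000001000000000004) (nat_lit 76) (nat_lit 1) (nat_lit 0x5d44019000000674218))) (Tree.tip (nat_lit 1987) (Node.img (nat_lit 0x8000008000006000018000000) (nat_lit 0x9000000000010) (nat_lit 965) (nat_lit 6) (nat_lit 132) (nat_lit 128))))) (Tree.br (nat_lit 1990) (Tree.br (nat_lit 1989) (Tree.tip (nat_lit 1988) (Node.mv (nat_lit 0x800001c000004000018000000) (nat_lit 0x2000000b000000000010) (nat_lit 49) (nat_lit 1) (nat_lit 0x7c34018000000184219))) (Tree.tip (nat_lit 1989) (Node.mv (nat_lit 0x200000e000001000006000000) (nat_lit 0x10000002000000000004) (nat_lit 49) (nat_lit 1) (nat_lit 0x184218000000394019)))) (Tree.br (nat_lit 1991) (Tree.tip (nat_lit 1990) (Node.mv (nat_lit 0x400001e00000000000c000000) (nat_lit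 0x20000007000000000008) (nat_lit 49) (nat_lit 1) (nat_lit 0x7c54019000000674218))) (Tree.tip (nat_lit 1991) (Node.mv (nat_lit 0x600000200000f000000) (nat_lit 0x400000000000400000000001a) (nat_lit 98) (nat_lit 1) (nat_lit 0x7274018000000414019)))))) (Tree.br (nat_lit 1996) (Tree.br (nat_lit 1994) (Tree.br (nat_lit 1993) (Tree.tip (nat_lit 1992) (Node.img (nat_lit 0x3000001000007000000) (nat_lit 0x2000002000000000002000000000005) (nat_lit 546) (nat_lit 1) (nat_lit 130) (nat_lit 128))) (Tree.tip (nat_lit 1993) (Node.mv (nat_lit 0x1e00000000000e000000) (nat_lit 0x400000400000000000700000000000a) (nat_lit 49) (nat_lit 1) (nat_lit 0x7c84019000000674218)))) (Tree.br (nat_lit 1995) (Tree.tip (nat_lit 1994) (Node.mv (nat_lit 0x1e00000400000c000000) (nat_lit 0x400000400000000000300000200000a) (nat_lit 49) (nat_lit 1) (nat_lit 0x3b4019000000674218))) (Tree.tip (nat_lit 1995) (Node.mv (nat_lit 0x800001e00000000000c000000) (nat_lit 0x400000400000000000700000200000e) (nat_lit 50) (nat_lit 1) (nat_lit 0x7ca401800000041401a)))))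 (Tree.br (nat_lit 1998) (Tree.br (nat_lit 1997) (Tree.tip (nat_lit 1996) (Node.mv (nat_lit 0x1e00000000000c000000) (nat_lit 0x600000600002000000700000200000a) (nat_lit 50) (nat_lit 2) (nat_lit 0x7ca4018000005cb4019000000b04218))) (Tree.tip (nat_lit 1997) (Node.mv (nat_lit 0x800000e00000000000c000000) (nat_lit 0x600003600003100000700000200000a) (nat_lit 76) (nat_lit 1) (nat_lit 0x7cc4018000000524318)))) (Tree.br (nat_lit 1999) (Tree.tip (nat_lit 1998) (Node.mv (nat_lit 0x1c00000200001a) (nat_lit 0x2000001000004) (nat_lit 24) (nat_lit 1) (nat_lit 0x144118000003d74018))) (Tree.tip (nat_lit 1999) (Node.mv (nat_lit 0x800000e000005000001000000) (nat_lit 0x2000002000012000001000002000000000001) (nat_lit 97) (nat_lit 1) (nat_lit 0x37940180000037a4118))))))) (Tree.br (nat_lit 2008) (Tree.br (nat_lit 2004) (Tree.br (nat_lit 2002) (Tree.br (nat_lit 2001) (Tree.tip (nat_lit 2000) (Node.mv (nat_lit 0x1000001c00000000001e) (nat_lit 0x68000022000003000000) (nat_lit 25) (nat_lit 1) (nat_lit 0x174219000000244018)))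 (Tree.tip (nat_lit 2001) (Node.mv (nat_lit 0x400000c00000800001a000000) (nat_lit 0x8000000000004000004000017) (nat_lit 26) (nat_lit 1) (nat_lit 0x24b4018000001c3401a)))) (Tree.br (nat_lit 2003) (Tree.tip (nat_lit 2002) (Node.img (nat_lit 0x1000003000000000003000000) (nat_lit 0x2000002000000000001000000000003) (nat_lit 732) (nat_lit 5) (nat_lit 128) (nat_lit 133))) (Tree.tip (nat_lit 2003) (Node.mv (nat_lit 0x1800000000003c000000) (nat_lit 0x1000001800000000000800000200007f) (nat_lit 99) (nat_lit 2) (nat_lit 0x11f4018000007d2401b0000024b4019))))) (Tree.br (nat_lit 2006) (Tree.br (nat_lit 2005) (Tree.tip (nat_lit 2004) (Node.mv (nat_lit 0x1000001c00000000001e000000) (nat_lit 0xe4000022000004000000000003) (nat_lit 98) (nat_lit 1) (nat_lit 0x1a43190000024b4018))) (Tree.tip (nat_lit 2005) (Node.mv (nat_lit 0x800000e000000000006000000) (nat_lit 0x4000076000011000002000000000006) (nat_lit 97) (nat_lit 2) (nat_lit 0x1a4318000007d24019000000174318)))) (Tree.br (nat_lit 2007) (Tree.tip (nat_lit 2006) (Node.img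 (nat_lit 0x400000c00000000001e000000) (nat_lit 0x8000001000038) (nat_lit 1423) (nat_lit 1) (nat_lit 133) (nat_lit 128))) (Tree.tip (nat_lit 2007) (Node.mv (nat_lit 0xc00000000001e000000) (nat_lit 0x400000000000c00000100003b) (nat_lit 98) (nat_lit 1) (nat_lit 0x7d640180000024b4018)))))) (Tree.br (nat_lit 2012) (Tree.br (nat_lit 2010) (Tree.br (nat_lit 2009) (Tree.tip (nat_lit 2008) (Node.mv (nat_lit 0x800000000003c000000) (nat_lit 0x8000000000008000002000077) (nat_lit 99) (nat_lit 2) (nat_lit 0x11f40180000056840190000024b4019))) (Tree.tip (nat_lit 2009) (Node.mv (nat_lit 0xc00000000001e000000) (nat_lit 0xc00000000000c000000000037) (nat_lit 99) (nat_lit 2) (nat_lit 0x723401800000727401900000582401a)))) (Tree.br (nat_lit 2011) (Tree.tip (nat_lit 2010) (Node.mv (nat_lit 0x1c00000000001e000000) (nat_lit 0x4000020000007000000000003) (nat_lit 50) (nat_lit 1) (nat_lit 0x7b041180000025b4018))) (Tree.tip (nat_lit 2011) (Node.mv (nat_lit 0x1e000004000004) (nat_lit 0x2000033000000000003000000) (nat_lit 77)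 (nat_lit 1) (nat_lit 0x6c4018000000214219))))) (Tree.br (nat_lit 2014) (Tree.br (nat_lit 2013) (Tree.tip (nat_lit 2012) (Node.mv (nat_lit 0x1e000000000004) (nat_lit 0x2000073000020000077000000) (nat_lit 26) (nat_lit 2) (nat_lit 0x7db40180000007c4119000000b04118))) (Tree.tip (nat_lit 2013) (Node.img (nat_lit 0x1e000000000004) (nat_lit 0x2000003000020000007000000) (nat_lit 1555) (nat_lit 6) (nat_lit 133) (nat_lit 128)))) (Tree.br (nat_lit 2015) (Tree.tip (nat_lit 2014) (Node.mv (nat_lit 0x800000e000000000004) (nat_lit 0x2000033000031000007000000) (nat_lit 52) (nat_lit 1) (nat_lit 0x7dd4018000000524218))) (Tree.tip (nat_lit 2015) (Node.mv (nat_lit 0x400001e00000000000c000000) (nat_lit 0x2000003000000000004000000000008) (nat_lit 97) (nat_lit 1) (nat_lit 0x2fb4019000000244318)))))))) (Tree.br (nat_lit 2032) (Tree.br (nat_lit 2024) (Tree.br (nat_lit 2020) (Tree.br (nat_lit 2018) (Tree.br (nat_lit 2017) (Tree.tip (nat_lit 2016) (Node.mv (nat_lit 0x1000003c000000000018000000) (nat_lit 0x400000e00000300000f000000000010)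 (nat_lit 99) (nat_lit 1) (nat_lit 0x7df40190000033d4218))) (Tree.tip (nat_lit 2017) (Node.mv (nat_lit 0x2000002000002000000000006000000) (nat_lit 0x1000001000001000000000002000000000004) (nat_lit 49) (nat_lit 1) (nat_lit 0x104118000000394019)))) (Tree.br (nat_lit 2019) (Tree.tip (nat_lit 2018) (Node.mv (nat_lit 0x6000007000000000006000000) (nat_lit 0x2000003000003000001000000000003000000000004) (nat_lit 121) (nat_lit 1) (nat_lit 0x7e14018000004814218))) (Tree.tip (nat_lit 2019) (Node.mv (nat_lit 0x600000000000f000000) (nat_lit 0x400000400000600000000000600000000001a) (nat_lit 98) (nat_lit 2) (nat_lit 0x70f4019000007274018000005824019))))) (Tree.br (nat_lit 2022) (Tree.br (nat_lit 2021) (Tree.tip (nat_lit 2020) (Node.mv (nat_lit 0x1000001c00000000001e000000) (nat_lit 0x68000022000000000000000003) (nat_lit 1) (nat_lit 1) (nat_lit 0x174319000000674018))) (Tree.tip (nat_lit 2021) (Node.mv (nat_lit 0x1000001c00000000001e000002) (nat_lit 0x24000002000003000000000000) (nat_lit 49) (nat_lit 1) (nat_lit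 0x6e54019000000244118)))) (Tree.br (nat_lit 2023) (Tree.tip (nat_lit 2022) (Node.mv (nat_lit 0x1000001c00000000001e000000) (nat_lit 0x24000002000003000000000003) (nat_lit 1) (nat_lit 1) (nat_lit 0x7e54018000000674018))) (Tree.tip (nat_lit 2023) (Node.img (nat_lit 0xe000001000001000001000000) (nat_lit 0x10000002000000000000000001) (nat_lit 360) (nat_lit 2) (nat_lit 128) (nat_lit 132)))))) (Tree.br (nat_lit 2028) (Tree.br (nat_lit 2026) (Tree.br (nat_lit 2025) (Tree.tip (nat_lit 2024) (Node.mv (nat_lit 0x1c00000000001e000002000000) (nat_lit 0x20000007000000000000000002) (nat_lit 73) (nat_lit 1) (nat_lit 0x7e74019000000244218))) (Tree.tip (nat_lit 2025) (Node.mv (nat_lit 0x400001e00000000000c000000) (nat_lit 0x2000033000000000004000000000008) (nat_lit 101) (nat_lit 1) (nat_lit 0x7df4018000000214319)))) (Tree.br (nat_lit 2027) (Tree.tip (nat_lit 2026) (Node.img (nat_lit 0x600000f) (nat_lit 0x38000030) (nat_lit 158) (nat_lit 6) (nat_lit 133) (nat_lit 128))) (Tree.tip (nat_lit 2027) (Node.mv (nat_lit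 0x800001e00000000000c000000) (nat_lit 0x2000077000060000004000000000008) (nat_lit 98) (nat_lit 2) (nat_lit 0x7e94018000007ea4319000000c74318))))) (Tree.br (nat_lit 2030) (Tree.br (nat_lit 2029) (Tree.tip (nat_lit 2028) (Node.mv (nat_lit 0x1e00000000000c000000) (nat_lit 0x2000007000020000007000000000008) (nat_lit 98) (nat_lit 2) (nat_lit 0x7df4018000007c64018000000c74318))) (Tree.tip (nat_lit 2029) (Node.mv (nat_lit 0x400001e00000000000c000000) (nat_lit 0x400000000000000000700000200000a) (nat_lit 49) (nat_lit 1) (nat_lit 0x5924019000000674218)))) (Tree.br (nat_lit 2031) (Tree.tip (nat_lit 2030) (Node.mv (nat_lit 0x1e00000000000c000000) (nat_lit 0x600000700000000000700000200000a) (nat_lit 98) (nat_lit 2) (nat_lit 0x7ed40180000033e4018000007df4018))) (Tree.tip (nat_lit 2031) (Node.mv (nat_lit 0xe00000600000000000c000000) (nat_lit 0x100003800000800000000000c) (nat_lit 75) (nat_lit 1) (nat_lit 0x527401a000000264318))))))) (Tree.br (nat_lit 2040) (Tree.br (nat_lit 2036) (Tree.br (nat_lit 2034) (Tree.br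 (nat_lit 2033) (Tree.tip (nat_lit 2032) (Node.mv (nat_lit 0x400000e00000000000e000000) (nat_lit 0x10000038000000000078000011000004) (nat_lit 51) (nat_lit 1) (nat_lit 0x5b440190000001a4118))) (Tree.tip (nat_lit 2033) (Node.mv (nat_lit 0x400000c000007000000000000) (nat_lit 0x400000400000000000000000800001a000008) (nat_lit 51) (nat_lit 1) (nat_lit 0x2c94018000004814119)))) (Tree.br (nat_lit 2035) (Tree.tip (nat_lit 2034) (Node.mv (nat_lit 0x400000e000018000008) (nat_lit 0x10000033000030000000000000) (nat_lit 52) (nat_lit 1) (nat_lit 0x614019000000c74218))) (Tree.tip (nat_lit 2035) (Node.img (nat_lit 0xf000008000007000000) (nat_lit 0x1c00000000000000000800001c) (nat_lit 1922) (nat_lit 3) (nat_lit 132) (nat_lit 132))))) (Tree.br (nat_lit 2038) (Tree.br (nat_lit 2037) (Tree.tip (nat_lit 2036) (Node.mv (nat_lit 0xf000000000007000000) (nat_lit 0x1c00000000001800000800001c) (nat_lit 51) (nat_lit 1) (nat_lit 0x7f34018000000284218))) (Tree.tip (nat_lit 2037) (Node.mv (nat_lit 0x400000e00000000000e000000) (nat_lit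 0x3b000030000030000010000038) (nat_lit 76) (nat_lit 1) (nat_lit 0x7f44019000000c74318)))) (Tree.br (nat_lit 2039) (Tree.tip (nat_lit 2038) (Node.img (nat_lit 0xc00000800000f000000) (nat_lit 0x4000000000000000000000018) (nat_lit 527) (nat_lit 2) (nat_lit 128) (nat_lit 132))) (Tree.tip (nat_lit 2039) (Node.mv (nat_lit 0x400000e00001000001e000000) (nat_lit 0xb000030000000000000000030) (nat_lit 76) (nat_lit 1) (nat_lit 0x7f64019000000c74318)))))) (Tree.br (nat_lit 2044) (Tree.br (nat_lit 2042) (Tree.br (nat_lit 2041) (Tree.tip (nat_lit 2040) (Node.mv (nat_lit 0x400000400001000001e000000000000000000) (nat_lit 0x18000008000001000008000008000008) (nat_lit 99) (nat_lit 1) (nat_lit 0x4dc401a000000164318))) (Tree.tip (nat_lit 2041) (Node.mv (nat_lit 0x400000400000000001e000000000000000000) (nat_lit 0x18000038000001000008000008000008) (nat_lit 100) (nat_lit 1) (nat_lit 0x7f840180000002a4319)))) (Tree.br (nat_lit 2043) (Tree.tip (nat_lit 2042) (Node.mv (nat_lit 0xa00000300000800000c000000) (nat_lit 0x4000014000008000000000000000004)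 (nat_lit 75) (nat_lit 1) (nat_lit 0x388411800000001401a))) (Tree.tip (nat_lit 2043) (Node.mv (nat_lit 0x800000800001000001f000000) (nat_lit 0x10000000000000000018) (nat_lit 4) (nat_lit 1) (nat_lit 0x2fd401b000000204018))))) (Tree.br (nat_lit 2046) (Tree.br (nat_lit 2045) (Tree.tip (nat_lit 2044) (Node.mv (nat_lit 0x1000001000002000003c000000) (nat_lit 0x20000007000002000030) (nat_lit 25) (nat_lit 1) (nat_lit 0x7fb4019000000694118))) (Tree.tip (nat_lit 2045) (Node.mv (nat_lit 0x1000001000000000003c000000) (nat_lit 0x20000067000002000030) (nat_lit 53) (nat_lit 1) (nat_lit 0x7fc40180000002a411a)))) (Tree.br (nat_lit 2047) (Tree.tip (nat_lit 2046) (Node.mv (nat_lit 0x10000010000000000078000000) (nat_lit 0x2000006700000600003e) (nat_lit 26) (nat_lit 1) (nat_lit 0x7fd40180000006e4019))) (Tree.tip (nat_lit 2047) (Node.mv (nat_lit 0x10000010000000000038000000000000000000) (nat_lit 0x600003e70001c60003be000020000020) (nat_lit 78) (nat_lit 3) (nat_lit 0x7fe4218000007f9401a000006e9421a0000052d4219))))))))))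
noncomputable def t0_16 : Tree := (Tree.br (nat_lit 2112) (Tree.br (nat_lit 2080) (Tree.br (nat_lit 2064) (Tree.br (nat_lit 2056) (Tree.br (nat_lit 2052) (Tree.br (nat_lit 2050) (Tree.br (nat_lit 2049) (Tree.tip (nat_lit 2048) (Node.img (nat_lit 0x3c000000) (nat_lit 0x67000002000007) (nat_lit 151) (nat_lit 5) (nat_lit 128) (nat_lit 130))) (Tree.tip (nat_lit 2049) (Node.mv (nat_lit 0x10000010000000000038000000) (nat_lit 0x20000067000006000077) (nat_lit 26) (nat_lit 2) (nat_lit 0x80040180000011f401800000300401a)))) (Tree.br (nat_lit 2051) (Tree.tip (nat_lit 2050) (Node.mv (nat_lit 0x1000001000000000003c000020) (nat_lit 0x20000027000002000010) (nat_lit 53) (nat_lit 1) (nat_lit 0x2f24018000002fd401c))) (Tree.tip (nat_lit 2051) (Node.mv (nat_lit 0x1000001000000000003c000000) (nat_lit 0x20000027000002000070) (nat_lit 5) (nat_lit 1) (nat_lit 0x802401800000028401a))))) (Tree.br (nat_lit 2054) (Tree.br (nat_lit 2053) (Tree.tip (nat_lit 2052) (Node.mv (nat_lit 0x3c000004) (nat_lit 0x7000043000038) (nat_lit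 3) (nat_lit 1) (nat_lit 0x10b401800000018401a))) (Tree.tip (nat_lit 2053) (Node.mv (nat_lit 0x3c000000) (nat_lit 0x700004300003e) (nat_lit 2) (nat_lit 1) (nat_lit 0x8044018000000674019)))) (Tree.br (nat_lit 2055) (Tree.tip (nat_lit 2054) (Node.mv (nat_lit 0x400000000001e000000000000000000) (nat_lit 0x4000000000006000000000003000002000002) (nat_lit 49) (nat_lit 1) (nat_lit 0x7444019000000674218))) (Tree.tip (nat_lit 2055) (Node.mv (nat_lit 0x800000c00000000001c000000000000000000) (nat_lit 0x4000010000036000002000033000002000002) (nat_lit 73) (nat_lit 1) (nat_lit 0x8064018000003004219)))))) (Tree.br (nat_lit 2060) (Tree.br (nat_lit 2058) (Tree.br (nat_lit 2057) (Tree.tip (nat_lit 2056) (Node.img (nat_lit 0x400000000001e000000000000) (nat_lit 0x7000020000003000002) (nat_lit 1555) (nat_lit 7) (nat_lit 133) (nat_lit 132))) (Tree.tip (nat_lit 2057) (Node.mv (nat_lit 0x800000c00000000001c000000000000) (nat_lit 0x10000037000022000033000002) (nat_lit 49) (nat_lit 1) (nat_lit 0x8084018000003004119)))) (Tree.br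 (nat_lit 2059) (Tree.tip (nat_lit 2058) (Node.mv (nat_lit 0x400000e00000000001e000000) (nat_lit 0x3000030000003000000000004) (nat_lit 97) (nat_lit 1) (nat_lit 0x7124018000000264318))) (Tree.tip (nat_lit 2059) (Node.mv (nat_lit 0x400000600000000001e000010) (nat_lit 0xb00003800000b00000000000c) (nat_lit 75) (nat_lit 1) (nat_lit 0x80a4018000004bc401a))))) (Tree.br (nat_lit 2062) (Tree.br (nat_lit 2061) (Tree.tip (nat_lit 2060) (Node.mv (nat_lit 0x400000600000000001e000000) (nat_lit 0xb00003800000b00000000003c) (nat_lit 4) (nat_lit 1) (nat_lit 0x80b4018000000284019))) (Tree.tip (nat_lit 2061) (Node.mv (nat_lit 0x200000000003e000008) (nat_lit 0x2000000000003000040000004) (nat_lit 2) (nat_lit 1) (nat_lit 0x779401800000018401a)))) (Tree.br (nat_lit 2063) (Tree.tip (nat_lit 2062) (Node.mv (nat_lit 0x200000000001e000008) (nat_lit 0x2000000000073000060000004) (nat_lit 29) (nat_lit 1) (nat_lit 0x80d4018000000794119))) (Tree.tip (nat_lit 2063) (Node.mv (nat_lit 0x200000000001e000008) (nat_lit 0x2000000000003000060000074)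 (nat_lit 29) (nat_lit 1) (nat_lit 0x80d4018000000774019))))))) (Tree.br (nat_lit 2072) (Tree.br (nat_lit 2068) (Tree.br (nat_lit 2066) (Tree.br (nat_lit 2065) (Tree.tip (nat_lit 2064) (Node.img (nat_lit 0xf000004000000000000) (nat_lit 0x8000018000000000018000004000004) (nat_lit 100) (nat_lit 5) (nat_lit 128) (nat_lit 133))) (Tree.tip (nat_lit 2065) (Node.mv (nat_lit 0x200000000001e000000000000000000) (nat_lit 0x200001000007300006000007c000008000008) (nat_lit 51) (nat_lit 3) (nat_lit 0x80f42180000080e42180000081040190000007c4219)))) (Tree.br (nat_lit 2067) (Tree.tip (nat_lit 2066) (Node.mv (nat_lit 0x200000200000000000f000004000000000000) (nat_lit 0xc00001c000000000000000004000004) (nat_lit 98) (nat_lit 1) (nat_lit 0x5584018000002fd4219))) (Tree.tip (nat_lit 2067) (Node.img (nat_lit 0xc00000000000f000008) (nat_lit 0x4000000000018000000000000) (nat_lit 736) (nat_lit 4) (nat_lit 128) (nat_lit 128))))) (Tree.br (nat_lit 2070) (Tree.br (nat_lit 2069) (Tree.tip (nat_lit 2068) (Node.mv (nat_lit 0x400000e00000000001e000010)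 (nat_lit 0xb000030000030000000000000) (nat_lit 76) (nat_lit 1) (nat_lit 0x8134019000000c74318))) (Tree.tip (nat_lit 2069) (Node.mv (nat_lit 0x400000600000000001e000010000000000000) (nat_lit 0xb000038000038000000000008000010000010) (nat_lit 123) (nat_lit 2) (nat_lit 0x4bb401a000008144218000004bc421a)))) (Tree.br (nat_lit 2071) (Tree.tip (nat_lit 2070) (Node.mv (nat_lit 0x400000600000000001e000000000000000000) (nat_lit 0xb000038000038000000000038000010000010) (nat_lit 52) (nat_lit 1) (nat_lit 0x8154018000000284219))) (Tree.tip (nat_lit 2071) (Node.mv (nat_lit 0x400000000001c000000000000000000) (nat_lit 0x40000200000f70000e20000f8000010000010) (nat_lit 77) (nat_lit 3) (nat_lit 0x8114019000001cd43180000052f42180000007b4219)))))) (Tree.br (nat_lit 2076) (Tree.br (nat_lit 2074) (Tree.br (nat_lit 2073) (Tree.tip (nat_lit 2072) (Node.mv (nat_lit 0x6000006000000000018000010) (nat_lit 0x9000038000008000000000008) (nat_lit 75) (nat_lit 1) (nat_lit 0x4bc401a000000264318))) (Tree.tip (nat_lit 2073) (Node.mv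 (nat_lit 0x400000400000000001c000020) (nat_lit 0x4000002000013) (nat_lit 25) (nat_lit 1) (nat_lit 0x24b4018000000204019)))) (Tree.br (nat_lit 2075) (Tree.tip (nat_lit 2074) (Node.mv (nat_lit 0x800000c00000000003c000020) (nat_lit 0x200001700007000001400000200001b) (nat_lit 98) (nat_lit 2) (nat_lit 0x8184019000002fc4018000008194018))) (Tree.tip (nat_lit 2075) (Node.mv (nat_lit 0x800000c00000000003c000000) (nat_lit 0x200001700007000001400000200007b) (nat_lit 5) (nat_lit 1) (nat_lit 0x81a401800000028401a))))) (Tree.br (nat_lit 2078) (Tree.br (nat_lit 2077) (Tree.tip (nat_lit 2076) (Node.mv (nat_lit 0x400000400000000003c000000) (nat_lit 0x74000002000003) (nat_lit 25) (nat_lit 1) (nat_lit 0x24b4018000000794119))) (Tree.tip (nat_lit 2077) (Node.mv (nat_lit 0x400000e000010000018000000) (nat_lit 0x33000030000000000000000008) (nat_lit 76) (nat_lit 1) (nat_lit 0x20f4019000000c74318)))) (Tree.br (nat_lit 2079) (Tree.tip (nat_lit 2078) (Node.img (nat_lit 0x800001000001e000000) (nat_lit 0x8000008000000000008000001000004)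 (nat_lit 1420) (nat_lit 1) (nat_lit 132) (nat_lit 128))) (Tree.tip (nat_lit 2079) (Node.mv (nat_lit 0x400000600001000001e000000) (nat_lit 0x800003b00003800000800000100000c) (nat_lit 75) (nat_lit 2) (nat_lit 0x81e40180000081d4018000005ac4018)))))))) (Tree.br (nat_lit 2096) (Tree.br (nat_lit 2088) (Tree.br (nat_lit 2084) (Tree.br (nat_lit 2082) (Tree.br (nat_lit 2081) (Tree.tip (nat_lit 2080) (Node.mv (nat_lit 0x400000600000000001e000000) (nat_lit 0x800003b00003800003800000100000c) (nat_lit 52) (nat_lit 1) (nat_lit 0x81f40180000002a4119))) (Tree.tip (nat_lit 2081) (Node.img (nat_lit 0x1e000000000000000000) (nat_lit 0x10000030000001000038000008000008) (nat_lit 347) (nat_lit 5) (nat_lit 128) (nat_lit 133)))) (Tree.br (nat_lit 2083) (Tree.tip (nat_lit 2082) (Node.mv (nat_lit 0x800000c00000000001c000000000000000000) (nat_lit 0x1200007700007000007400002200007b000030000030) (nat_lit 77) (nat_lit 5) (nat_lit 0x8164019000008214019000006bc40190000081b42180000082042190000007b4219))) (Tree.tip (nat_lit 2083)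 (Node.mv (nat_lit 0x800000c00000000003c000000) (nat_lit 0x2000007000030000006000000000008) (nat_lit 50) (nat_lit 1) (nat_lit 0x4d44018000000244119))))) (Tree.br (nat_lit 2086) (Tree.br (nat_lit 2085) (Tree.tip (nat_lit 2084) (Node.mv (nat_lit 0x2000003000005000007000000) (nat_lit 0x5000004000000000000000006) (nat_lit 1) (nat_lit 1) (nat_lit 0x4ce40190000000b4018))) (Tree.tip (nat_lit 2085) (Node.img (nat_lit 0x1000001000001e000010000000) (nat_lit 0x1000008000008) (nat_lit 302) (nat_lit 5) (nat_lit 128) (nat_lit 132)))) (Tree.br (nat_lit 2087) (Tree.tip (nat_lit 2086) (Node.mv (nat_lit 0x1000000000001e000010000000) (nat_lit 0x30000001000008000008) (nat_lit 76) (nat_lit 1) (nat_lit 0x82540180000002a4219))) (Tree.tip (nat_lit 2087) (Node.mv (nat_lit 0x800001c00000000003c000020) (nat_lit 0x30000023000060000000000000) (nat_lit 100) (nat_lit 1) (nat_lit 0x2fe401a000000894318)))))) (Tree.br (nat_lit 2092) (Tree.br (nat_lit 2090) (Tree.br (nat_lit 2089) (Tree.tip (nat_lit 2088) (Node.mv (nat_lit 0x800000c00000000003c000020000000000000)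 (nat_lit 0x30000033000070000000000010000020000020) (nat_lit 124) (nat_lit 2) (nat_lit 0x4bb401b000008274218000004bc421b))) (Tree.tip (nat_lit 2089) (Node.mv (nat_lit 0x800000c00000000003c000000000000000000) (nat_lit 0x30000033000070000000000070000020000020) (nat_lit 53) (nat_lit 1) (nat_lit 0x828401800000028421a)))) (Tree.br (nat_lit 2091) (Tree.tip (nat_lit 2090) (Node.mv (nat_lit 0x800001c000000000030000020) (nat_lit 0x30000003000010000000000000) (nat_lit 100) (nat_lit 1) (nat_lit 0x89431800000567401c))) (Tree.tip (nat_lit 2091) (Node.img (nat_lit 0x1000000000003000002000000000000) (nat_lit 0x1000000000003000000000000000002000002) (nat_lit 188) (nat_lit 6) (nat_lit 129) (nat_lit 128))))) (Tree.br (nat_lit 2094) (Tree.br (nat_lit 2093) (Tree.tip (nat_lit 2092) (Node.img (nat_lit 0x800000000001e000010000000) (nat_lit 0x38000001000000000010) (nat_lit 1382) (nat_lit 3) (nat_lit 133) (nat_lit 132))) (Tree.tip (nat_lit 2093) (Node.mv (nat_lit 0x800000c00000000003c000020000000000000) (nat_lit 0x30000033000070000002000000000020000020)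 (nat_lit 124) (nat_lit 3) (nat_lit 0x82742180000082c41190000082a42180000082b401c)))) (Tree.br (nat_lit 2095) (Tree.tip (nat_lit 2094) (Node.mv (nat_lit 0x800000c00000000003c000000000000000000) (nat_lit 0x30000033000070000002000060000020000020) (nat_lit 53) (nat_lit 1) (nat_lit 0x82d401800000028421a))) (Tree.tip (nat_lit 2095) (Node.mv (nat_lit 0x1800000c000000000030000020) (nat_lit 0x20000013000010000000000000) (nat_lit 76) (nat_lit 1) (nat_lit 0x89431800000567401c))))))) (Tree.br (nat_lit 2104) (Tree.br (nat_lit 2100) (Tree.br (nat_lit 2098) (Tree.br (nat_lit 2097) (Tree.tip (nat_lit 2096) (Node.mv (nat_lit 0xf8000000) (nat_lit 0x387000106000387) (nat_lit 26) (nat_lit 1) (nat_lit 0x7c401c000000db4018))) (Tree.tip (nat_lit 2097) (Node.img (nat_lit 0x800007e) (nat_lit 0x10000081) (nat_lit 298) (nat_lit 2) (nat_lit 128) (nat_lit 129)))) (Tree.br (nat_lit 2099) (Tree.tip (nat_lit 2098) (Node.mv (nat_lit 0x400000400000000007e000000) (nat_lit 0x800001800008100000c) (nat_lit 51) (nat_lit 1) (nat_lit 0x8314118000004dd401a)))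 (Tree.tip (nat_lit 2099) (Node.mv (nat_lit 0x400000400000000003e000000) (nat_lit 0x80000180000c10000ec) (nat_lit 30) (nat_lit 1) (nat_lit 0x832401800000077401a))))) (Tree.br (nat_lit 2102) (Tree.br (nat_lit 2101) (Tree.tip (nat_lit 2100) (Node.mv (nat_lit 0x800001c000000000078000000) (nat_lit 0x3000000300001000000000000c) (nat_lit 100) (nat_lit 1) (nat_lit 0x24b401a000000894318))) (Tree.tip (nat_lit 2101) (Node.img (nat_lit 0x3000003000000000006000000) (nat_lit 0x2000000000006) (nat_lit 532) (nat_lit 1) (nat_lit 130) (nat_lit 128)))) (Tree.br (nat_lit 2103) (Tree.tip (nat_lit 2102) (Node.mv (nat_lit 0x800001c000000000030000000) (nat_lit 0x30000003000010000000000030) (nat_lit 100) (nat_lit 1) (nat_lit 0x835401b000000894318))) (Tree.tip (nat_lit 2103) (Node.img (nat_lit 0x200000600000000001e000000) (nat_lit 0x4000020000007) (nat_lit 1413) (nat_lit 1) (nat_lit 133) (nat_lit 128)))))) (Tree.br (nat_lit 2108) (Tree.br (nat_lit 2106) (Tree.br (nat_lit 2105) (Tree.tip (nat_lit 2104) (Node.mv (nat_lit 0x800000c000000000078000000)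 (nat_lit 0x300000130001d000008000003c) (nat_lit 76) (nat_lit 3) (nat_lit 0x8344018000001c1401a00000836401800000837401a))) (Tree.tip (nat_lit 2105) (Node.mv (nat_lit 0x800000c000000000078000000) (nat_lit 0x300000130001d00000800001dc) (nat_lit 76) (nat_lit 2) (nat_lit 0x7c401b00000834401800000053401a)))) (Tree.br (nat_lit 2107) (Tree.tip (nat_lit 2106) (Node.mv (nat_lit 0x800000c00000000003c000000) (nat_lit 0x300000130001d00000c00001fc) (nat_lit 30) (nat_lit 2) (nat_lit 0x839401800000838401800000077401a))) (Tree.tip (nat_lit 2107) (Node.mv (nat_lit 0xe00000000003e000000) (nat_lit 0x8000001000018000001000006) (nat_lit 51) (nat_lit 1) (nat_lit 0x4e841180000025b4019))))) (Tree.br (nat_lit 2110) (Tree.br (nat_lit 2109) (Tree.tip (nat_lit 2108) (Node.mv (nat_lit 0x400000600000000003e000000) (nat_lit 0x80000090000180000410000ee) (nat_lit 75) (nat_lit 2) (nat_lit 0x83b4018000000534019000004e94018))) (Tree.tip (nat_lit 2109) (Node.mv (nat_lit 0x400000400000000003e000000) (nat_lit 0x800001800004100001e) (nat_lit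 3) (nat_lit 1) (nat_lit 0x5994018000000b04019)))) (Tree.br (nat_lit 2111) (Tree.tip (nat_lit 2110) (Node.mv (nat_lit 0x400000600000000001e000000) (nat_lit 0x80000090000180000610000fe) (nat_lit 29) (nat_lit 2) (nat_lit 0x83c40180000083d4018000000774019))) (Tree.tip (nat_lit 2111) (Node.mv (nat_lit 0x3e000000) (nat_lit 0xe00000400000e3) (nat_lit 0) (nat_lit 1) (nat_lit 0x7c401a0000012c4018))))))))) (Tree.br (nat_lit 2144) (Tree.br (nat_lit 2128) (Tree.br (nat_lit 2120) (Tree.br (nat_lit 2116) (Tree.br (nat_lit 2114) (Tree.br (nat_lit 2113) (Tree.tip (nat_lit 2112) (Node.mv (nat_lit 0x800001c000000000038000000) (nat_lit 0x30000003000010000000000028) (nat_lit 100) (nat_lit 1) (nat_lit 0x8943180000073b401b))) (Tree.tip (nat_lit 2113) (Node.mv (nat_lit 0x800000c00000000001e000002) (nat_lit 0x15000003000003000000000000) (nat_lit 49) (nat_lit 1) (nat_lit 0x7074018000000244118)))) (Tree.br (nat_lit 2115) (Tree.tip (nat_lit 2114) (Node.mv (nat_lit 0x800000c00000000001e000000) (nat_lit 0x15000003000003000000000003)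 (nat_lit 1) (nat_lit 1) (nat_lit 0x8414018000000674018))) (Tree.tip (nat_lit 2115) (Node.mv (nat_lit 0x800000c00000000001c000000) (nat_lit 0x15000013000033000002000033) (nat_lit 25) (nat_lit 1) (nat_lit 0x8424018000003004019))))) (Tree.br (nat_lit 2118) (Tree.br (nat_lit 2117) (Tree.tip (nat_lit 2116) (Node.mv (nat_lit 0x400000000001e000002000000) (nat_lit 0x4000002000003000020000004000004) (nat_lit 73) (nat_lit 1) (nat_lit 0x7064019000000244218))) (Tree.tip (nat_lit 2117) (Node.mv (nat_lit 0x400000000001e000000000000) (nat_lit 0x4000002000003000020000007000004) (nat_lit 25) (nat_lit 1) (nat_lit 0x8444018000000674118)))) (Tree.br (nat_lit 2119) (Tree.tip (nat_lit 2118) (Node.mv (nat_lit 0x800000c00000000001c000000000000) (nat_lit 0x4000010000037000002000033000002) (nat_lit 49) (nat_lit 1) (nat_lit 0x5814018000003004119))) (Tree.tip (nat_lit 2119) (Node.mv (nat_lit 0x800001c00000000003c) (nat_lit 0x30000003000007000000) (nat_lit 49) (nat_lit 1) (nat_lit 0x57e4018000000524218)))))) (Tree.br (nat_lit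 2124) (Tree.br (nat_lit 2122) (Tree.br (nat_lit 2121) (Tree.tip (nat_lit 2120) (Node.mv (nat_lit 0x400000800000f000000) (nat_lit 0x400000400000800000400000000001a) (nat_lit 98) (nat_lit 2) (nat_lit 0x22140190000030740180000073b4019))) (Tree.tip (nat_lit 2121) (Node.img (nat_lit 0x1c000022) (nat_lit 0x2000011) (nat_lit 278) (nat_lit 5) (nat_lit 128) (nat_lit 129)))) (Tree.br (nat_lit 2123) (Tree.tip (nat_lit 2122) (Node.mv (nat_lit 0x1c00002000003c) (nat_lit 0x2000017000000) (nat_lit 25) (nat_lit 1) (nat_lit 0x8494118000002404019))) (Tree.tip (nat_lit 2123) (Node.mv (nat_lit 0x800001c00002000003c000000) (nat_lit 0x30000023000000000000000060) (nat_lit 100) (nat_lit 1) (nat_lit 0x307401a000000894318))))) (Tree.br (nat_lit 2126) (Tree.br (nat_lit 2125) (Tree.tip (nat_lit 2124) (Node.mv (nat_lit 0x200000600000800000f000000) (nat_lit 0x400000800000400000000001e) (nat_lit 98) (nat_lit 1) (nat_lit 0x3074018000005274019))) (Tree.tip (nat_lit 2125) (Node.mv (nat_lit 0x800000c00002000003c000000) (nat_lit 0x30000033000010000000000078)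 (nat_lit 76) (nat_lit 2) (nat_lit 0x84c401a0000084b40180000019a4019)))) (Tree.br (nat_lit 2127) (Tree.tip (nat_lit 2126) (Node.mv (nat_lit 0x800000c00000000003c000000) (nat_lit 0x30000033000070000000000078) (nat_lit 53) (nat_lit 1) (nat_lit 0x84d40180000002a411a))) (Tree.tip (nat_lit 2127) (Node.mv (nat_lit 0x800001c00000000003c000000) (nat_lit 0x2000037000000000010) (nat_lit 73) (nat_lit 1) (nat_lit 0x57e4118000001804019))))))) (Tree.br (nat_lit 2136) (Tree.br (nat_lit 2132) (Tree.br (nat_lit 2130) (Tree.br (nat_lit 2129) (Tree.tip (nat_lit 2128) (Node.mv (nat_lit 0x800000c00000000003c000020) (nat_lit 0x30000013000037000000000010) (nat_lit 76) (nat_lit 2) (nat_lit 0x84f4018000008474118000004bc401b))) (Tree.tip (nat_lit 2129) (Node.mv (nat_lit 0x800000c00000000003c000000) (nat_lit 0x30000013000037000000000070) (nat_lit 5) (nat_lit 1) (nat_lit 0x850401800000028401a)))) (Tree.br (nat_lit 2131) (Tree.tip (nat_lit 2130) (Node.mv (nat_lit 0x400000400000000001e000000) (nat_lit 0x80000f80000e10000ec) (nat_lit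 29) (nat_lit 2) (nat_lit 0x7c401a000008334018000000794119))) (Tree.tip (nat_lit 2131) (Node.img (nat_lit 0x800000800000800000f000000) (nat_lit 0x10000018) (nat_lit 336) (nat_lit 1) (nat_lit 132) (nat_lit 128))))) (Tree.br (nat_lit 2134) (Tree.br (nat_lit 2133) (Tree.tip (nat_lit 2132) (Node.mv (nat_lit 0x800000000000800000f000000) (nat_lit 0x800000000001000001c) (nat_lit 75) (nat_lit 1) (nat_lit 0x853401800000001401a))) (Tree.tip (nat_lit 2133) (Node.mv (nat_lit 0x1000000000001000001e000000) (nat_lit 0x10000000000010000008000021000030) (nat_lit 76) (nat_lit 1) (nat_lit 0x85340190000072e4118)))) (Tree.br (nat_lit 2135) (Tree.tip (nat_lit 2134) (Node.mv (nat_lit 0x1000000000001000001e000000) (nat_lit 0x10000000000010000008000001000008) (nat_lit 76) (nat_lit 1) (nat_lit 0x72e411800000001401b))) (Tree.tip (nat_lit 2135) (Node.img (nat_lit 0x1000000e000008) (nat_lit 0x8000001000010) (nat_lit 50) (nat_lit 5) (nat_lit 128) (nat_lit 130)))))) (Tree.br (nat_lit 2140) (Tree.br (nat_lit 2138) (Tree.br (nat_lit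 2137) (Tree.tip (nat_lit 2136) (Node.mv (nat_lit 0x1000000000001000001e000000) (nat_lit 0x10000008000001000018) (nat_lit 3) (nat_lit 1) (nat_lit 0x857401800000361401b))) (Tree.tip (nat_lit 2137) (Node.mv (nat_lit 0x100000100003f000000) (nat_lit 0x1000000000000000000000006) (nat_lit 1) (nat_lit 1) (nat_lit 0xb40180000012c4019)))) (Tree.br (nat_lit 2139) (Tree.tip (nat_lit 2138) (Node.mv (nat_lit 0x100000100001f000000) (nat_lit 0x1000000000070000020000006) (nat_lit 29) (nat_lit 1) (nat_lit 0x8594018000000794119))) (Tree.tip (nat_lit 2139) (Node.mv (nat_lit 0x200000000003e000000) (nat_lit 0x20000000000e300004000000c) (nat_lit 49) (nat_lit 1) (nat_lit 0x85a4019000000244118))))) (Tree.br (nat_lit 2142) (Tree.br (nat_lit 2141) (Tree.tip (nat_lit 2140) (Node.mv (nat_lit 0x200000000001e000000) (nat_lit 0x20000000000e300006000007c) (nat_lit 29) (nat_lit 1) (nat_lit 0x85b4018000000774019))) (Tree.tip (nat_lit 2141) (Node.img (nat_lit 0x700001000000e) (nat_lit 0x8000008000001) (nat_lit 1253) (nat_lit 1) (nat_lit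 132) (nat_lit 128)))) (Tree.br (nat_lit 2143) (Tree.tip (nat_lit 2142) (Node.mv (nat_lit 0x700000000001e) (nat_lit 0x8000038000001) (nat_lit 28) (nat_lit 1) (nat_lit 0x85d40180000002a4019))) (Tree.tip (nat_lit 2143) (Node.mv (nat_lit 0x400000600000000000e000000) (nat_lit 0x3a00001100003b) (nat_lit 28) (nat_lit 1) (nat_lit 0x7b40180000052c4018)))))))) (Tree.br (nat_lit 2160) (Tree.br (nat_lit 2152) (Tree.br (nat_lit 2148) (Tree.br (nat_lit 2146) (Tree.br (nat_lit 2145) (Tree.tip (nat_lit 2144) (Node.mv (nat_lit 0x800000c00000000001c000000) (nat_lit 0x4000010000034000002000037) (nat_lit 25) (nat_lit 1) (nat_lit 0x7234018000003004019))) (Tree.tip (nat_lit 2145) (Node.mv (nat_lit 0x800000c00000000001c000000000000000000) (nat_lit 0x30000033000074000020000076000020000020) (nat_lit 77) (nat_lit 1) (nat_lit 0x82940180000052c4219)))) (Tree.br (nat_lit 2147) (Tree.tip (nat_lit 2146) (Node.mv (nat_lit 0xe00002000003c) (nat_lit 0x10000017000000) (nat_lit 52) (nat_lit 1) (nat_lit 0x57e4018000000204119))) (Tree.tip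 (nat_lit 2147) (Node.mv (nat_lit 0x800000e00000000003c) (nat_lit 0x30000011000007000000) (nat_lit 52) (nat_lit 1) (nat_lit 0x57e4018000000524218))))) (Tree.br (nat_lit 2150) (Tree.br (nat_lit 2149) (Tree.tip (nat_lit 2148) (Node.img (nat_lit 0xe000012) (nat_lit 0x10000021) (nat_lit 186) (nat_lit 5) (nat_lit 128) (nat_lit 129))) (Tree.tip (nat_lit 2149) (Node.mv (nat_lit 0x4000006000012000008000000) (nat_lit 0x19000029000000000008) (nat_lit 75) (nat_lit 1) (nat_lit 0x19a4018000008644218)))) (Tree.br (nat_lit 2151) (Tree.tip (nat_lit 2150) (Node.img (nat_lit 0x5000005000007000000) (nat_lit 0x5000000000000000000000002) (nat_lit 728) (nat_lit 2) (nat_lit 128) (nat_lit 132))) (Tree.tip (nat_lit 2151) (Node.mv (nat_lit 0x2000007000001000007000000) (nat_lit 0x5000000000004000000000006) (nat_lit 50) (nat_lit 1) (nat_lit 0x8664018000000084019)))))) (Tree.br (nat_lit 2156) (Tree.br (nat_lit 2154) (Tree.br (nat_lit 2153) (Tree.tip (nat_lit 2152) (Node.mv (nat_lit 0x800000c00000400001c000000) (nat_lit 0x34000073000032000000000018)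 (nat_lit 76) (nat_lit 1) (nat_lit 0x1814018000007c24019))) (Tree.tip (nat_lit 2153) (Node.mv (nat_lit 0x800000c00000000001c000000) (nat_lit 0x3400007300003600000000001c) (nat_lit 50) (nat_lit 1) (nat_lit 0x868401800000041401a)))) (Tree.br (nat_lit 2155) (Tree.tip (nat_lit 2154) (Node.mv (nat_lit 0x800001c00000400001c) (nat_lit 0x30000003000003000020) (nat_lit 49) (nat_lit 1) (nat_lit 0x57b4018000000524218))) (Tree.tip (nat_lit 2155) (Node.img (nat_lit 0xe00000200000e) (nat_lit 0x10000001000010) (nat_lit 728) (nat_lit 6) (nat_lit 132) (nat_lit 128))))) (Tree.br (nat_lit 2158) (Tree.br (nat_lit 2157) (Tree.tip (nat_lit 2156) (Node.mv (nat_lit 0x800000c00000400001c000000) (nat_lit 0x30000033000032000020000010) (nat_lit 76) (nat_lit 1) (nat_lit 0x18140180000086b4119))) (Tree.tip (nat_lit 2157) (Node.mv (nat_lit 0x400000600000200000e000000) (nat_lit 0xa00001800000900001000000c) (nat_lit 75) (nat_lit 1) (nat_lit 0x86740190000086b4118)))) (Tree.br (nat_lit 2159) (Tree.tip (nat_lit 2158) (Node.mv (nat_lit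 0x400000600000000000e000000) (nat_lit 0xa00001800000b00001000000e) (nat_lit 49) (nat_lit 1) (nat_lit 0x86d4018000000414019))) (Tree.tip (nat_lit 2159) (Node.mv (nat_lit 0xe000006000000000018000000) (nat_lit 0x1000038000008000000000018) (nat_lit 75) (nat_lit 1) (nat_lit 0x835401a000000264318))))))) (Tree.br (nat_lit 2168) (Tree.br (nat_lit 2164) (Tree.br (nat_lit 2162) (Tree.br (nat_lit 2161) (Tree.tip (nat_lit 2160) (Node.mv (nat_lit 0xc00000c000000000030000000) (nat_lit 0x32000073000010000000000030) (nat_lit 100) (nat_lit 1) (nat_lit 0x86f4019000000234318))) (Tree.tip (nat_lit 2161) (Node.img (nat_lit 0x1000003c000000) (nat_lit 0xe000043000007) (nat_lit 147) (nat_lit 4) (nat_lit 128) (nat_lit 128)))) (Tree.br (nat_lit 2163) (Tree.tip (nat_lit 2162) (Node.mv (nat_lit 0x10000038000000) (nat_lit 0xee000047000007) (nat_lit 26) (nat_lit 2) (nat_lit 0xd74119000008714018000000524119))) (Tree.tip (nat_lit 2163) (Node.img (nat_lit 0x200000600000800000f000000000000) (nat_lit 0x400000000001c000008) (nat_lit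 1751) (nat_lit 1) (nat_lit 132) (nat_lit 128))))) (Tree.br (nat_lit 2166) (Tree.br (nat_lit 2165) (Tree.tip (nat_lit 2164) (Node.mv (nat_lit 0x2000006000008000007000000000000) (nat_lit 0x1400000800001c000008) (nat_lit 51) (nat_lit 1) (nat_lit 0x87340180000002a4218))) (Tree.tip (nat_lit 2165) (Node.mv (nat_lit 0x10000038000000000038000000) (nat_lit 0x70000060000270000440001e0) (nat_lit 74) (nat_lit 1) (nat_lit 0x5af401a000000db4218)))) (Tree.br (nat_lit 2167) (Tree.tip (nat_lit 2166) (Node.mv (nat_lit 0x400000e00000000000e000000) (nat_lit 0x3000030000008000011000078) (nat_lit 97) (nat_lit 1) (nat_lit 0x5af4018000000264318))) (Tree.tip (nat_lit 2167) (Node.mv (nat_lit 0x10000038000000000020000000) (nat_lit 0x2c0000c7000060000000000020) (nat_lit 99) (nat_lit 1) (nat_lit 0x3c7401800000026431a)))))) (Tree.br (nat_lit 2172) (Tree.br (nat_lit 2170) (Tree.br (nat_lit 2169) (Tree.tip (nat_lit 2168) (Node.img (nat_lit 0xf00000000000f000000) (nat_lit 0x18000000000018000000000004) (nat_lit 1848) (nat_lit 1)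 (nat_lit 132) (nat_lit 128))) (Tree.tip (nat_lit 2169) (Node.mv (nat_lit 0x400000e00000000001e000000) (nat_lit 0x33000030000030000000000008) (nat_lit 76) (nat_lit 1) (nat_lit 0x8784019000000c74318)))) (Tree.br (nat_lit 2171) (Tree.tip (nat_lit 2170) (Node.img (nat_lit 0x800001c00000000001e000000) (nat_lit 0x33000003000003000000000004) (nat_lit 2169) (nat_lit 1) (nat_lit 133) (nat_lit 128))) (Tree.tip (nat_lit 2171) (Node.mv (nat_lit 0x10000038000000000038000000) (nat_lit 0x660000060000070000460000ef) (nat_lit 26) (nat_lit 2) (nat_lit 0x87a4019000000534019000000db4018))))) (Tree.br (nat_lit 2174) (Tree.br (nat_lit 2173) (Tree.tip (nat_lit 2172) (Node.img (nat_lit 0x600000000001e000000) (nat_lit 0x4000000000003000000000003) (nat_lit 888) (nat_lit 6) (nat_lit 132) (nat_lit 128))) (Tree.tip (nat_lit 2173) (Node.mv (nat_lit 0x1000003800000000003c000000) (nat_lit 0x2f000006000006000000000006) (nat_lit 74) (nat_lit 1) (nat_lit 0x87c4019000006a04318)))) (Tree.br (nat_lit 2175) (Tree.tip (nat_lit 2174) (Node.mv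 (nat_lit 0x1000003800000000003c000000) (nat_lit 0x27000006000007000000000008) (nat_lit 74) (nat_lit 2) (nat_lit 0x73840190000070b4118000006a04318))) (Tree.tip (nat_lit 2175) (Node.mv (nat_lit 0x10000038000000000038000000) (nat_lit 0x2f0000060000070000440000ee) (nat_lit 26) (nat_lit 2) (nat_lit 0x87d40180000087e4018000000534019))))))))))
noncomputable def t0_17 : Tree := (Tree.br (nat_lit 2240) (Tree.br (nat_lit 2208) (Tree.br (nat_lit 2192) (Tree.br (nat_lit 2184) (Tree.br (nat_lit 2180) (Tree.br (nat_lit 2178) (Tree.br (nat_lit 2177) (Tree.tip (nat_lit 2176) (Node.img (nat_lit 0xc00000000000f000000) (nat_lit 0x4000000000018000000000018) (nat_lit 888) (nat_lit 4) (nat_lit 128) (nat_lit 128))) (Tree.tip (nat_lit 2177) (Node.mv (nat_lit 0x400000e00000000001e000000) (nat_lit 0xb000030000030000000000030) (nat_lit 76) (nat_lit 1) (nat_lit 0x8804019000000c74318)))) (Tree.br (nat_lit 2179) (Tree.tip (nat_lit 2178) (Node.img (nat_lit 0xe00000000001e) (nat_lit 0x1000038000001) (nat_lit 1493) (nat_lit 3)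 (nat_lit 133) (nat_lit 130))) (Tree.tip (nat_lit 2179) (Node.mv (nat_lit 0x400000e00000000001e) (nat_lit 0x3000031000038000001) (nat_lit 52) (nat_lit 1) (nat_lit 0x8824018000000c74218))))) (Tree.br (nat_lit 2182) (Tree.br (nat_lit 2181) (Tree.tip (nat_lit 2180) (Node.mv (nat_lit 0x1c00000e000000000008) (nat_lit 0x30000003000030000008000000) (nat_lit 73) (nat_lit 1) (nat_lit 0x1344019000000264218))) (Tree.tip (nat_lit 2181) (Node.mv (nat_lit 0xc00000e000000000008) (nat_lit 0x30000033000030000008000000) (nat_lit 76) (nat_lit 1) (nat_lit 0x8844018000000184219)))) (Tree.br (nat_lit 2183) (Tree.tip (nat_lit 2182) (Node.img (nat_lit 0x1e00000000000e) (nat_lit 0x1000038000001) (nat_lit 1493) (nat_lit 1) (nat_lit 133) (nat_lit 128))) (Tree.tip (nat_lit 2183) (Node.mv (nat_lit 0x400000e00000000000e) (nat_lit 0x3000031000038000001) (nat_lit 52) (nat_lit 1) (nat_lit 0x8864018000000c74218)))))) (Tree.br (nat_lit 2188) (Tree.br (nat_lit 2186) (Tree.br (nat_lit 2185) (Tree.tip (nat_lit 2184) (Node.mv (nat_lit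 0x400000e00000000000e000000) (nat_lit 0x3000030000038000001000008) (nat_lit 76) (nat_lit 1) (nat_lit 0x5ad4018000000c74318))) (Tree.tip (nat_lit 2185) (Node.mv (nat_lit 0xc00000e00000000000e000000) (nat_lit 0xa000010000033) (nat_lit 28) (nat_lit 1) (nat_lit 0x52c4018000007274019)))) (Tree.br (nat_lit 2187) (Tree.tip (nat_lit 2186) (Node.img (nat_lit 0xf00000000000e) (nat_lit 0x10000038000010) (nat_lit 1404) (nat_lit 3) (nat_lit 133) (nat_lit 130))) (Tree.tip (nat_lit 2187) (Node.mv (nat_lit 0x1e00000000001c) (nat_lit 0x3000020000070000020) (nat_lit 73) (nat_lit 1) (nat_lit 0x88a4019000000244218))))) (Tree.br (nat_lit 2190) (Tree.br (nat_lit 2189) (Tree.tip (nat_lit 2188) (Node.img (nat_lit 0x10000018000000000038000000) (nat_lit 0x800004400000f) (nat_lit 1455) (nat_lit 1) (nat_lit 134) (nat_lit 128))) (Tree.tip (nat_lit 2189) (Node.mv (nat_lit 0x10000038000000000038000000) (nat_lit 0xc0000c000000800004400000f) (nat_lit 78) (nat_lit 1) (nat_lit 0x88c4018000000c7431a)))) (Tree.br (nat_lit 2191) (Tree.tip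 (nat_lit 2190) (Node.img (nat_lit 0x800000800000e000002) (nat_lit 0x8000000000000000010000031) (nat_lit 1400) (nat_lit 3) (nat_lit 133) (nat_lit 132))) (Tree.tip (nat_lit 2191) (Node.mv (nat_lit 0x400000e00000800000e000000) (nat_lit 0x8000000000002000010000033) (nat_lit 1) (nat_lit 1) (nat_lit 0x88e4018000003114019))))))) (Tree.br (nat_lit 2200) (Tree.br (nat_lit 2196) (Tree.br (nat_lit 2194) (Tree.br (nat_lit 2193) (Tree.tip (nat_lit 2192) (Node.mv (nat_lit 0x400000e00000000000e000000) (nat_lit 0x800000000000a00001000003b) (nat_lit 51) (nat_lit 1) (nat_lit 0x88f401800000008401a))) (Tree.tip (nat_lit 2193) (Node.img (nat_lit 0x1000000e000008000008) (nat_lit 0x10000008000001000000000000) (nat_lit 182) (nat_lit 1) (nat_lit 132) (nat_lit 128)))) (Tree.br (nat_lit 2195) (Tree.tip (nat_lit 2194) (Node.img (nat_lit 0x1400000e) (nat_lit 0x23000030) (nat_lit 104) (nat_lit 3) (nat_lit 133) (nat_lit 129))) (Tree.tip (nat_lit 2195) (Node.mv (nat_lit 0x400000e000008000008) (nat_lit 0x1000003b000031000000000000)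 (nat_lit 76) (nat_lit 1) (nat_lit 0x8924218000008914018))))) (Tree.br (nat_lit 2198) (Tree.br (nat_lit 2197) (Tree.tip (nat_lit 2196) (Node.mv (nat_lit 0x400000e000000000008000000) (nat_lit 0x1000003b000031000008000000000008) (nat_lit 51) (nat_lit 1) (nat_lit 0x893411800000008401a))) (Tree.tip (nat_lit 2197) (Node.img (nat_lit 0x1000001000000800000e) (nat_lit 0x10000000000000000010000001) (nat_lit 1340) (nat_lit 4) (nat_lit 128) (nat_lit 128)))) (Tree.br (nat_lit 2199) (Tree.tip (nat_lit 2198) (Node.mv (nat_lit 0x1000000e00000800000e) (nat_lit 0x10000020000010000010000001) (nat_lit 52) (nat_lit 1) (nat_lit 0x89540180000002a4219))) (Tree.tip (nat_lit 2199) (Node.img (nat_lit 0x800003c000000) (nat_lit 0x300000c30000e0) (nat_lit 408) (nat_lit 4) (nat_lit 128) (nat_lit 128)))))) (Tree.br (nat_lit 2204) (Tree.br (nat_lit 2202) (Tree.br (nat_lit 2201) (Tree.tip (nat_lit 2200) (Node.mv (nat_lit 0x800001c000000) (nat_lit 0x770000e30000e0) (nat_lit 29) (nat_lit 2) (nat_lit 0x1cd4118000008974018000000c74119)))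 (Tree.tip (nat_lit 2201) (Node.mv (nat_lit 0xc00000c000000000004) (nat_lit 0x3000033000033000004000000) (nat_lit 76) (nat_lit 1) (nat_lit 0x3064018000000234218)))) (Tree.br (nat_lit 2203) (Tree.tip (nat_lit 2202) (Node.mv (nat_lit 0x400000400000000003c000000) (nat_lit 0x4000002000073) (nat_lit 25) (nat_lit 1) (nat_lit 0x24b4018000000774019))) (Tree.tip (nat_lit 2203) (Node.mv (nat_lit 0xc00000c00000000003c000000) (nat_lit 0x3000030000004000002000073) (nat_lit 97) (nat_lit 1) (nat_lit 0x89a40180000004d4318))))) (Tree.br (nat_lit 2206) (Tree.br (nat_lit 2205) (Tree.tip (nat_lit 2204) (Node.mv (nat_lit 0xc00000c00000000003c000000) (nat_lit 0x30000003000004000002000073) (nat_lit 100) (nat_lit 1) (nat_lit 0x89a4018000000234318))) (Tree.tip (nat_lit 2205) (Node.mv (nat_lit 0x800000c00000000003c000000) (nat_lit 0x3000037000073000014000002000073) (nat_lit 98) (nat_lit 3) (nat_lit 0x87040180000089c40180000089b4018000008994118)))) (Tree.br (nat_lit 2207) (Tree.tip (nat_lit 2206) (Node.mv (nat_lit 0x800000c00000000003c000020)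 (nat_lit 0x30000013000010000002000017) (nat_lit 100) (nat_lit 1) (nat_lit 0x82f40180000026a4018))) (Tree.tip (nat_lit 2207) (Node.mv (nat_lit 0x800000c00000000003c000000) (nat_lit 0x30000013000010000002000077) (nat_lit 5) (nat_lit 1) (nat_lit 0x89e401800000028401a)))))))) (Tree.br (nat_lit 2224) (Tree.br (nat_lit 2216) (Tree.br (nat_lit 2212) (Tree.br (nat_lit 2210) (Tree.br (nat_lit 2209) (Tree.tip (nat_lit 2208) (Node.mv (nat_lit 0x800001c00000000003c000000) (nat_lit 0x30000003000010000002000070) (nat_lit 73) (nat_lit 1) (nat_lit 0x7d64019000000524318))) (Tree.tip (nat_lit 2209) (Node.img (nat_lit 0x800001c00000000001c000000) (nat_lit 0x4000000000014000002000037) (nat_lit 2192) (nat_lit 1) (nat_lit 133) (nat_lit 128)))) (Tree.br (nat_lit 2211) (Tree.tip (nat_lit 2210) (Node.mv (nat_lit 0x800001c00000000001c000000) (nat_lit 0x34000003000014000002000037) (nat_lit 100) (nat_lit 1) (nat_lit 0x8a14018000000894318))) (Tree.tip (nat_lit 2211) (Node.img (nat_lit 0x400000e00000000000e000000) (nat_lit 0x10000003000010000002)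 (nat_lit 1257) (nat_lit 1) (nat_lit 132) (nat_lit 128))))) (Tree.br (nat_lit 2214) (Tree.br (nat_lit 2213) (Tree.tip (nat_lit 2212) (Node.mv (nat_lit 0x800001c00000000001c000000) (nat_lit 0x30000023000006000020000004) (nat_lit 100) (nat_lit 1) (nat_lit 0x8a34019000000894318))) (Tree.tip (nat_lit 2213) (Node.img (nat_lit 0x100000f000000000002000000) (nat_lit 0x1000002000010000002000000000002) (nat_lit 1179) (nat_lit 4) (nat_lit 128) (nat_lit 128)))) (Tree.br (nat_lit 2215) (Tree.tip (nat_lit 2214) (Node.mv (nat_lit 0x1e000000000004000000) (nat_lit 0x2000007000020000004000000000004) (nat_lit 97) (nat_lit 1) (nat_lit 0x8a54019000000244318))) (Tree.tip (nat_lit 2215) (Node.mv (nat_lit 0x800003c00000000001c000000) (nat_lit 0x17000002000030) (nat_lit 49) (nat_lit 1) (nat_lit 0x5b340180000012c4219)))))) (Tree.br (nat_lit 2220) (Tree.br (nat_lit 2218) (Tree.br (nat_lit 2217) (Tree.tip (nat_lit 2216) (Node.img (nat_lit 0x3c00000000001c) (nat_lit 0x2000007000002) (nat_lit 1404) (nat_lit 2) (nat_lit 128) (nat_lit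 130))) (Tree.tip (nat_lit 2217) (Node.mv (nat_lit 0x800001c00000000001c) (nat_lit 0x6000062000007000002) (nat_lit 53) (nat_lit 1) (nat_lit 0x8a84018000000c74219)))) (Tree.br (nat_lit 2219) (Tree.tip (nat_lit 2218) (Node.mv (nat_lit 0x800003c00000000001c) (nat_lit 0xf00000c3000007000002) (nat_lit 76) (nat_lit 2) (nat_lit 0x8a84018000007ea421a000000894218))) (Tree.tip (nat_lit 2219) (Node.mv (nat_lit 0x1c00000000001c) (nat_lit 0xe00000620000e7000002) (nat_lit 53) (nat_lit 1) (nat_lit 0x7c411a000008a84018))))) (Tree.br (nat_lit 2222) (Tree.br (nat_lit 2221) (Tree.tip (nat_lit 2220) (Node.img (nat_lit 0x1e00000800000e) (nat_lit 0x30000001) (nat_lit 1403) (nat_lit 1) (nat_lit 133) (nat_lit 128))) (Tree.tip (nat_lit 2221) (Node.mv (nat_lit 0x1e00000000000e) (nat_lit 0x10000010000038000000000038000001) (nat_lit 27) (nat_lit 1) (nat_lit 0x60c4019000008ac4018)))) (Tree.br (nat_lit 2223) (Tree.tip (nat_lit 2222) (Node.mv (nat_lit 0x400001600001000001e000000) (nat_lit 0x8000009000008000000000038) (nat_lit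 75) (nat_lit 1) (nat_lit 0x7f640190000019a4018))) (Tree.tip (nat_lit 2223) (Node.mv (nat_lit 0x4000016000010000018000000) (nat_lit 0x13000028000008000000000008) (nat_lit 75) (nat_lit 1) (nat_lit 0x6d2401a000000c74318))))))) (Tree.br (nat_lit 2232) (Tree.br (nat_lit 2228) (Tree.br (nat_lit 2226) (Tree.br (nat_lit 2225) (Tree.tip (nat_lit 2224) (Node.mv (nat_lit 0x400001600001000001e000000) (nat_lit 0xb000028000000000000000030) (nat_lit 75) (nat_lit 1) (nat_lit 0x7f64019000000c74318))) (Tree.tip (nat_lit 2225) (Node.mv (nat_lit 0x400000600001000001e000000) (nat_lit 0xb000039000008000000000038) (nat_lit 75) (nat_lit 1) (nat_lit 0x7f740180000019a4018)))) (Tree.br (nat_lit 2227) (Tree.tip (nat_lit 2226) (Node.mv (nat_lit 0x400000600000000001e000000) (nat_lit 0xb000039000038000000000038) (nat_lit 52) (nat_lit 1) (nat_lit 0x8b140180000002a4119))) (Tree.tip (nat_lit 2227) (Node.mv (nat_lit 0x800000e00000000003c) (nat_lit 0x10000011000070000002) (nat_lit 48) (nat_lit 1) (nat_lit 0x85e40190000002a4218)))))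 (Tree.br (nat_lit 2230) (Tree.br (nat_lit 2229) (Tree.tip (nat_lit 2228) (Node.img (nat_lit 0xf00000000001e) (nat_lit 0x38000000) (nat_lit 1406) (nat_lit 3) (nat_lit 133) (nat_lit 130))) (Tree.tip (nat_lit 2229) (Node.mv (nat_lit 0xe00000000003c) (nat_lit 0x10000077000000) (nat_lit 52) (nat_lit 1) (nat_lit 0x8b440190000057e4018)))) (Tree.br (nat_lit 2231) (Tree.tip (nat_lit 2230) (Node.img (nat_lit 0xe00000200001c) (nat_lit 0x10000001000002) (nat_lit 1435) (nat_lit 3) (nat_lit 132) (nat_lit 130))) (Tree.tip (nat_lit 2231) (Node.mv (nat_lit 0xe00000000003c) (nat_lit 0x10000007000002) (nat_lit 25) (nat_lit 1) (nat_lit 0x8b64018000002404019)))))) (Tree.br (nat_lit 2236) (Tree.br (nat_lit 2234) (Tree.br (nat_lit 2233) (Tree.tip (nat_lit 2232) (Node.mv (nat_lit 0x1e000000000078) (nat_lit 0xf000004) (nat_lit 26) (nat_lit 1) (nat_lit 0x57d401800000240401a))) (Tree.tip (nat_lit 2233) (Node.mv (nat_lit 0x1000001c000000000078) (nat_lit 0x2000000200000f000004) (nat_lit 49) (nat_lit 1) (nat_lit 0x8b840180000002a4219))))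 (Tree.br (nat_lit 2235) (Tree.tip (nat_lit 2234) (Node.img (nat_lit 0x20000038) (nat_lit 0x57000006) (nat_lit 53) (nat_lit 5) (nat_lit 128) (nat_lit 129))) (Tree.tip (nat_lit 2235) (Node.mv (nat_lit 0x200000300000000000f0) (nat_lit 0x5700004e00001c000008) (nat_lit 51) (nat_lit 1) (nat_lit 0x8ba4218000008b7401a))))) (Tree.br (nat_lit 2238) (Tree.br (nat_lit 2237) (Tree.tip (nat_lit 2236) (Node.mv (nat_lit 0x600000000003c000000) (nat_lit 0x4000000000003000002000073) (nat_lit 25) (nat_lit 1) (nat_lit 0x87c4018000000774019))) (Tree.tip (nat_lit 2237) (Node.mv (nat_lit 0x800000e00000000003c000000) (nat_lit 0x70000011000000000002000070) (nat_lit 25) (nat_lit 1) (nat_lit 0x1a4318000000774019)))) (Tree.br (nat_lit 2239) (Tree.tip (nat_lit 2238) (Node.mv (nat_lit 0xe000010000018000000000000) (nat_lit 0x8000001000008000000000010000010) (nat_lit 75) (nat_lit 1) (nat_lit 0xb7401b000000274318))) (Tree.tip (nat_lit 2239) (Node.mv (nat_lit 0xe00000000003c000000) (nat_lit 0x10000007000002000060) (nat_lit 5) (nat_lit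 1) (nat_lit 0x8b7411800000028401a))))))))) (Tree.br (nat_lit 2272) (Tree.br (nat_lit 2256) (Tree.br (nat_lit 2248) (Tree.br (nat_lit 2244) (Tree.br (nat_lit 2242) (Tree.br (nat_lit 2241) (Tree.tip (nat_lit 2240) (Node.mv (nat_lit 0x800000e00000000003c000000) (nat_lit 0x74000001000000000000000060) (nat_lit 5) (nat_lit 1) (nat_lit 0x6c9431800000028401a))) (Tree.tip (nat_lit 2241) (Node.mv (nat_lit 0x800000c00000000003c000000) (nat_lit 0x74000013000007000002000060) (nat_lit 73) (nat_lit 2) (nat_lit 0x8634118000008c04018000008bf4018)))) (Tree.br (nat_lit 2243) (Tree.tip (nat_lit 2242) (Node.mv (nat_lit 0x800000e00000000003c000000) (nat_lit 0x10000001000000000002000077) (nat_lit 72) (nat_lit 1) (nat_lit 0x11f40180000002a4318))) (Tree.tip (nat_lit 2243) (Node.mv (nat_lit 0x800001c000000000004000000) (nat_lit 0x300000e30000e6000000000004) (nat_lit 77) (nat_lit 1) (nat_lit 0x8974218000002c64019))))) (Tree.br (nat_lit 2246) (Tree.br (nat_lit 2245) (Tree.tip (nat_lit 2244) (Node.mv (nat_lit 0x800001c000000)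 (nat_lit 0x370000e30000e0) (nat_lit 29) (nat_lit 2) (nat_lit 0x1534118000008974018000000c74119))) (Tree.tip (nat_lit 2245) (Node.mv (nat_lit 0x1e000000000004000000) (nat_lit 0x2000007000000000006000000000004) (nat_lit 97) (nat_lit 1) (nat_lit 0x1054019000000244318)))) (Tree.br (nat_lit 2247) (Tree.tip (nat_lit 2246) (Node.mv (nat_lit 0x800001c00000000001c) (nat_lit 0x33000023000070000020) (nat_lit 49) (nat_lit 1) (nat_lit 0x88b4018000000524218))) (Tree.tip (nat_lit 2247) (Node.mv (nat_lit 0x1e00000000001c) (nat_lit 0x20000073000020) (nat_lit 24) (nat_lit 1) (nat_lit 0x88a40190000012c4118)))))) (Tree.br (nat_lit 2252) (Tree.br (nat_lit 2250) (Tree.br (nat_lit 2249) (Tree.tip (nat_lit 2248) (Node.img (nat_lit 0x20000078) (nat_lit 0x1f000186) (nat_lit 698) (nat_lit 6) (nat_lit 136) (nat_lit 128))) (Tree.tip (nat_lit 2249) (Node.img (nat_lit 0x20000078000000) (nat_lit 0x1700000600000e) (nat_lit 417) (nat_lit 1) (nat_lit 134) (nat_lit 128)))) (Tree.br (nat_lit 2251) (Tree.tip (nat_lit 2250) (Node.img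 (nat_lit 0x1e00000000001c000000) (nat_lit 0x7000000000003000002000007) (nat_lit 2036) (nat_lit 1) (nat_lit 132) (nat_lit 128))) (Tree.tip (nat_lit 2251) (Node.mv (nat_lit 0x20000070000000000070000000) (nat_lit 0x1f00018e00000e00000800001c) (nat_lit 75) (nat_lit 4) (nat_lit 0x8ca401a000008c942180000047e4219000008c84318000000db4219))))) (Tree.br (nat_lit 2254) (Tree.br (nat_lit 2253) (Tree.tip (nat_lit 2252) (Node.mv (nat_lit 0x38000000000078000000) (nat_lit 0x70000060000070000800001dc) (nat_lit 73) (nat_lit 1) (nat_lit 0x53401a000000f94218))) (Tree.tip (nat_lit 2253) (Node.mv (nat_lit 0x800001c000000000038000004) (nat_lit 0x30000003000010000040000008) (nat_lit 100) (nat_lit 1) (nat_lit 0x60e401a000000894318)))) (Tree.br (nat_lit 2255) (Tree.tip (nat_lit 2254) (Node.mv (nat_lit 0x800000c00000000003c000000) (nat_lit 0x740000030000000000400000ee) (nat_lit 73) (nat_lit 1) (nat_lit 0x534019000006c94318))) (Tree.tip (nat_lit 2255) (Node.mv (nat_lit 0x200000000003c000004) (nat_lit 0x2000000000073000002000000)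 (nat_lit 25) (nat_lit 1) (nat_lit 0x7794018000000794119))))))) (Tree.br (nat_lit 2264) (Tree.br (nat_lit 2260) (Tree.br (nat_lit 2258) (Tree.br (nat_lit 2257) (Tree.tip (nat_lit 2256) (Node.mv (nat_lit 0x600000000003c000000) (nat_lit 0x4000000000073000002000003) (nat_lit 25) (nat_lit 1) (nat_lit 0x87c4018000000794119))) (Tree.tip (nat_lit 2257) (Node.mv (nat_lit 0x800000c00000000003c000000) (nat_lit 0x340000130000000000400000ee) (nat_lit 73) (nat_lit 1) (nat_lit 0x534019000000174318)))) (Tree.br (nat_lit 2259) (Tree.tip (nat_lit 2258) (Node.mv (nat_lit 0xe00000600000000001c000000) (nat_lit 0x1000038000008000000000014) (nat_lit 75) (nat_lit 1) (nat_lit 0x2643180000073b401a))) (Tree.tip (nat_lit 2259) (Node.mv (nat_lit 0xc00000c000000000038000000) (nat_lit 0x32000073000010000000000028) (nat_lit 100) (nat_lit 1) (nat_lit 0x8d24019000000234318))))) (Tree.br (nat_lit 2262) (Tree.br (nat_lit 2261) (Tree.tip (nat_lit 2260) (Node.mv (nat_lit 0xe00000600000000001e000000) (nat_lit 0x1000038000008000000000030)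 (nat_lit 75) (nat_lit 1) (nat_lit 0x7274019000000264318))) (Tree.tip (nat_lit 2261) (Node.img (nat_lit 0x6000002000000000003000000) (nat_lit 0x4000000000000000002000000000001) (nat_lit 233) (nat_lit 3) (nat_lit 130) (nat_lit 133)))) (Tree.br (nat_lit 2263) (Tree.tip (nat_lit 2262) (Node.mv (nat_lit 0x1000000e00000000000c000000) (nat_lit 0x10000008000001000008000000000004) (nat_lit 99) (nat_lit 1) (nat_lit 0x8d5401a000000164318))) (Tree.tip (nat_lit 2263) (Node.mv (nat_lit 0xe00000000001e000000) (nat_lit 0x1000003000010000003000000000004) (nat_lit 49) (nat_lit 1) (nat_lit 0x5cb4018000000244118)))))) (Tree.br (nat_lit 2268) (Tree.br (nat_lit 2266) (Tree.br (nat_lit 2265) (Tree.tip (nat_lit 2264) (Node.mv (nat_lit 0xe00000000001e000000) (nat_lit 0x1000007000010000002000000000007) (nat_lit 49) (nat_lit 1) (nat_lit 0x5cb4018000005954018))) (Tree.tip (nat_lit 2265) (Node.mv (nat_lit 0x800000e00000000001e) (nat_lit 0x74000001000003000000) (nat_lit 25) (nat_lit 1) (nat_lit 0x6c94218000000244018)))) (Tree.br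 (nat_lit 2267) (Tree.tip (nat_lit 2266) (Node.mv (nat_lit 0x7e000000) (nat_lit 0x100003c) (nat_lit 3) (nat_lit 1) (nat_lit 0x5f401800000067401a))) (Tree.tip (nat_lit 2267) (Node.mv (nat_lit 0x7c000000) (nat_lit 0x700000300003c) (nat_lit 25) (nat_lit 1) (nat_lit 0x8da4018000000694118))))) (Tree.br (nat_lit 2270) (Tree.br (nat_lit 2269) (Tree.tip (nat_lit 2268) (Node.mv (nat_lit 0xf0000000) (nat_lit 0xe00000e00007f) (nat_lit 27) (nat_lit 3) (nat_lit 0x8db40190000078a4018000000db40190000006e401a))) (Tree.tip (nat_lit 2269) (Node.mv (nat_lit 0x400000e00000000000c000000) (nat_lit 0x2000003000030000004000000000008) (nat_lit 97) (nat_lit 1) (nat_lit 0x264318000002fb4019)))) (Tree.br (nat_lit 2271) (Tree.tip (nat_lit 2270) (Node.mv (nat_lit 0x78000000) (nat_lit 0x1c70000860001c7) (nat_lit 25) (nat_lit 1) (nat_lit 0x7c401b000000f94018))) (Tree.tip (nat_lit 2271) (Node.mv (nat_lit 0x600001800001e000000000000) (nat_lit 0x9000000000000000030000010) (nat_lit 99) (nat_lit 1) (nat_lit 0x2c94019000000274318))))))))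 (Tree.br (nat_lit 2288) (Tree.br (nat_lit 2280) (Tree.br (nat_lit 2276) (Tree.br (nat_lit 2274) (Tree.br (nat_lit 2273) (Tree.tip (nat_lit 2272) (Node.mv (nat_lit 0x600001000001e000000000000) (nat_lit 0x9000008000001000030000010) (nat_lit 75) (nat_lit 1) (nat_lit 0x8df4018000000164218))) (Tree.tip (nat_lit 2273) (Node.mv (nat_lit 0x600000000001e000000000000) (nat_lit 0x9000038000001000030000010) (nat_lit 76) (nat_lit 1) (nat_lit 0x8e040180000002a4219)))) (Tree.br (nat_lit 2275) (Tree.tip (nat_lit 2274) (Node.mv (nat_lit 0x30000008000070) (nat_lit 0x4c000007000008) (nat_lit 26) (nat_lit 1) (nat_lit 0x18841180000036a401a))) (Tree.tip (nat_lit 2275) (Node.mv (nat_lit 0x20000030000008000070000000) (nat_lit 0x1d000000c00000700000800000c) (nat_lit 75) (nat_lit 2) (nat_lit 0x6cd411800000596401a000006c9431a))))) (Tree.br (nat_lit 2278) (Tree.br (nat_lit 2277) (Tree.tip (nat_lit 2276) (Node.mv (nat_lit 0x200000300000000000f0000000) (nat_lit 0x1d000000c00001f00000800000c) (nat_lit 51) (nat_lit 1) (nat_lit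 0x8e3401800000240411b))) (Tree.tip (nat_lit 2277) (Node.mv (nat_lit 0x400001e00000000001c000000) (nat_lit 0x7000020000008) (nat_lit 49) (nat_lit 1) (nat_lit 0x5944019000000674218)))) (Tree.br (nat_lit 2279) (Tree.tip (nat_lit 2278) (Node.img (nat_lit 0x1000000f000000) (nat_lit 0x20000010000038) (nat_lit 163) (nat_lit 7) (nat_lit 133) (nat_lit 130))) (Tree.tip (nat_lit 2279) (Node.mv (nat_lit 0x10000007000000) (nat_lit 0x28000018000038) (nat_lit 27) (nat_lit 1) (nat_lit 0x8e64018000000214118)))))) (Tree.br (nat_lit 2284) (Tree.br (nat_lit 2282) (Tree.br (nat_lit 2281) (Tree.tip (nat_lit 2280) (Node.mv (nat_lit 0x1e00000000001c) (nat_lit 0x77000020) (nat_lit 5) (nat_lit 1) (nat_lit 0x8b440190000057e4018))) (Tree.tip (nat_lit 2281) (Node.img (nat_lit 0x100000e000000000006000000) (nat_lit 0x1000002000010000002000000000004) (nat_lit 2262) (nat_lit 1) (nat_lit 132) (nat_lit 128)))) (Tree.br (nat_lit 2283) (Tree.tip (nat_lit 2282) (Node.mv (nat_lit 0x1e00000000000c000000) (nat_lit 0x2000007000020000004000000000008)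 (nat_lit 97) (nat_lit 1) (nat_lit 0x8e94019000000244318))) (Tree.tip (nat_lit 2283) (Node.mv (nat_lit 0x1400000e000000000018000000) (nat_lit 0x4000008000001000008000000000010) (nat_lit 99) (nat_lit 1) (nat_lit 0x2fb401a000000164318))))) (Tree.br (nat_lit 2286) (Tree.br (nat_lit 2285) (Tree.tip (nat_lit 2284) (Node.mv (nat_lit 0x1000001e000000000018000000) (nat_lit 0x400000f000021000008000000000010) (nat_lit 98) (nat_lit 1) (nat_lit 0x8eb4018000000c74318))) (Tree.tip (nat_lit 2285) (Node.mv (nat_lit 0x1000001c000000000038000000) (nat_lit 0x400000e00006300000f000040000010) (nat_lit 77) (nat_lit 3) (nat_lit 0x7e04018000008714218000008ea4019000005d54119)))) (Tree.br (nat_lit 2287) (Tree.tip (nat_lit 2286) (Node.mv (nat_lit 0x1000001c000000000018000000) (nat_lit 0x400002f000023000008000000000010) (nat_lit 73) (nat_lit 1) (nat_lit 0x8ec40180000002a4319))) (Tree.tip (nat_lit 2287) (Node.mv (nat_lit 0x800001e000000000038000000) (nat_lit 0xf000004000006) (nat_lit 26) (nat_lit 1) (nat_lit 0x57e41180000024b4019)))))))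 (Tree.br (nat_lit 2296) (Tree.br (nat_lit 2292) (Tree.br (nat_lit 2290) (Tree.br (nat_lit 2289) (Tree.tip (nat_lit 2288) (Node.mv (nat_lit 0x1000001e000000000038000000) (nat_lit 0x800000100000f000004000006) (nat_lit 99) (nat_lit 1) (nat_lit 0x8ef4018000000164318))) (Tree.tip (nat_lit 2289) (Node.mv (nat_lit 0x1000001c000000000038000000) (nat_lit 0x2800000300000f000004000006) (nat_lit 73) (nat_lit 1) (nat_lit 0x8f040180000002a4319)))) (Tree.br (nat_lit 2291) (Tree.tip (nat_lit 2290) (Node.img (nat_lit 0xf00000000000c000000) (nat_lit 0x18000000000018000000000004) (nat_lit 888) (nat_lit 5) (nat_lit 128) (nat_lit 132))) (Tree.tip (nat_lit 2291) (Node.mv (nat_lit 0x1e000000000018000000) (nat_lit 0x33000000000030000000000008) (nat_lit 97) (nat_lit 1) (nat_lit 0x8f24019000000244318))))) (Tree.br (nat_lit 2294) (Tree.br (nat_lit 2293) (Tree.tip (nat_lit 2292) (Node.img (nat_lit 0x1000000e000000000004000004) (nat_lit 0x8000001000004000000000000) (nat_lit 1550) (nat_lit 3) (nat_lit 132) (nat_lit 132))) (Tree.tip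 (nat_lit 2293) (Node.mv (nat_lit 0x1000000e00000000003c000000) (nat_lit 0x8000001000004000000000006) (nat_lit 2) (nat_lit 1) (nat_lit 0x8f44018000000674019)))) (Tree.br (nat_lit 2295) (Tree.tip (nat_lit 2294) (Node.mv (nat_lit 0x800000800000000001c000000) (nat_lit 0x10000070000022000077) (nat_lit 25) (nat_lit 2) (nat_lit 0x534018000001c14018000003004019))) (Tree.tip (nat_lit 2295) (Node.mv (nat_lit 0x400000e00000000001e000000) (nat_lit 0x13000030000038000000000008) (nat_lit 76) (nat_lit 1) (nat_lit 0x6d34019000000c74318)))))) (Tree.br (nat_lit 2300) (Tree.br (nat_lit 2298) (Tree.br (nat_lit 2297) (Tree.tip (nat_lit 2296) (Node.mv (nat_lit 0x800000c00000000003c000000) (nat_lit 0x700000130000000000400000ee) (nat_lit 100) (nat_lit 1) (nat_lit 0x5340190000001f4318))) (Tree.tip (nat_lit 2297) (Node.mv (nat_lit 0x1800000c00000000003c000000) (nat_lit 0x24000013000000000002000007) (nat_lit 25) (nat_lit 1) (nat_lit 0x1e43180000006e4018)))) (Tree.br (nat_lit 2299) (Tree.tip (nat_lit 2298) (Node.mv (nat_lit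 0x30000018000000000038000000) (nat_lit 0x48000026000007000006000007) (nat_lit 26) (nat_lit 1) (nat_lit 0xdb40180000001e4319))) (Tree.tip (nat_lit 2299) (Node.mv (nat_lit 0x1800000c000000000038000000) (nat_lit 0x240000130000000000c00001dc) (nat_lit 30) (nat_lit 1) (nat_lit 0x53401a0000001e4318))))) (Tree.br (nat_lit 2302) (Tree.br (nat_lit 2301) (Tree.tip (nat_lit 2300) (Node.mv (nat_lit 0x10000018000000000078000000) (nat_lit 0x680000260003870001860003bf) (nat_lit 101) (nat_lit 3) (nat_lit 0x8fb4019000008fa4018000006e9401a000008f94019))) (Tree.tip (nat_lit 2301) (Node.mv (nat_lit 0x1800000c00000000003c000000) (nat_lit 0x240000130000000000400000e0) (nat_lit 30) (nat_lit 1) (nat_lit 0x1e431800000077401a)))) (Tree.br (nat_lit 2303) (Tree.tip (nat_lit 2302) (Node.mv (nat_lit 0x30000018000000000038000000) (nat_lit 0x48000026000007000006000070) (nat_lit 26) (nat_lit 1) (nat_lit 0x52f40180000001e4319))) (Tree.tip (nat_lit 2303) (Node.img (nat_lit 0xf000000) (nat_lit 0x7000003000003f) (nat_lit 536) (nat_lit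 5) (nat_lit 128) (nat_lit 130))))))))))
noncomputable def t0_18 : Tree := (Tree.br (nat_lit 2368) (Tree.br (nat_lit 2336) (Tree.br (nat_lit 2320) (Tree.br (nat_lit 2312) (Tree.br (nat_lit 2308) (Tree.br (nat_lit 2306) (Tree.br (nat_lit 2305) (Tree.tip (nat_lit 2304) (Node.mv (nat_lit 0x10000018000000000078000000) (nat_lit 0x680000260003870001860003f8) (nat_lit 101) (nat_lit 3) (nat_lit 0x8fb4019000008fe4018000008ff401b000008fd4019))) (Tree.tip (nat_lit 2305) (Node.img (nat_lit 0x78000000) (nat_lit 0x70000060000e7) (nat_lit 469) (nat_lit 6) (nat_lit 135) (nat_lit 128)))) (Tree.br (nat_lit 2307) (Tree.tip (nat_lit 2306) (Node.mv (nat_lit 0x10000018000000000078000000) (nat_lit 0x680000260000070000860001e7) (nat_lit 101) (nat_lit 2) (nat_lit 0x8fa4018000009014018000008fd4019))) (Tree.tip (nat_lit 2307) (Node.mv (nat_lit 0x1800000c00000000003c000000) (nat_lit 0x2400001300000000004000000e) (nat_lit 30) (nat_lit 1) (nat_lit 0x1e43180000006e4019))))) (Tree.br (nat_lit 2310) (Tree.br (nat_lit 2309) (Tree.tip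 (nat_lit 2308) (Node.img (nat_lit 0x78000000) (nat_lit 0x700000600007e) (nat_lit 536) (nat_lit 7) (nat_lit 134) (nat_lit 130))) (Tree.tip (nat_lit 2309) (Node.mv (nat_lit 0x10000018000000000078000000) (nat_lit 0x6800002600000700008600007e) (nat_lit 101) (nat_lit 3) (nat_lit 0x8f94019000008fe4018000009044018000009034019)))) (Tree.br (nat_lit 2311) (Tree.tip (nat_lit 2310) (Node.mv (nat_lit 0x10000018000000000038000000) (nat_lit 0xe80000260003870001c60003ff) (nat_lit 30) (nat_lit 5) (nat_lit 0x8fc4018000009004018000009054018000009024018000008f840190000011f4019))) (Tree.tip (nat_lit 2311) (Node.img (nat_lit 0x2000000000006000007000000) (nat_lit 0x2000000000002000000000000000001) (nat_lit 73) (nat_lit 2) (nat_lit 128) (nat_lit 133)))))) (Tree.br (nat_lit 2316) (Tree.br (nat_lit 2314) (Tree.br (nat_lit 2313) (Tree.tip (nat_lit 2312) (Node.mv (nat_lit 0x800000000001000001e000000) (nat_lit 0x8000000000008000008000001000004) (nat_lit 51) (nat_lit 1) (nat_lit 0x907401a000000164118))) (Tree.tip (nat_lit 2313)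 (Node.mv (nat_lit 0x800000000000000001e000000) (nat_lit 0x8000000000008000038000001000004) (nat_lit 52) (nat_lit 1) (nat_lit 0x90840180000002a4119)))) (Tree.br (nat_lit 2315) (Tree.tip (nat_lit 2314) (Node.mv (nat_lit 0x800000c00000000003c000000) (nat_lit 0x10000070000033000070000002000018) (nat_lit 100) (nat_lit 2) (nat_lit 0x6de401a000005284018000009094019))) (Tree.tip (nat_lit 2315) (Node.img (nat_lit 0x400000c00000000000e000010) (nat_lit 0x8000001000008) (nat_lit 1252) (nat_lit 1) (nat_lit 132) (nat_lit 128))))) (Tree.br (nat_lit 2318) (Tree.br (nat_lit 2317) (Tree.tip (nat_lit 2316) (Node.mv (nat_lit 0x600000600000000000e000010) (nat_lit 0x1000038000008000001000008) (nat_lit 75) (nat_lit 1) (nat_lit 0x90b4018000000264318))) (Tree.tip (nat_lit 2317) (Node.mv (nat_lit 0x400000400001c000020) (nat_lit 0x4000000000000000002000013) (nat_lit 25) (nat_lit 1) (nat_lit 0x25b4018000000204019)))) (Tree.br (nat_lit 2319) (Tree.tip (nat_lit 2318) (Node.mv (nat_lit 0x800000c00000400003c000000) (nat_lit 0x2000036000033000010000000000038)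 (nat_lit 76) (nat_lit 1) (nat_lit 0x8364018000005cb4019))) (Tree.tip (nat_lit 2319) (Node.mv (nat_lit 0x800000c00000000003c000000) (nat_lit 0x2000036000033000016000000000038) (nat_lit 50) (nat_lit 1) (nat_lit 0x90e4018000000244119))))))) (Tree.br (nat_lit 2328) (Tree.br (nat_lit 2324) (Tree.br (nat_lit 2322) (Tree.br (nat_lit 2321) (Tree.tip (nat_lit 2320) (Node.mv (nat_lit 0x400000e00000000001e000000) (nat_lit 0x1000038000000000008) (nat_lit 52) (nat_lit 1) (nat_lit 0x19a40180000002a4119))) (Tree.tip (nat_lit 2321) (Node.mv (nat_lit 0xc00000c000000000018000000) (nat_lit 0x32000073000010000000000018) (nat_lit 100) (nat_lit 1) (nat_lit 0x7ef4019000000234318)))) (Tree.br (nat_lit 2323) (Tree.tip (nat_lit 2322) (Node.mv (nat_lit 0x600000600000000001e000000) (nat_lit 0x1000038000008000001000038) (nat_lit 4) (nat_lit 1) (nat_lit 0x90c4018000000284019))) (Tree.tip (nat_lit 2323) (Node.img (nat_lit 0x600000600000000001e000000) (nat_lit 0x9000038000008000000000038) (nat_lit 1828) (nat_lit 1) (nat_lit 133)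 (nat_lit 128))))) (Tree.br (nat_lit 2326) (Tree.br (nat_lit 2325) (Tree.tip (nat_lit 2324) (Node.mv (nat_lit 0x800000c00000000003c000000) (nat_lit 0x3600007300001400000200007b) (nat_lit 98) (nat_lit 4) (nat_lit 0x9124019000008d340180000091140180000089c4018000009134019))) (Tree.tip (nat_lit 2325) (Node.img (nat_lit 0x16000012) (nat_lit 0x8000021) (nat_lit 189) (nat_lit 2) (nat_lit 128) (nat_lit 129)))) (Tree.br (nat_lit 2327) (Tree.tip (nat_lit 2326) (Node.mv (nat_lit 0x1600000200000000001e000000) (nat_lit 0x8000031000030000000000008) (nat_lit 76) (nat_lit 1) (nat_lit 0x3c04019000009154318))) (Tree.tip (nat_lit 2327) (Node.mv (nat_lit 0x1800001800000000003c000000) (nat_lit 0x20000007000004000000000006) (nat_lit 74) (nat_lit 1) (nat_lit 0x52c4019000000894318)))))) (Tree.br (nat_lit 2332) (Tree.br (nat_lit 2330) (Tree.br (nat_lit 2329) (Tree.tip (nat_lit 2328) (Node.mv (nat_lit 0x18000018000000000078000000) (nat_lit 0x200000070000040000040000e6) (nat_lit 26) (nat_lit 1) (nat_lit 0x917401800000077401a)))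 (Tree.tip (nat_lit 2329) (Node.mv (nat_lit 0xc00000c00000000003c000000) (nat_lit 0x32000073000010000000000060) (nat_lit 100) (nat_lit 1) (nat_lit 0x8d44019000000234318)))) (Tree.br (nat_lit 2331) (Tree.tip (nat_lit 2330) (Node.mv (nat_lit 0x800000c00000000003c000000) (nat_lit 0x36000073000016000000000068) (nat_lit 98) (nat_lit 1) (nat_lit 0x9194018000007124019))) (Tree.tip (nat_lit 2331) (Node.mv (nat_lit 0x18000018000000000078000000) (nat_lit 0x2000000700000e000004000006) (nat_lit 26) (nat_lit 2) (nat_lit 0x91740180000024b4019000000694119))))) (Tree.br (nat_lit 2334) (Tree.br (nat_lit 2333) (Tree.tip (nat_lit 2332) (Node.mv (nat_lit 0x6000007000000000008000000) (nat_lit 0x1000038000018000000000008) (nat_lit 75) (nat_lit 1) (nat_lit 0x1804018000000264318))) (Tree.tip (nat_lit 2333) (Node.mv (nat_lit 0x400000400000000001e000000) (nat_lit 0x4000000000000000007000000000008) (nat_lit 49) (nat_lit 1) (nat_lit 0x5914019000000244118)))) (Tree.br (nat_lit 2335) (Tree.tip (nat_lit 2334) (Node.mv (nat_lit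 0xc000000000038000000) (nat_lit 0x8000000000007000006000077) (nat_lit 26) (nat_lit 2) (nat_lit 0x52f40180000011f40180000087c4019))) (Tree.tip (nat_lit 2335) (Node.mv (nat_lit 0x2000002000001000006000000) (nat_lit 0x2000000000000000002000001000005) (nat_lit 49) (nat_lit 1) (nat_lit 0x3a4018000000394019)))))))) (Tree.br (nat_lit 2352) (Tree.br (nat_lit 2344) (Tree.br (nat_lit 2340) (Tree.br (nat_lit 2338) (Tree.br (nat_lit 2337) (Tree.tip (nat_lit 2336) (Node.mv (nat_lit 0x8000008000000000038000000) (nat_lit 0x8000006000077) (nat_lit 26) (nat_lit 2) (nat_lit 0x11f40180000056840190000024b4019))) (Tree.tip (nat_lit 2337) (Node.mv (nat_lit 0x200000100000e000000) (nat_lit 0x2000002000000000002000011000005) (nat_lit 49) (nat_lit 1) (nat_lit 0x3b4018000000254118)))) (Tree.br (nat_lit 2339) (Tree.tip (nat_lit 2338) (Node.mv (nat_lit 0x400000400000800000e000000) (nat_lit 0x800000000000100007c) (nat_lit 3) (nat_lit 1) (nat_lit 0x68e4018000002fd401a))) (Tree.tip (nat_lit 2339) (Node.mv (nat_lit 0x38000008)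 (nat_lit 0x440001f7) (nat_lit 5) (nat_lit 2) (nat_lit 0x497401a0000017840180000068e401a))))) (Tree.br (nat_lit 2342) (Tree.br (nat_lit 2341) (Tree.tip (nat_lit 2340) (Node.mv (nat_lit 0x10000018000000000038000000) (nat_lit 0x80000440001ff) (nat_lit 3) (nat_lit 1) (nat_lit 0x923401800000311401b))) (Tree.tip (nat_lit 2341) (Node.mv (nat_lit 0x20000038000000000010000000) (nat_lit 0x50000006000017000000000010) (nat_lit 4) (nat_lit 1) (nat_lit 0xd9421800000311401c)))) (Tree.br (nat_lit 2343) (Tree.tip (nat_lit 2342) (Node.img (nat_lit 0x400001400001c000000) (nat_lit 0x4000000000020000002000003) (nat_lit 275) (nat_lit 5) (nat_lit 128) (nat_lit 132))) (Tree.tip (nat_lit 2343) (Node.mv (nat_lit 0x800000c00001000001c000000) (nat_lit 0x4000000000024000002000007) (nat_lit 50) (nat_lit 1) (nat_lit 0x926401800000041401a)))))) (Tree.br (nat_lit 2348) (Tree.br (nat_lit 2346) (Tree.br (nat_lit 2345) (Tree.tip (nat_lit 2344) (Node.mv (nat_lit 0x400000000003c000020) (nat_lit 0x4000000000006000002000013) (nat_lit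 50) (nat_lit 1) (nat_lit 0x90d4018000000244119))) (Tree.tip (nat_lit 2345) (Node.mv (nat_lit 0x800000c00001400001c000000) (nat_lit 0x4000010000000000002000033) (nat_lit 25) (nat_lit 1) (nat_lit 0x30740190000025b4018)))) (Tree.br (nat_lit 2347) (Tree.tip (nat_lit 2346) (Node.img (nat_lit 0x200000200000e000000) (nat_lit 0x2000002000000000001000011000005) (nat_lit 1098) (nat_lit 2) (nat_lit 128) (nat_lit 133))) (Tree.tip (nat_lit 2347) (Node.mv (nat_lit 0x400000600000000000e000000) (nat_lit 0x2000002000000000003000011000007) (nat_lit 49) (nat_lit 1) (nat_lit 0x92a4018000000414019))))) (Tree.br (nat_lit 2350) (Tree.br (nat_lit 2349) (Tree.tip (nat_lit 2348) (Node.img (nat_lit 0x1e000000) (nat_lit 0x73000020000070) (nat_lit 151) (nat_lit 7) (nat_lit 134) (nat_lit 130))) (Tree.tip (nat_lit 2349) (Node.img (nat_lit 0x1e000000) (nat_lit 0x70000020000037) (nat_lit 145) (nat_lit 5) (nat_lit 128) (nat_lit 130)))) (Tree.br (nat_lit 2351) (Tree.tip (nat_lit 2350) (Node.mv (nat_lit 0x400000600000000000e000000)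 (nat_lit 0x73000030000077) (nat_lit 28) (nat_lit 2) (nat_lit 0x92d40180000092c40180000052c4018))) (Tree.tip (nat_lit 2351) (Node.mv (nat_lit 0x3c000020000000) (nat_lit 0x20000020000077000002000010000010) (nat_lit 101) (nat_lit 2) (nat_lit 0x1cd4218000002e8401a000002f24118))))))) (Tree.br (nat_lit 2360) (Tree.br (nat_lit 2356) (Tree.br (nat_lit 2354) (Tree.br (nat_lit 2353) (Tree.tip (nat_lit 2352) (Node.img (nat_lit 0x3000000000003000002) (nat_lit 0x1000000000003000000000000) (nat_lit 197) (nat_lit 6) (nat_lit 129) (nat_lit 128))) (Tree.tip (nat_lit 2353) (Node.mv (nat_lit 0x4000016000000000018000010) (nat_lit 0xb000028000018000000000000) (nat_lit 75) (nat_lit 1) (nat_lit 0xc7431800000930401b)))) (Tree.br (nat_lit 2355) (Tree.tip (nat_lit 2354) (Node.mv (nat_lit 0x400000600000000000e000000) (nat_lit 0x3b00001100003a) (nat_lit 28) (nat_lit 1) (nat_lit 0x7b4018000006c64018))) (Tree.tip (nat_lit 2355) (Node.mv (nat_lit 0x200000300000000001f000000) (nat_lit 0x1000000000003) (nat_lit 0) (nat_lit 1) (nat_lit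 0x31140180000012c4018))))) (Tree.br (nat_lit 2358) (Tree.br (nat_lit 2357) (Tree.tip (nat_lit 2356) (Node.mv (nat_lit 0x200000300000000000f000000) (nat_lit 0x100001000003b) (nat_lit 28) (nat_lit 1) (nat_lit 0x9334018000000774018))) (Tree.tip (nat_lit 2357) (Node.img (nat_lit 0x1000003e000000) (nat_lit 0x80000c10000e0) (nat_lit 496) (nat_lit 5) (nat_lit 128) (nat_lit 130)))) (Tree.br (nat_lit 2359) (Tree.tip (nat_lit 2358) (Node.mv (nat_lit 0x1000001e000000) (nat_lit 0x80000e10000e7) (nat_lit 29) (nat_lit 1) (nat_lit 0x93540180000006e4018))) (Tree.tip (nat_lit 2359) (Node.mv (nat_lit 0x1e000000) (nat_lit 0x380000e10000e7) (nat_lit 52) (nat_lit 1) (nat_lit 0x93640180000002a4119)))))) (Tree.br (nat_lit 2364) (Tree.br (nat_lit 2362) (Tree.br (nat_lit 2361) (Tree.tip (nat_lit 2360) (Node.img (nat_lit 0x3c000020) (nat_lit 0x1c200001f) (nat_lit 1870) (nat_lit 1) (nat_lit 136) (nat_lit 128))) (Tree.tip (nat_lit 2361) (Node.mv (nat_lit 0x3c000000) (nat_lit 0xf00001c200003f) (nat_lit 5) (nat_lit 2) (nat_lit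 0x9384018000001c14019000004174019)))) (Tree.br (nat_lit 2363) (Tree.tip (nat_lit 2362) (Node.mv (nat_lit 0x3c000000) (nat_lit 0x1c200007f) (nat_lit 5) (nat_lit 1) (nat_lit 0x938401800000028401a))) (Tree.tip (nat_lit 2363) (Node.mv (nat_lit 0x400002000003c000000) (nat_lit 0x4000000000016000002000003) (nat_lit 25) (nat_lit 1) (nat_lit 0x74f4018000000214119))))) (Tree.br (nat_lit 2366) (Tree.br (nat_lit 2365) (Tree.tip (nat_lit 2364) (Node.mv (nat_lit 0x400000000003c000000) (nat_lit 0x4000000000076000002000003) (nat_lit 53) (nat_lit 1) (nat_lit 0x93b40180000002a411a))) (Tree.tip (nat_lit 2365) (Node.mv (nat_lit 0x400000000001c000000) (nat_lit 0x40000000000f60000620000f3) (nat_lit 29) (nat_lit 3) (nat_lit 0x74040180000093c40180000007c401a0000007b4019)))) (Tree.br (nat_lit 2367) (Tree.tip (nat_lit 2366) (Node.mv (nat_lit 0x1000001a000008000018000000) (nat_lit 0x28000005000000000000000010) (nat_lit 74) (nat_lit 1) (nat_lit 0x4d040180000002a4319))) (Tree.tip (nat_lit 2367) (Node.img (nat_lit 0x2000002000006000000)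 (nat_lit 0x1000003000003000000000001000001000005) (nat_lit 288) (nat_lit 5) (nat_lit 128) (nat_lit 134))))))))) (Tree.br (nat_lit 2400) (Tree.br (nat_lit 2384) (Tree.br (nat_lit 2376) (Tree.br (nat_lit 2372) (Tree.br (nat_lit 2370) (Tree.br (nat_lit 2369) (Tree.tip (nat_lit 2368) (Node.mv (nat_lit 0x4000006000000000006000000) (nat_lit 0x1000003000003000000000003000001000007) (nat_lit 49) (nat_lit 1) (nat_lit 0x93f4018000000414019))) (Tree.tip (nat_lit 2369) (Node.mv (nat_lit 0x18000018000000000038000004) (nat_lit 0x20000007000004000004000002) (nat_lit 74) (nat_lit 1) (nat_lit 0x4ec4019000000894318)))) (Tree.br (nat_lit 2371) (Tree.tip (nat_lit 2370) (Node.mv (nat_lit 0x18000018000000000078000000) (nat_lit 0x2000000700000400000400000e) (nat_lit 2) (nat_lit 1) (nat_lit 0x94140180000012c401a))) (Tree.tip (nat_lit 2371) (Node.mv (nat_lit 0x800000c00002000001c) (nat_lit 0x74000013000010000002) (nat_lit 49) (nat_lit 1) (nat_lit 0x6c942180000085d4019))))) (Tree.br (nat_lit 2374) (Tree.br (nat_lit 2373)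 (Tree.tip (nat_lit 2372) (Node.mv (nat_lit 0x400002400001c000000) (nat_lit 0x4000000000010000002000003) (nat_lit 25) (nat_lit 1) (nat_lit 0x25b4018000000214119))) (Tree.tip (nat_lit 2373) (Node.img (nat_lit 0x400000400001e000000000000000000) (nat_lit 0x2000000000003000002000002) (nat_lit 109) (nat_lit 2) (nat_lit 128) (nat_lit 133)))) (Tree.br (nat_lit 2375) (Tree.tip (nat_lit 2374) (Node.mv (nat_lit 0x400000400001c000000000000000000) (nat_lit 0x400000000000200000300003b000002000002) (nat_lit 73) (nat_lit 2) (nat_lit 0x9454018000007b342180000025b4218))) (Tree.tip (nat_lit 2375) (Node.mv (nat_lit 0x400000600000000003c000000) (nat_lit 0x2000002000007) (nat_lit 1) (nat_lit 1) (nat_lit 0x4ec40180000012c4019)))))) (Tree.br (nat_lit 2380) (Tree.br (nat_lit 2378) (Tree.br (nat_lit 2377) (Tree.tip (nat_lit 2376) (Node.mv (nat_lit 0x18000018000000000020000000) (nat_lit 0x240000e7000060000000000020) (nat_lit 77) (nat_lit 1) (nat_lit 0x3c7401800000026431a))) (Tree.tip (nat_lit 2377) (Node.mv (nat_lit 0x1400000e00000000000c000000)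 (nat_lit 0x1000000b000031000008000000000004) (nat_lit 76) (nat_lit 1) (nat_lit 0x8d64018000000c74318)))) (Tree.br (nat_lit 2379) (Tree.tip (nat_lit 2378) (Node.img (nat_lit 0x1400000e) (nat_lit 0x28000001) (nat_lit 81) (nat_lit 1) (nat_lit 133) (nat_lit 128))) (Tree.tip (nat_lit 2379) (Node.mv (nat_lit 0x400000e00000000000c000000) (nat_lit 0x1000003b000031000008000000000004) (nat_lit 100) (nat_lit 2) (nat_lit 0x94940180000089243180000094a4318))))) (Tree.br (nat_lit 2382) (Tree.br (nat_lit 2381) (Tree.tip (nat_lit 2380) (Node.img (nat_lit 0x400000c00000000000e000000) (nat_lit 0x800000100007c) (nat_lit 985) (nat_lit 7) (nat_lit 134) (nat_lit 132))) (Tree.tip (nat_lit 2381) (Node.mv (nat_lit 0x400000e00000000000e000000) (nat_lit 0x300003000000800000100007c) (nat_lit 97) (nat_lit 1) (nat_lit 0x94c4018000000264318)))) (Tree.br (nat_lit 2383) (Tree.tip (nat_lit 2382) (Node.mv (nat_lit 0x800001c000000) (nat_lit 0xf70000e30001c0) (nat_lit 29) (nat_lit 2) (nat_lit 0x153411800000376401a000000c74119))) (Tree.tip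 (nat_lit 2383) (Node.img (nat_lit 0x800003c) (nat_lit 0x1f00000c3) (nat_lit 698) (nat_lit 4) (nat_lit 128) (nat_lit 128))))))) (Tree.br (nat_lit 2392) (Tree.br (nat_lit 2388) (Tree.br (nat_lit 2386) (Tree.br (nat_lit 2385) (Tree.tip (nat_lit 2384) (Node.mv (nat_lit 0x800001c) (nat_lit 0x1f70000e3) (nat_lit 5) (nat_lit 2) (nat_lit 0x15340180000094f4018000000c74019))) (Tree.tip (nat_lit 2385) (Node.mv (nat_lit 0x400000e00000000000c000000) (nat_lit 0x1000003b00003000000800000000000c) (nat_lit 76) (nat_lit 1) (nat_lit 0x5b74019000000c74318)))) (Tree.br (nat_lit 2387) (Tree.tip (nat_lit 2386) (Node.mv (nat_lit 0x1e000000000006000000) (nat_lit 0x3000000000033000000000004) (nat_lit 53) (nat_lit 1) (nat_lit 0x7bc4018000000204219))) (Tree.tip (nat_lit 2387) (Node.mv (nat_lit 0x400000e00000000000e000000) (nat_lit 0x780000700000e800000100007c) (nat_lit 76) (nat_lit 1) (nat_lit 0x37642190000094c4018))))) (Tree.br (nat_lit 2390) (Tree.br (nat_lit 2389) (Tree.tip (nat_lit 2388) (Node.mv (nat_lit 0x200000e00000000000e000000)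 (nat_lit 0x10000003000010000004) (nat_lit 49) (nat_lit 1) (nat_lit 0x86b4118000000394019))) (Tree.tip (nat_lit 2389) (Node.img (nat_lit 0xf000000000004000004) (nat_lit 0x18000000000018000008000000) (nat_lit 768) (nat_lit 2) (nat_lit 128) (nat_lit 132)))) (Tree.br (nat_lit 2391) (Tree.tip (nat_lit 2390) (Node.mv (nat_lit 0x1e00000000000e000000) (nat_lit 0x3000000000003000001100007c) (nat_lit 3) (nat_lit 1) (nat_lit 0x95540190000068e4018))) (Tree.tip (nat_lit 2391) (Node.img (nat_lit 0x400000e000008000008) (nat_lit 0x1000001000003b000030000000000000) (nat_lit 1654) (nat_lit 4) (nat_lit 128) (nat_lit 128)))))) (Tree.br (nat_lit 2396) (Tree.br (nat_lit 2394) (Tree.br (nat_lit 2393) (Tree.tip (nat_lit 2392) (Node.mv (nat_lit 0x400000e000000000008000000) (nat_lit 0x1000001000003b000030000008000000000008) (nat_lit 51) (nat_lit 1) (nat_lit 0x957411800000008401a))) (Tree.tip (nat_lit 2393) (Node.mv (nat_lit 0x400000e000000000006000000) (nat_lit 0x7b0000700000e3000000000004) (nat_lit 76) (nat_lit 2) (nat_lit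 0x7bc4018000003764219000000c74318)))) (Tree.br (nat_lit 2395) (Tree.tip (nat_lit 2394) (Node.img (nat_lit 0x200000200000a00000e000000) (nat_lit 0x10000001000001) (nat_lit 527) (nat_lit 7) (nat_lit 132) (nat_lit 132))) (Tree.tip (nat_lit 2395) (Node.mv (nat_lit 0xc00001c00001000001c000000) (nat_lit 0x2000003000000000024000002000002) (nat_lit 50) (nat_lit 1) (nat_lit 0x29741180000095a4019))))) (Tree.br (nat_lit 2398) (Tree.br (nat_lit 2397) (Tree.tip (nat_lit 2396) (Node.mv (nat_lit 0xc00001c00000000000c000000) (nat_lit 0x2000033000003000004000000000008) (nat_lit 100) (nat_lit 1) (nat_lit 0x5cd4018000000894318))) (Tree.tip (nat_lit 2397) (Node.mv (nat_lit 0x800001c00000000003c000000) (nat_lit 0x2000007000000000006000000000008) (nat_lit 50) (nat_lit 1) (nat_lit 0x4d54018000000244119)))) (Tree.br (nat_lit 2399) (Tree.tip (nat_lit 2398) (Node.mv (nat_lit 0x800001c00000000001c000000) (nat_lit 0x20000070000000000e60000600000e8) (nat_lit 29) (nat_lit 1) (nat_lit 0x95d40180000007c401a))) (Tree.tip (nat_lit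 2399) (Node.img (nat_lit 0x400000c00000000001e000000) (nat_lit 0x38000001000008) (nat_lit 1330) (nat_lit 1) (nat_lit 133) (nat_lit 128)))))))) (Tree.br (nat_lit 2416) (Tree.br (nat_lit 2408) (Tree.br (nat_lit 2404) (Tree.br (nat_lit 2402) (Tree.br (nat_lit 2401) (Tree.tip (nat_lit 2400) (Node.mv (nat_lit 0x400000e00000000000e000000) (nat_lit 0x3a00001100000b) (nat_lit 28) (nat_lit 1) (nat_lit 0x95f40180000052c4018))) (Tree.tip (nat_lit 2401) (Node.mv (nat_lit 0x800001c00000000003c000000) (nat_lit 0x30000023000060000000000060) (nat_lit 53) (nat_lit 1) (nat_lit 0x84b40180000002a411a)))) (Tree.br (nat_lit 2403) (Tree.tip (nat_lit 2402) (Node.img (nat_lit 0xe00000800000e) (nat_lit 0x10000070000001) (nat_lit 1344) (nat_lit 5) (nat_lit 128) (nat_lit 130))) (Tree.tip (nat_lit 2403) (Node.mv (nat_lit 0x400000e00000000000e000000) (nat_lit 0x10000078000001000008) (nat_lit 51) (nat_lit 1) (nat_lit 0x962411800000008401a))))) (Tree.br (nat_lit 2406) (Tree.br (nat_lit 2405) (Tree.tip (nat_lit 2404) (Node.mv (nat_lit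 0x400000e00000000000e000000) (nat_lit 0x3300003000003200001000000b) (nat_lit 28) (nat_lit 1) (nat_lit 0x87940180000052c4018))) (Tree.tip (nat_lit 2405) (Node.img (nat_lit 0xc00001c000000000004000000) (nat_lit 0x2000003000000000004000000000004) (nat_lit 533) (nat_lit 6) (nat_lit 132) (nat_lit 128)))) (Tree.br (nat_lit 2407) (Tree.tip (nat_lit 2406) (Node.mv (nat_lit 0x800001c000000000004000000) (nat_lit 0x2000007000060000006000000000004) (nat_lit 98) (nat_lit 2) (nat_lit 0x3024019000009654018000000264319))) (Tree.tip (nat_lit 2407) (Node.mv (nat_lit 0x400000400000000000e000010) (nat_lit 0x4000010000023) (nat_lit 28) (nat_lit 1) (nat_lit 0x24b4018000000284019)))))) (Tree.br (nat_lit 2412) (Tree.br (nat_lit 2410) (Tree.br (nat_lit 2409) (Tree.tip (nat_lit 2408) (Node.mv (nat_lit 0xe00000d) (nat_lit 0x70000070000002) (nat_lit 28) (nat_lit 1) (nat_lit 0x2cb4019000000f14018))) (Tree.tip (nat_lit 2409) (Node.mv (nat_lit 0x20000020000000000038000000) (nat_lit 0x400000c70000460000ef) (nat_lit 26) (nat_lit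 2) (nat_lit 0x74b401a000000db4018000000534019)))) (Tree.br (nat_lit 2411) (Tree.tip (nat_lit 2410) (Node.mv (nat_lit 0x20000020000000000038000000) (nat_lit 0x400000c70000460000e7) (nat_lit 26) (nat_lit 1) (nat_lit 0x74b401a000000db4018))) (Tree.tip (nat_lit 2411) (Node.mv (nat_lit 0xe00000c000000000004) (nat_lit 0x7000070000000000004000000) (nat_lit 97) (nat_lit 1) (nat_lit 0xef4218000001354019))))) (Tree.br (nat_lit 2414) (Tree.br (nat_lit 2413) (Tree.tip (nat_lit 2412) (Node.mv (nat_lit 0x400001e000000000006000000) (nat_lit 0x3000000100003800001900007c) (nat_lit 27) (nat_lit 3) (nat_lit 0x95640180000088641180000094c40180000019b4018))) (Tree.tip (nat_lit 2413) (Node.mv (nat_lit 0x400000e000000000006000000) (nat_lit 0x3300003100003800001900007c) (nat_lit 76) (nat_lit 1) (nat_lit 0x96c4018000000c74318)))) (Tree.br (nat_lit 2415) (Tree.tip (nat_lit 2414) (Node.img (nat_lit 0x1800000000000e000000) (nat_lit 0x8000000000070000030000077) (nat_lit 2334) (nat_lit 1) (nat_lit 134) (nat_lit 128))) (Tree.tip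 (nat_lit 2415) (Node.mv (nat_lit 0x400001e000000000006000000) (nat_lit 0x800000000007800003900007f) (nat_lit 27) (nat_lit 2) (nat_lit 0x94c40180000096e4018000005ad4018))))))) (Tree.br (nat_lit 2424) (Tree.br (nat_lit 2420) (Tree.br (nat_lit 2418) (Tree.br (nat_lit 2417) (Tree.tip (nat_lit 2416) (Node.mv (nat_lit 0x1e00000000000e000000) (nat_lit 0x3000000000003000003000007f) (nat_lit 28) (nat_lit 1) (nat_lit 0x534018000008784019))) (Tree.tip (nat_lit 2417) (Node.mv (nat_lit 0x400000e000000000006000000) (nat_lit 0xb00003000007800003900007f) (nat_lit 76) (nat_lit 1) (nat_lit 0x96f4018000000c74318)))) (Tree.br (nat_lit 2419) (Tree.tip (nat_lit 2418) (Node.img (nat_lit 0x800003e000000) (nat_lit 0x100000c10000e0) (nat_lit 522) (nat_lit 4) (nat_lit 128) (nat_lit 128))) (Tree.tip (nat_lit 2419) (Node.mv (nat_lit 0xa00001e000000) (nat_lit 0x140000e10000e0) (nat_lit 29) (nat_lit 1) (nat_lit 0x9724018000002404119))))) (Tree.br (nat_lit 2422) (Tree.br (nat_lit 2421) (Tree.tip (nat_lit 2420) (Node.img (nat_lit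 0x800001e000000) (nat_lit 0x170000e10000e0) (nat_lit 1547) (nat_lit 5) (nat_lit 128) (nat_lit 130))) (Tree.tip (nat_lit 2421) (Node.mv (nat_lit 0x800001c000000) (nat_lit 0xf70000e30000e0) (nat_lit 25) (nat_lit 2) (nat_lit 0x97440180000072c4018000000524118)))) (Tree.br (nat_lit 2423) (Tree.tip (nat_lit 2422) (Node.mv (nat_lit 0x400000e00000200000c000000) (nat_lit 0x10000001000012000002) (nat_lit 25) (nat_lit 1) (nat_lit 0x86b4118000000414019))) (Tree.tip (nat_lit 2423) (Node.img (nat_lit 0x3000001000003000000000000) (nat_lit 0x3000000000000000000000003000002) (nat_lit 202) (nat_lit 4) (nat_lit 128) (nat_lit 128)))))) (Tree.br (nat_lit 2428) (Tree.br (nat_lit 2426) (Tree.br (nat_lit 2425) (Tree.tip (nat_lit 2424) (Node.mv (nat_lit 0xe00000000000e000000000000) (nat_lit 0x6000010000003000010000006000004) (nat_lit 73) (nat_lit 1) (nat_lit 0x97740190000086b4218))) (Tree.tip (nat_lit 2425) (Node.mv (nat_lit 0x1000003000002000004000000) (nat_lit 0x1000002000000000000000002000006) (nat_lit 25) (nat_lit 1)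 (nat_lit 0x2454018000000084018)))) (Tree.br (nat_lit 2427) (Tree.tip (nat_lit 2426) (Node.mv (nat_lit 0x1e000004000008000000) (nat_lit 0x200000700000000000000000400000c) (nat_lit 97) (nat_lit 1) (nat_lit 0x9794019000000244318))) (Tree.tip (nat_lit 2427) (Node.mv (nat_lit 0x1000000e000004000008000000) (nat_lit 0x800000c00000100000000000400000c) (nat_lit 99) (nat_lit 1) (nat_lit 0x377401a000000164318))))) (Tree.br (nat_lit 2430) (Tree.br (nat_lit 2429) (Tree.tip (nat_lit 2428) (Node.mv (nat_lit 0x2000003c000000000010000000) (nat_lit 0x1400001f000002000008000008000018) (nat_lit 51) (nat_lit 2) (nat_lit 0x97b40190000097a4019000000594318))) (Tree.tip (nat_lit 2429) (Node.mv (nat_lit 0x8000008000038000000000000000000) (nat_lit 0x48000000000007000044000018000010000010) (nat_lit 150) (nat_lit 1) (nat_lit 0x492401b000001464318)))) (Tree.br (nat_lit 2431) (Tree.tip (nat_lit 2430) (Node.mv (nat_lit 0x20000038000008000038) (nat_lit 0x1d0000000000007000044) (nat_lit 78) (nat_lit 1) (nat_lit 0x1464018000001b4421b)))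 (Tree.tip (nat_lit 2431) (Node.mv (nat_lit 0x4000007000001000003000000000000000000) (nat_lit 0x3b000000000000000000000003000002000002) (nat_lit 147) (nat_lit 1) (nat_lit 0x4924018000001b44518))))))))))
noncomputable def t0_19 : Tree := (Tree.br (nat_lit 2496) (Tree.br (nat_lit 2464) (Tree.br (nat_lit 2448) (Tree.br (nat_lit 2440) (Tree.br (nat_lit 2436) (Tree.br (nat_lit 2434) (Tree.br (nat_lit 2433) (Tree.tip (nat_lit 2432) (Node.img (nat_lit 0x38000008000038) (nat_lit 0x40000007000004) (nat_lit 1344) (nat_lit 6) (nat_lit 134) (nat_lit 128))) (Tree.tip (nat_lit 2433) (Node.mv (nat_lit 0x38000008000038000000000000) (nat_lit 0x8000040000007000004000018000010) (nat_lit 27) (nat_lit 1) (nat_lit 0x98042180000008d401b)))) (Tree.br (nat_lit 2435) (Tree.tip (nat_lit 2434) (Node.img (nat_lit 0x200000200000e000000000000) (nat_lit 0x2000000000000000010000007000005) (nat_lit 508) (nat_lit 7) (nat_lit 132) (nat_lit 133))) (Tree.tip (nat_lit 2435) (Node.mv (nat_lit 0x38000000000038000000000000) (nat_lit 0x800004000000f00004400001c000014)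 (nat_lit 75) (nat_lit 2) (nat_lit 0x981401800000982401a0000086b421a))))) (Tree.br (nat_lit 2438) (Tree.br (nat_lit 2437) (Tree.tip (nat_lit 2436) (Node.mv (nat_lit 0x38000008000038000000) (nat_lit 0x10000040000007000004000008) (nat_lit 3) (nat_lit 1) (nat_lit 0x980411800000031401b))) (Tree.tip (nat_lit 2437) (Node.img (nat_lit 0x600000200000e000000000000) (nat_lit 0x4000000000000000010000003000001) (nat_lit 275) (nat_lit 1) (nat_lit 132) (nat_lit 128)))) (Tree.br (nat_lit 2439) (Tree.tip (nat_lit 2438) (Node.mv (nat_lit 0x38000000000038000000000000) (nat_lit 0x1000004000000f00004400000c000004) (nat_lit 75) (nat_lit 2) (nat_lit 0x984411800000985401a0000086b421a))) (Tree.tip (nat_lit 2439) (Node.mv (nat_lit 0x2000003800000000003c000000) (nat_lit 0xd0000040000000000002000077) (nat_lit 102) (nat_lit 1) (nat_lit 0x11f401800000015431b)))))) (Tree.br (nat_lit 2444) (Tree.br (nat_lit 2442) (Tree.br (nat_lit 2441) (Tree.tip (nat_lit 2440) (Node.mv (nat_lit 0x2000003800000000003c000000) (nat_lit 0xd0000040000007000002000007)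 (nat_lit 102) (nat_lit 1) (nat_lit 0xdb401800000015431b))) (Tree.tip (nat_lit 2441) (Node.mv (nat_lit 0x2000003800000000003c000000) (nat_lit 0xd0000040000007000002000070) (nat_lit 102) (nat_lit 1) (nat_lit 0x52f401800000015431b)))) (Tree.br (nat_lit 2443) (Tree.tip (nat_lit 2442) (Node.mv (nat_lit 0x20000038000000000038000000) (nat_lit 0xd00000400000070000460000ff) (nat_lit 26) (nat_lit 2) (nat_lit 0x9894018000009884018000000534019))) (Tree.tip (nat_lit 2443) (Node.mv (nat_lit 0x1000001c00000000001e000000) (nat_lit 0xec000020000007000000000003) (nat_lit 101) (nat_lit 2) (nat_lit 0x1b4431a000007da401800000015431a))))) (Tree.br (nat_lit 2446) (Tree.br (nat_lit 2445) (Tree.tip (nat_lit 2444) (Node.img (nat_lit 0x3c000000) (nat_lit 0x7000002000067) (nat_lit 151) (nat_lit 4) (nat_lit 128) (nat_lit 128))) (Tree.tip (nat_lit 2445) (Node.mv (nat_lit 0x20000038000000000038000000) (nat_lit 0x1d800004000000f000006000077) (nat_lit 26) (nat_lit 3) (nat_lit 0x98940180000098740180000098b40190000098c4018)))) (Tree.br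 (nat_lit 2447) (Tree.tip (nat_lit 2446) (Node.img (nat_lit 0x400000000001e000000000000000000) (nat_lit 0x4000000000004000000000007000002000002) (nat_lit 321) (nat_lit 5) (nat_lit 128) (nat_lit 134))) (Tree.tip (nat_lit 2447) (Node.img (nat_lit 0x400000000001e000000000000000000) (nat_lit 0x400000000000400000100003c000008000008) (nat_lit 430) (nat_lit 5) (nat_lit 128) (nat_lit 134))))))) (Tree.br (nat_lit 2456) (Tree.br (nat_lit 2452) (Tree.br (nat_lit 2450) (Tree.br (nat_lit 2449) (Tree.tip (nat_lit 2448) (Node.mv (nat_lit 0x20000038000000000038000000000000000000) (nat_lit 0xd80000400000080000460000ff000014000014) (nat_lit 74) (nat_lit 3) (nat_lit 0x98742180000098f40190000098e4019000000534219))) (Tree.tip (nat_lit 2449) (Node.img (nat_lit 0x1c00000000001e) (nat_lit 0x20000007000020) (nat_lit 1493) (nat_lit 2) (nat_lit 128) (nat_lit 130)))) (Tree.br (nat_lit 2451) (Tree.tip (nat_lit 2450) (Node.mv (nat_lit 0x1c00000000001e000000) (nat_lit 0x20000007000020000030) (nat_lit 4) (nat_lit 1) (nat_lit 0x9914118000000284019)))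 (Tree.tip (nat_lit 2451) (Node.img (nat_lit 0x3000001000003000000) (nat_lit 0x2000003000000000000000000000003) (nat_lit 202) (nat_lit 5) (nat_lit 128) (nat_lit 133))))) (Tree.br (nat_lit 2454) (Tree.br (nat_lit 2453) (Tree.tip (nat_lit 2452) (Node.mv (nat_lit 0xc00000000001e000000) (nat_lit 0x800000c00000000000700002000000c) (nat_lit 50) (nat_lit 1) (nat_lit 0x993401a000000c74118))) (Tree.tip (nat_lit 2453) (Node.mv (nat_lit 0x1000001c00000000001e000000) (nat_lit 0xe8000002000000000001000038) (nat_lit 3) (nat_lit 1) (nat_lit 0x6c943190000005f4018)))) (Tree.br (nat_lit 2455) (Tree.tip (nat_lit 2454) (Node.mv (nat_lit 0x400000000001e000000000000) (nat_lit 0x400000000000400002100003f000008) (nat_lit 27) (nat_lit 1) (nat_lit 0x6da40180000005f4118))) (Tree.tip (nat_lit 2455) (Node.mv (nat_lit 0x3800000000003c000000) (nat_lit 0x400000c000040000008000002000077) (nat_lit 51) (nat_lit 2) (nat_lit 0x11f4018000005cb401a0000025b4019)))))) (Tree.br (nat_lit 2460) (Tree.br (nat_lit 2458) (Tree.br (nat_lit 2457)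 (Tree.tip (nat_lit 2456) (Node.mv (nat_lit 0x800000e00000000000f000000) (nat_lit 0x70000011000000000000000018) (nat_lit 4) (nat_lit 1) (nat_lit 0x1a4318000000204018))) (Tree.tip (nat_lit 2457) (Node.mv (nat_lit 0x800000e00000000000f000000) (nat_lit 0x34000011000000000000000018) (nat_lit 4) (nat_lit 1) (nat_lit 0x174318000000204018)))) (Tree.br (nat_lit 2459) (Tree.tip (nat_lit 2458) (Node.mv (nat_lit 0x1000001c00000000001c000000) (nat_lit 0x68000022000000000022000077) (nat_lit 25) (nat_lit 1) (nat_lit 0x534018000000174319))) (Tree.tip (nat_lit 2459) (Node.mv (nat_lit 0x800000e000002000006000000000000000000) (nat_lit 0x34000011000000000000000006000004000004) (nat_lit 50) (nat_lit 1) (nat_lit 0x174518000003eb4019))))) (Tree.br (nat_lit 2462) (Tree.br (nat_lit 2461) (Tree.tip (nat_lit 2460) (Node.mv (nat_lit 0xe00000000000e000000) (nat_lit 0x400000400001000000700001000000a) (nat_lit 49) (nat_lit 1) (nat_lit 0x7c840190000086b4118))) (Tree.tip (nat_lit 2461) (Node.mv (nat_lit 0xc00000000001e000000) (nat_lit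 0x800000000000f000020000034) (nat_lit 50) (nat_lit 1) (nat_lit 0x7c74019000000c74118)))) (Tree.br (nat_lit 2463) (Tree.tip (nat_lit 2462) (Node.mv (nat_lit 0x18000000000038000000) (nat_lit 0x1800000000001f00004600006f) (nat_lit 26) (nat_lit 2) (nat_lit 0x99d4019000007d94019000000db4018))) (Tree.tip (nat_lit 2463) (Node.mv (nat_lit 0x1000001c00000000001e000000) (nat_lit 0x27000002000004000000000007) (nat_lit 50) (nat_lit 1) (nat_lit 0x57840180000025b4018)))))))) (Tree.br (nat_lit 2480) (Tree.br (nat_lit 2472) (Tree.br (nat_lit 2468) (Tree.br (nat_lit 2466) (Tree.br (nat_lit 2465) (Tree.tip (nat_lit 2464) (Node.mv (nat_lit 0x1000001c00000000001e000000) (nat_lit 0x23000002000007000020000004) (nat_lit 50) (nat_lit 1) (nat_lit 0x5784018000000c74118))) (Tree.tip (nat_lit 2465) (Node.mv (nat_lit 0x400000e000000000006000000) (nat_lit 0x2000003000030000004000000000002) (nat_lit 97) (nat_lit 1) (nat_lit 0x264318000007954019)))) (Tree.br (nat_lit 2467) (Tree.tip (nat_lit 2466) (Node.mv (nat_lit 0x1000000e00000000001c000000)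 (nat_lit 0x8000001000008000000000014) (nat_lit 99) (nat_lit 1) (nat_lit 0x73b401a000000164318))) (Tree.tip (nat_lit 2467) (Node.mv (nat_lit 0x2000003800000000003c000000) (nat_lit 0x16000006000017000002000028) (nat_lit 74) (nat_lit 2) (nat_lit 0x7384019000009a240190000057c4118))))) (Tree.br (nat_lit 2470) (Tree.br (nat_lit 2469) (Tree.tip (nat_lit 2468) (Node.mv (nat_lit 0x20000038000000000038000000) (nat_lit 0x160000060000170000460000ef) (nat_lit 26) (nat_lit 2) (nat_lit 0x9a34018000000db4018000000534019))) (Tree.tip (nat_lit 2469) (Node.mv (nat_lit 0x1000000e00000000000c000000) (nat_lit 0x800000100000c000000000004) (nat_lit 99) (nat_lit 1) (nat_lit 0x582401a000000164318)))) (Tree.br (nat_lit 2471) (Tree.tip (nat_lit 2470) (Node.mv (nat_lit 0x800001c00000400001c000000) (nat_lit 0x6000007000000000008000000000010) (nat_lit 98) (nat_lit 1) (nat_lit 0x297411800000590401a))) (Tree.tip (nat_lit 2471) (Node.mv (nat_lit 0x1c00000400001c000000) (nat_lit 0x800000e00000f000000000008000000000010) (nat_lit 99)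 (nat_lit 2) (nat_lit 0x9a6401800000591401a0000045e411a)))))) (Tree.br (nat_lit 2476) (Tree.br (nat_lit 2474) (Tree.br (nat_lit 2473) (Tree.tip (nat_lit 2472) (Node.mv (nat_lit 0x1000000e000004000018000000) (nat_lit 0x8000008000001000008000004000014) (nat_lit 99) (nat_lit 1) (nat_lit 0x91f401a000000164318))) (Tree.tip (nat_lit 2473) (Node.mv (nat_lit 0x800001e00000000001a000000) (nat_lit 0x400000400000000000b000000000012) (nat_lit 98) (nat_lit 1) (nat_lit 0x2c64018000002fb401a)))) (Tree.br (nat_lit 2475) (Tree.tip (nat_lit 2474) (Node.mv (nat_lit 0x1000001e00000000001a000000) (nat_lit 0x400000c00000100000b000000000012) (nat_lit 99) (nat_lit 1) (nat_lit 0x9a94018000000164318))) (Tree.tip (nat_lit 2475) (Node.img (nat_lit 0xc00001c000000000004) (nat_lit 0xa000003000000000004000000) (nat_lit 1162) (nat_lit 3) (nat_lit 132) (nat_lit 132))))) (Tree.br (nat_lit 2478) (Tree.br (nat_lit 2477) (Tree.tip (nat_lit 2476) (Node.mv (nat_lit 0xc00001c000000000018000000) (nat_lit 0xa00000300000000000c000004000014)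 (nat_lit 26) (nat_lit 2) (nat_lit 0x73b401a000009ab411800000582401a))) (Tree.tip (nat_lit 2477) (Node.mv (nat_lit 0x1800001c000000000018000000) (nat_lit 0xf00006700000000000c000004000014) (nat_lit 98) (nat_lit 2) (nat_lit 0x9ac4018000003af4318000002fb401a)))) (Tree.br (nat_lit 2479) (Tree.tip (nat_lit 2478) (Node.mv (nat_lit 0x1800001c000004000018000000) (nat_lit 0x6000002000000b000000000010) (nat_lit 101) (nat_lit 1) (nat_lit 0x7c4401800000018431a))) (Tree.tip (nat_lit 2479) (Node.mv (nat_lit 0x1800001c000000000018000000) (nat_lit 0x800006000002000000f000024000014) (nat_lit 50) (nat_lit 2) (nat_lit 0x9ae401800000976401900000592401a))))))) (Tree.br (nat_lit 2488) (Tree.br (nat_lit 2484) (Tree.br (nat_lit 2482) (Tree.br (nat_lit 2481) (Tree.tip (nat_lit 2480) (Node.mv (nat_lit 0xc00000e000002) (nat_lit 0x33000030000001) (nat_lit 52) (nat_lit 1) (nat_lit 0x6154018000000184119))) (Tree.tip (nat_lit 2481) (Node.mv (nat_lit 0xc00000e00000000000c000000) (nat_lit 0x4000004000033000030000003000012000002)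 (nat_lit 49) (nat_lit 2) (nat_lit 0x9b04218000005974019000009764018)))) (Tree.br (nat_lit 2483) (Tree.tip (nat_lit 2482) (Node.mv (nat_lit 0x1000001c000000000018000000) (nat_lit 0x800000f00006f00006000000f000024000014) (nat_lit 99) (nat_lit 3) (nat_lit 0x9ad4018000009b14019000009af4018000008dd4019))) (Tree.tip (nat_lit 2483) (Node.mv (nat_lit 0x400000e00000200000c000000) (nat_lit 0x2000003000030000004000000000008) (nat_lit 97) (nat_lit 1) (nat_lit 0x5904019000000264318))))) (Tree.br (nat_lit 2486) (Tree.br (nat_lit 2485) (Tree.tip (nat_lit 2484) (Node.mv (nat_lit 0x400000e00000000000c000000) (nat_lit 0x400000600000300003000000600000200000a) (nat_lit 49) (nat_lit 2) (nat_lit 0x5924019000009b340180000040d4019))) (Tree.tip (nat_lit 2485) (Node.mv (nat_lit 0x1000001c000000000018000000) (nat_lit 0x800000c00002e00006300000c000004000014) (nat_lit 99) (nat_lit 1) (nat_lit 0x9b44019000000894318)))) (Tree.br (nat_lit 2487) (Tree.tip (nat_lit 2486) (Node.img (nat_lit 0x400000f000000000004000000) (nat_lit 0x1800000000001800000800000c)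 (nat_lit 1159) (nat_lit 2) (nat_lit 128) (nat_lit 132))) (Tree.tip (nat_lit 2487) (Node.mv (nat_lit 0x800001e000000000008000000) (nat_lit 0x30000000000033000010000018) (nat_lit 49) (nat_lit 1) (nat_lit 0x9b64019000000674218)))))) (Tree.br (nat_lit 2492) (Tree.br (nat_lit 2490) (Tree.br (nat_lit 2489) (Tree.tip (nat_lit 2488) (Node.mv (nat_lit 0x1000003c000000) (nat_lit 0x1cb0000c20000e7) (nat_lit 49) (nat_lit 1) (nat_lit 0x335401a0000032c4018))) (Tree.tip (nat_lit 2489) (Node.mv (nat_lit 0x1000001c000000) (nat_lit 0x1cf0000e20000e7) (nat_lit 29) (nat_lit 3) (nat_lit 0x9b84018000003b44019000003364019000000db4018)))) (Tree.br (nat_lit 2491) (Tree.tip (nat_lit 2490) (Node.mv (nat_lit 0x800000e000000) (nat_lit 0x36000071000073) (nat_lit 28) (nat_lit 1) (nat_lit 0x3b44018000000524118))) (Tree.tip (nat_lit 2491) (Node.mv (nat_lit 0x800001e000000000004000000) (nat_lit 0xe30000600000e6000000000004) (nat_lit 96) (nat_lit 1) (nat_lit 0x2c74019000002404318))))) (Tree.br (nat_lit 2494) (Tree.br (nat_lit 2493)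 (Tree.tip (nat_lit 2492) (Node.mv (nat_lit 0x1000001c000000000008000000) (nat_lit 0x1e70000e20001cc000000000008) (nat_lit 77) (nat_lit 2) (nat_lit 0x6a04318000009bb4019000000524319))) (Tree.tip (nat_lit 2493) (Node.mv (nat_lit 0x1e000000) (nat_lit 0xe30000600000e7) (nat_lit 48) (nat_lit 1) (nat_lit 0x6e94018000002404118)))) (Tree.br (nat_lit 2495) (Tree.tip (nat_lit 2494) (Node.mv (nat_lit 0x1e000004000018000000000000) (nat_lit 0x2000000000003000024000004000004) (nat_lit 73) (nat_lit 1) (nat_lit 0x5984019000000674318))) (Tree.tip (nat_lit 2495) (Node.mv (nat_lit 0x1c000018000030) (nat_lit 0x3000007000000) (nat_lit 25) (nat_lit 1) (nat_lit 0x3d441180000002d4019))))))))) (Tree.br (nat_lit 2528) (Tree.br (nat_lit 2512) (Tree.br (nat_lit 2504) (Tree.br (nat_lit 2500) (Tree.br (nat_lit 2498) (Tree.br (nat_lit 2497) (Tree.tip (nat_lit 2496) (Node.mv (nat_lit 0x600000600000e000000000000) (nat_lit 0x10000003000003) (nat_lit 25) (nat_lit 1) (nat_lit 0x2a14018000000414019))) (Tree.tip (nat_lit 2497) (Node.img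 (nat_lit 0x1c00000c000018) (nat_lit 0x20000003000000) (nat_lit 232) (nat_lit 1) (nat_lit 133) (nat_lit 128)))) (Tree.br (nat_lit 2499) (Tree.tip (nat_lit 2498) (Node.mv (nat_lit 0x1c000008000018) (nat_lit 0x4000006000060000007000064) (nat_lit 26) (nat_lit 2) (nat_lit 0x1e84018000006ab4019000009c14018))) (Tree.tip (nat_lit 2499) (Node.mv (nat_lit 0x1000001c000000000018000000) (nat_lit 0x400000600006000000f000064000008) (nat_lit 51) (nat_lit 1) (nat_lit 0x9c2411800000041401b))))) (Tree.br (nat_lit 2502) (Tree.br (nat_lit 2501) (Tree.tip (nat_lit 2500) (Node.img (nat_lit 0x800000e000006) (nat_lit 0x30000031000000) (nat_lit 826) (nat_lit 5) (nat_lit 128) (nat_lit 130))) (Tree.tip (nat_lit 2501) (Node.mv (nat_lit 0x800000e000006000004) (nat_lit 0x2000032000031000000000000) (nat_lit 73) (nat_lit 1) (nat_lit 0x9c441180000000b4019)))) (Tree.br (nat_lit 2503) (Tree.tip (nat_lit 2502) (Node.img (nat_lit 0x400000c000018) (nat_lit 0x4000004000000000003000064) (nat_lit 1431) (nat_lit 6) (nat_lit 134) (nat_lit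 128))) (Tree.tip (nat_lit 2503) (Node.mv (nat_lit 0x1000001c000008000018) (nat_lit 0x4000064000062000007000064) (nat_lit 26) (nat_lit 2) (nat_lit 0x9c64018000009c54019000009c14018)))))) (Tree.br (nat_lit 2508) (Tree.br (nat_lit 2506) (Tree.br (nat_lit 2505) (Tree.tip (nat_lit 2504) (Node.mv (nat_lit 0x2000007000002000004000000) (nat_lit 0x5000000000000000002000006) (nat_lit 25) (nat_lit 1) (nat_lit 0x334018000000394019))) (Tree.tip (nat_lit 2505) (Node.img (nat_lit 0x400000400001c000000) (nat_lit 0x400000400000000000300000200000a) (nat_lit 542) (nat_lit 5) (nat_lit 128) (nat_lit 133)))) (Tree.br (nat_lit 2507) (Tree.tip (nat_lit 2506) (Node.mv (nat_lit 0x1c00000000001c000000) (nat_lit 0x600000600002000000700002200000a) (nat_lit 50) (nat_lit 2) (nat_lit 0x5cb4019000009c940180000086b4119))) (Tree.tip (nat_lit 2507) (Node.mv (nat_lit 0x1c00000400001c000004000000) (nat_lit 0x20000003000002000003000002) (nat_lit 49) (nat_lit 1) (nat_lit 0x7b042180000034e4018))))) (Tree.br (nat_lit 2510) (Tree.br (nat_lit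 2509) (Tree.tip (nat_lit 2508) (Node.mv (nat_lit 0x1c00000400001c000000000000) (nat_lit 0x8000020000003000002000007000002) (nat_lit 26) (nat_lit 1) (nat_lit 0x9cb401800000031411a))) (Tree.tip (nat_lit 2509) (Node.mv (nat_lit 0x1c00000000001c000000000000) (nat_lit 0x8000020000007000022000007000002) (nat_lit 74) (nat_lit 2) (nat_lit 0x9cc40180000098540190000086b4219)))) (Tree.br (nat_lit 2511) (Tree.tip (nat_lit 2510) (Node.mv (nat_lit 0x3800000000003c000000) (nat_lit 0x1f000040000007000002000007) (nat_lit 99) (nat_lit 1) (nat_lit 0xdb4018000001064318))) (Tree.tip (nat_lit 2511) (Node.mv (nat_lit 0x3800000000003c000000) (nat_lit 0x1f000040000007000002000070) (nat_lit 99) (nat_lit 1) (nat_lit 0x52f4018000001064318))))))) (Tree.br (nat_lit 2520) (Tree.br (nat_lit 2516) (Tree.br (nat_lit 2514) (Tree.br (nat_lit 2513) (Tree.tip (nat_lit 2512) (Node.mv (nat_lit 0x38000000000038000000) (nat_lit 0x1f0000400000070000460000ff) (nat_lit 26) (nat_lit 2) (nat_lit 0x9cf4018000009ce4018000000534019))) (Tree.tip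 (nat_lit 2513) (Node.img (nat_lit 0x400000400000400001e) (nat_lit 0x4000000000000000003000000) (nat_lit 302) (nat_lit 3) (nat_lit 132) (nat_lit 132)))) (Tree.br (nat_lit 2515) (Tree.tip (nat_lit 2514) (Node.mv (nat_lit 0x400000c00000000001e000000) (nat_lit 0xc000008000000000007000000000004) (nat_lit 50) (nat_lit 1) (nat_lit 0x9d1411800000099401a))) (Tree.tip (nat_lit 2515) (Node.mv (nat_lit 0x1800000000003c000000) (nat_lit 0x1800001800000000000f000002000078) (nat_lit 99) (nat_lit 2) (nat_lit 0x9d240190000052f4018000007d2401b))))) (Tree.br (nat_lit 2518) (Tree.br (nat_lit 2517) (Tree.tip (nat_lit 2516) (Node.img (nat_lit 0x3c000000) (nat_lit 0x7000002000076) (nat_lit 145) (nat_lit 7) (nat_lit 134) (nat_lit 130))) (Tree.tip (nat_lit 2517) (Node.mv (nat_lit 0x18000000000038000000000000000000) (nat_lit 0x1800001800000000000f00000600007e000004000004) (nat_lit 74) (nat_lit 2) (nat_lit 0x9d34218000009d442180000098e4019)))) (Tree.br (nat_lit 2519) (Tree.tip (nat_lit 2518) (Node.img (nat_lit 0x38000000000018000000)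 (nat_lit 0x1400001f000040000008000000000018) (nat_lit 1371) (nat_lit 5) (nat_lit 128) (nat_lit 133))) (Tree.tip (nat_lit 2519) (Node.mv (nat_lit 0x38000000000038000000) (nat_lit 0x1400001f0000400000080000460000ff) (nat_lit 26) (nat_lit 2) (nat_lit 0x9974018000009d64018000000534019)))))) (Tree.br (nat_lit 2524) (Tree.br (nat_lit 2522) (Tree.br (nat_lit 2521) (Tree.tip (nat_lit 2520) (Node.mv (nat_lit 0x38000000000030000000000000000000) (nat_lit 0x1c00001f00004000000f00004e0000ff000014000004) (nat_lit 75) (nat_lit 5) (nat_lit 0x9d74218000009d04218000009ca4219000009cd4119000009d5401800000978411a))) (Tree.tip (nat_lit 2521) (Node.mv (nat_lit 0x1000001c00000000001c) (nat_lit 0xe8000022000007000022) (nat_lit 1) (nat_lit 2) (nat_lit 0x6c94219000009914018000000174219)))) (Tree.br (nat_lit 2523) (Tree.tip (nat_lit 2522) (Node.mv (nat_lit 0x800000e00000000000e000000) (nat_lit 0x34000011000003000010000002) (nat_lit 49) (nat_lit 1) (nat_lit 0x58940180000086b4118))) (Tree.tip (nat_lit 2523) (Node.mv (nat_lit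 0xe00000000000e000000000000) (nat_lit 0x5000007000010000002000010000007000001) (nat_lit 73) (nat_lit 2) (nat_lit 0x9854018000005cb4118000009934119))))) (Tree.br (nat_lit 2526) (Tree.br (nat_lit 2525) (Tree.tip (nat_lit 2524) (Node.mv (nat_lit 0x20000038000000000038000000) (nat_lit 0xd0000044000007000006000007) (nat_lit 26) (nat_lit 1) (nat_lit 0xdb401800000017431a))) (Tree.tip (nat_lit 2525) (Node.mv (nat_lit 0x1c00000000001e000000) (nat_lit 0x2000007000022000007000020000004) (nat_lit 50) (nat_lit 1) (nat_lit 0x1eb4018000000c74118)))) (Tree.br (nat_lit 2527) (Tree.tip (nat_lit 2526) (Node.mv (nat_lit 0x3800000000003c000000) (nat_lit 0xf000044000008000000000006) (nat_lit 99) (nat_lit 1) (nat_lit 0x14643180000024b4019))) (Tree.tip (nat_lit 2527) (Node.mv (nat_lit 0x200000600000000000f000000) (nat_lit 0x400000400000000000600000000001a) (nat_lit 98) (nat_lit 2) (nat_lit 0x5da4019000007274018000005824019)))))))) (Tree.br (nat_lit 2544) (Tree.br (nat_lit 2536) (Tree.br (nat_lit 2532) (Tree.br (nat_lit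 2530) (Tree.br (nat_lit 2529) (Tree.tip (nat_lit 2528) (Node.mv (nat_lit 0x3800000000003c000000) (nat_lit 0x1000001f000044000018000000000068) (nat_lit 99) (nat_lit 1) (nat_lit 0x9df401a000001464318))) (Tree.tip (nat_lit 2529) (Node.mv (nat_lit 0x38000000000038000000) (nat_lit 0x1000001f0000440000180000440000ee) (nat_lit 26) (nat_lit 2) (nat_lit 0x9e04018000009de4018000000534019)))) (Tree.br (nat_lit 2531) (Tree.tip (nat_lit 2530) (Node.mv (nat_lit 0x1c00000000001c000000) (nat_lit 0xa00000f000022000006000020000004) (nat_lit 50) (nat_lit 1) (nat_lit 0x44840180000086b4119))) (Tree.tip (nat_lit 2531) (Node.mv (nat_lit 0x1000003000001000007000000) (nat_lit 0x3000002000000000002000000000004) (nat_lit 97) (nat_lit 1) (nat_lit 0x5904018000000314118))))) (Tree.br (nat_lit 2534) (Tree.br (nat_lit 2533) (Tree.tip (nat_lit 2532) (Node.mv (nat_lit 0x38000008000038000000) (nat_lit 0x1c00001f000004000010000000000020) (nat_lit 99) (nat_lit 1) (nat_lit 0x9e3401b0000039c4118))) (Tree.tip (nat_lit 2533) (Node.mv (nat_lit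 0x38000000000038000000) (nat_lit 0x1c00001f00004400001c000040000020) (nat_lit 51) (nat_lit 1) (nat_lit 0x9e440180000086b411a)))) (Tree.br (nat_lit 2535) (Tree.tip (nat_lit 2534) (Node.mv (nat_lit 0xc00000400001c000000) (nat_lit 0xc00000c000000000003000002000006) (nat_lit 98) (nat_lit 1) (nat_lit 0x16c401800000099401a))) (Tree.tip (nat_lit 2535) (Node.mv (nat_lit 0xe00000200000e000000000000) (nat_lit 0x1000003000010000000000011000003000001) (nat_lit 121) (nat_lit 1) (nat_lit 0x11540180000039f4218)))))) (Tree.br (nat_lit 2540) (Tree.br (nat_lit 2538) (Tree.br (nat_lit 2537) (Tree.tip (nat_lit 2536) (Node.img (nat_lit 0x38000008000038) (nat_lit 0x4000007000040) (nat_lit 1344) (nat_lit 7) (nat_lit 134) (nat_lit 130))) (Tree.tip (nat_lit 2537) (Node.mv (nat_lit 0x38000008000038000000000000) (nat_lit 0x800000800000400000700004400000c000004) (nat_lit 123) (nat_lit 2) (nat_lit 0x4b04118000009e8421800000115401a)))) (Tree.br (nat_lit 2539) (Tree.tip (nat_lit 2538) (Node.mv (nat_lit 0x800000e00000200000e000000000000)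 (nat_lit 0x34000011000000000010000003000001) (nat_lit 24) (nat_lit 1) (nat_lit 0x174418000001144018))) (Tree.tip (nat_lit 2539) (Node.img (nat_lit 0x800000e000002) (nat_lit 0x30000011000001) (nat_lit 708) (nat_lit 4) (nat_lit 128) (nat_lit 128))))) (Tree.br (nat_lit 2542) (Tree.br (nat_lit 2541) (Tree.tip (nat_lit 2540) (Node.mv (nat_lit 0x800000e000002000002000000000000) (nat_lit 0x34000011000001000000000003000001) (nat_lit 24) (nat_lit 1) (nat_lit 0x9eb4318000006cb4018))) (Tree.tip (nat_lit 2541) (Node.mv (nat_lit 0x800000e00000200000e000000000000) (nat_lit 0x74000001000000000010000003000001) (nat_lit 24) (nat_lit 1) (nat_lit 0x6c94418000001144018)))) (Tree.br (nat_lit 2543) (Tree.tip (nat_lit 2542) (Node.mv (nat_lit 0x800000e00000000000e000000000000) (nat_lit 0x74000011000003000010000003000001) (nat_lit 73) (nat_lit 2) (nat_lit 0x9ec4018000009ed40180000086b4218))) (Tree.tip (nat_lit 2543) (Node.mv (nat_lit 0x1000001c00000400001c000000) (nat_lit 0x6c000022000000000002000003) (nat_lit 1) (nat_lit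 1) (nat_lit 0x174319000005214018))))))) (Tree.br (nat_lit 2552) (Tree.br (nat_lit 2548) (Tree.br (nat_lit 2546) (Tree.br (nat_lit 2545) (Tree.tip (nat_lit 2544) (Node.mv (nat_lit 0x1000001c00000000001c000000000000) (nat_lit 0xa00006e000022000004000022000007000002) (nat_lit 74) (nat_lit 3) (nat_lit 0x9ef4118000009ea40190000069b4018000004594119))) (Tree.tip (nat_lit 2545) (Node.mv (nat_lit 0x800000e000002000002000001000000) (nat_lit 0x11000001000000000000000002000001) (nat_lit 25) (nat_lit 1) (nat_lit 0x3754118000000014018)))) (Tree.br (nat_lit 2547) (Tree.tip (nat_lit 2546) (Node.mv (nat_lit 0x20000038000008000038000000000000) (nat_lit 0x4400000400001700004000000c000004) (nat_lit 26) (nat_lit 2) (nat_lit 0x9f1401a00000106421800000114401a))) (Tree.tip (nat_lit 2547) (Node.mv (nat_lit 0x1000001c00000000001c000000) (nat_lit 0x28000003000008000000000014) (nat_lit 73) (nat_lit 1) (nat_lit 0x9a240180000002a4319))))) (Tree.br (nat_lit 2550) (Tree.br (nat_lit 2549) (Tree.tip (nat_lit 2548) (Node.mv (nat_lit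 0x1000001c00000000001c000000) (nat_lit 0x2c00000300000b000022000077) (nat_lit 25) (nat_lit 2) (nat_lit 0x7e64018000009f34018000000534018))) (Tree.tip (nat_lit 2549) (Node.mv (nat_lit 0x1000001c00000000001e000000) (nat_lit 0x28000003000008000000000030) (nat_lit 99) (nat_lit 1) (nat_lit 0x7274019000000894318)))) (Tree.br (nat_lit 2551) (Tree.tip (nat_lit 2550) (Node.mv (nat_lit 0x1000001c00000000001e000000) (nat_lit 0x28000003000008000000000033) (nat_lit 1) (nat_lit 1) (nat_lit 0x9f54018000000674018))) (Tree.tip (nat_lit 2551) (Node.mv (nat_lit 0x18000008000038000000000000) (nat_lit 0x1000000000001700004000000c000004) (nat_lit 26) (nat_lit 1) (nat_lit 0x1064218000006cb401a)))))) (Tree.br (nat_lit 2556) (Tree.br (nat_lit 2554) (Tree.br (nat_lit 2553) (Tree.tip (nat_lit 2552) (Node.mv (nat_lit 0x20000038000000000038000000000000) (nat_lit 0x5400000400001f00004000000c000004) (nat_lit 75) (nat_lit 2) (nat_lit 0x58d4219000009f740180000058b411a))) (Tree.tip (nat_lit 2553) (Node.mv (nat_lit 0x1000001c00000400001c000000)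 (nat_lit 0x8000028000003000008000000000010) (nat_lit 99) (nat_lit 1) (nat_lit 0x591401a000000894318)))) (Tree.br (nat_lit 2555) (Tree.tip (nat_lit 2554) (Node.mv (nat_lit 0x1000001c00000400001c000000) (nat_lit 0x800002c000003000008000002000013) (nat_lit 1) (nat_lit 1) (nat_lit 0x9f94018000005214018))) (Tree.tip (nat_lit 2555) (Node.mv (nat_lit 0x20000038000000000038000000) (nat_lit 0x1000005800000600001f000044000026) (nat_lit 51) (nat_lit 2) (nat_lit 0x5864018000009fa40190000058d4119))))) (Tree.br (nat_lit 2558) (Tree.br (nat_lit 2557) (Tree.tip (nat_lit 2556) (Node.img (nat_lit 0x400000200000e000000) (nat_lit 0x4000004000000000005000030000008) (nat_lit 529) (nat_lit 3) (nat_lit 133) (nat_lit 133))) (Tree.tip (nat_lit 2557) (Node.mv (nat_lit 0x1000001c00000000001c000000) (nat_lit 0x800002b00000200000e000060000014) (nat_lit 50) (nat_lit 2) (nat_lit 0x5784018000009fc40190000058b4019)))) (Tree.br (nat_lit 2559) (Tree.tip (nat_lit 2558) (Node.mv (nat_lit 0x600000200000e000000000000) (nat_lit 0x400000400000000000400001000000b000003)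 (nat_lit 74) (nat_lit 2) (nat_lit 0x9c04018000003984119000000374019))) (Tree.tip (nat_lit 2559) (Node.mv (nat_lit 0x1c00000400001c000000000000) (nat_lit 0x800002000000b000000000004000004) (nat_lit 75) (nat_lit 1) (nat_lit 0x9c1421800000037401a))))))))))
noncomputable def t0_20 : Tree := (Tree.br (nat_lit 2624) (Tree.br (nat_lit 2592) (Tree.br (nat_lit 2576) (Tree.br (nat_lit 2568) (Tree.br (nat_lit 2564) (Tree.br (nat_lit 2562) (Tree.br (nat_lit 2561) (Tree.tip (nat_lit 2560) (Node.mv (nat_lit 0x1c00000000001c000000000000) (nat_lit 0x800000800002000000f000020000016000006) (nat_lit 74) (nat_lit 2) (nat_lit 0x9ff4018000009fe40190000086b4219))) (Tree.tip (nat_lit 2561) (Node.mv (nat_lit 0x800000e00000200000e000000000000) (nat_lit 0x30000031000004000010000003000003) (nat_lit 74) (nat_lit 1) (nat_lit 0x9c04018000009c44318)))) (Tree.br (nat_lit 2563) (Tree.tip (nat_lit 2562) (Node.mv (nat_lit 0x1800001c000000000000000000) (nat_lit 0xf000067000060000006000004000004) (nat_lit 98) (nat_lit 2) (nat_lit 0x3964019000003af4318000000264319)))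 (Tree.tip (nat_lit 2563) (Node.mv (nat_lit 0x8000008000008000008000000) (nat_lit 0x14000034000017000000000000000008) (nat_lit 74) (nat_lit 2) (nat_lit 0x1f64118000001d440180000000f401a))))) (Tree.br (nat_lit 2566) (Tree.br (nat_lit 2565) (Tree.tip (nat_lit 2564) (Node.mv (nat_lit 0x38000010000018000000) (nat_lit 0x800000800004000002e000007000004) (nat_lit 51) (nat_lit 1) (nat_lit 0x4fc4018000000234219))) (Tree.tip (nat_lit 2565) (Node.img (nat_lit 0xc000004000006000004000000) (nat_lit 0x2000003000038000000000000000004) (nat_lit 893) (nat_lit 6) (nat_lit 133) (nat_lit 128)))) (Tree.br (nat_lit 2567) (Tree.tip (nat_lit 2566) (Node.mv (nat_lit 0xc000004000006000000000000) (nat_lit 0xa000003000038000000000004000004) (nat_lit 26) (nat_lit 1) (nat_lit 0xa05401800000031411a))) (Tree.tip (nat_lit 2567) (Node.mv (nat_lit 0x1800000800000c000000000000) (nat_lit 0x10000000000074000003000008000008) (nat_lit 27) (nat_lit 1) (nat_lit 0x5ef401800000031411b)))))) (Tree.br (nat_lit 2572) (Tree.br (nat_lit 2570) (Tree.br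 (nat_lit 2569) (Tree.tip (nat_lit 2568) (Node.mv (nat_lit 0x800001800000800000c000000000000) (nat_lit 0x8000004000024000007000000000008000008) (nat_lit 74) (nat_lit 1) (nat_lit 0x609401800000044421a))) (Tree.tip (nat_lit 2569) (Node.mv (nat_lit 0x800001800000800000c) (nat_lit 0x8000000000020000037000003) (nat_lit 26) (nat_lit 1) (nat_lit 0x265401800000044401a)))) (Tree.br (nat_lit 2571) (Tree.tip (nat_lit 2570) (Node.img (nat_lit 0x2000002000002000002000000) (nat_lit 0x5000007000005000000000000000004000004) (nat_lit 151) (nat_lit 3) (nat_lit 130) (nat_lit 134))) (Tree.tip (nat_lit 2571) (Node.mv (nat_lit 0x2000002000003000000) (nat_lit 0x5000007000007000000000000000004000005) (nat_lit 97) (nat_lit 1) (nat_lit 0xa0a4018000000014018))))) (Tree.br (nat_lit 2574) (Tree.br (nat_lit 2573) (Tree.tip (nat_lit 2572) (Node.img (nat_lit 0x800000800000c000008000000) (nat_lit 0x3000074000010) (nat_lit 565) (nat_lit 4) (nat_lit 128) (nat_lit 128))) (Tree.tip (nat_lit 2573) (Node.img (nat_lit 0x800000800000c000008000000)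 (nat_lit 0x14000034000007000030000000000008) (nat_lit 1287) (nat_lit 6) (nat_lit 133) (nat_lit 128)))) (Tree.br (nat_lit 2575) (Tree.tip (nat_lit 2574) (Node.mv (nat_lit 0x800000800000c000000000000) (nat_lit 0x1400003400000700003300007c000018) (nat_lit 27) (nat_lit 1) (nat_lit 0xa0d401800000a0c4018))) (Tree.tip (nat_lit 2575) (Node.mv (nat_lit 0x800000800000c000008000000) (nat_lit 0x4000004000000000013000070000010) (nat_lit 98) (nat_lit 1) (nat_lit 0xb440180000000e411a))))))) (Tree.br (nat_lit 2584) (Tree.br (nat_lit 2580) (Tree.br (nat_lit 2578) (Tree.br (nat_lit 2577) (Tree.tip (nat_lit 2576) (Node.img (nat_lit 0x2000003000002000002000000000000000000) (nat_lit 0x1000004000007000007000001) (nat_lit 417) (nat_lit 7) (nat_lit 130) (nat_lit 134))) (Tree.tip (nat_lit 2577) (Node.mv (nat_lit 0x6000003000002000000000000000000000000) (nat_lit 0x4000000000000000001000006000007000007000001) (nat_lit 73) (nat_lit 1) (nat_lit 0xa104018000000314319)))) (Tree.br (nat_lit 2579) (Tree.tip (nat_lit 2578) (Node.img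 (nat_lit 0x38000018) (nat_lit 0x70000c70000e0) (nat_lit 414) (nat_lit 4) (nat_lit 128) (nat_lit 128))) (Tree.tip (nat_lit 2579) (Node.mv (nat_lit 0x30000018000010000000000000) (nat_lit 0xf0000cf0000e0000000000010000010) (nat_lit 99) (nat_lit 1) (nat_lit 0xa1243180000002e401b))))) (Tree.br (nat_lit 2582) (Tree.br (nat_lit 2581) (Tree.tip (nat_lit 2580) (Node.mv (nat_lit 0x1800001c000000000000000000) (nat_lit 0x1000000000002300007f000008000008) (nat_lit 73) (nat_lit 1) (nat_lit 0x5db4018000000164318))) (Tree.tip (nat_lit 2581) (Node.mv (nat_lit 0x1800001c000000) (nat_lit 0x10000010000006000063000067) (nat_lit 29) (nat_lit 1) (nat_lit 0x5c64018000000c74119)))) (Tree.br (nat_lit 2583) (Tree.tip (nat_lit 2582) (Node.mv (nat_lit 0x1800003c000000000000) (nat_lit 0xc30000e7000008) (nat_lit 3) (nat_lit 1) (nat_lit 0x69e411a0000033d4118))) (Tree.tip (nat_lit 2583) (Node.mv (nat_lit 0x6000007000000000000000000) (nat_lit 0x600000600000600000000000000001e00000e00000c) (nat_lit 122) (nat_lit 2) (nat_lit 0x53740180000019e4019000000374119))))))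 (Tree.br (nat_lit 2588) (Tree.br (nat_lit 2586) (Tree.br (nat_lit 2585) (Tree.tip (nat_lit 2584) (Node.img (nat_lit 0x8000008000038000008000000) (nat_lit 0x4000004000017000000000000000008) (nat_lit 437) (nat_lit 1) (nat_lit 133) (nat_lit 128))) (Tree.tip (nat_lit 2585) (Node.mv (nat_lit 0x800000800001800000c000000) (nat_lit 0x4000004000017000060000000000008) (nat_lit 53) (nat_lit 1) (nat_lit 0xa18401800000018411a)))) (Tree.br (nat_lit 2587) (Tree.tip (nat_lit 2586) (Node.mv (nat_lit 0x800001800000c000000) (nat_lit 0x400000c00001700006000000000000c) (nat_lit 99) (nat_lit 1) (nat_lit 0xa19401800000001401a))) (Tree.tip (nat_lit 2587) (Node.mv (nat_lit 0x800001800000c000000000000) (nat_lit 0x1000001000000000000300007c000018) (nat_lit 27) (nat_lit 1) (nat_lit 0xa0c401800000099401b))))) (Tree.br (nat_lit 2590) (Tree.br (nat_lit 2589) (Tree.tip (nat_lit 2588) (Node.mv (nat_lit 0x2000002000006000003000000000000) (nat_lit 0x1000005000005000018000000000002000002) (nat_lit 75) (nat_lit 1) (nat_lit 0x2574018000000184218)))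 (Tree.tip (nat_lit 2589) (Node.mv (nat_lit 0x800001800000c000000000000) (nat_lit 0x10000010000000000013000078000018) (nat_lit 27) (nat_lit 1) (nat_lit 0xb4401800000099401b)))) (Tree.br (nat_lit 2591) (Tree.tip (nat_lit 2590) (Node.mv (nat_lit 0x800001800000c000008000000) (nat_lit 0x60000013000010000010) (nat_lit 28) (nat_lit 1) (nat_lit 0x183411800000039401b))) (Tree.tip (nat_lit 2591) (Node.mv (nat_lit 0x1800000800000c000000000000) (nat_lit 0x10000000000070000013000008000008) (nat_lit 27) (nat_lit 1) (nat_lit 0x610401800000031411b)))))))) (Tree.br (nat_lit 2608) (Tree.br (nat_lit 2600) (Tree.br (nat_lit 2596) (Tree.br (nat_lit 2594) (Tree.br (nat_lit 2593) (Tree.tip (nat_lit 2592) (Node.mv (nat_lit 0x800001800000800000c) (nat_lit 0x18000018000010000000000070000013) (nat_lit 28) (nat_lit 2) (nat_lit 0x39d401b0000001f401800000338401b))) (Tree.tip (nat_lit 2593) (Node.mv (nat_lit 0x1800000800000c000000) (nat_lit 0x18000018000018000000000070000013000004) (nat_lit 99) (nat_lit 1) (nat_lit 0xa20411800000001401a))))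 (Tree.br (nat_lit 2595) (Tree.tip (nat_lit 2594) (Node.mv (nat_lit 0x1800001800000c) (nat_lit 0x60000066000013) (nat_lit 53) (nat_lit 1) (nat_lit 0x1f4018000000234119))) (Tree.tip (nat_lit 2595) (Node.mv (nat_lit 0xe000014000004000000000000) (nat_lit 0x2000001000008000000000004000004) (nat_lit 75) (nat_lit 1) (nat_lit 0x4e4019000000274318))))) (Tree.br (nat_lit 2598) (Tree.br (nat_lit 2597) (Tree.tip (nat_lit 2596) (Node.img (nat_lit 0xe000014) (nat_lit 0x30000023) (nat_lit 104) (nat_lit 1) (nat_lit 133) (nat_lit 128))) (Tree.tip (nat_lit 2597) (Node.mv (nat_lit 0x1c00000800000c) (nat_lit 0x62000076000013) (nat_lit 29) (nat_lit 2) (nat_lit 0x484401800000a244119000000e74019)))) (Tree.br (nat_lit 2599) (Tree.tip (nat_lit 2598) (Node.img (nat_lit 0x2000002000007000003000000000000000000) (nat_lit 0x1000001000005000000000000000002000002000002) (nat_lit 997) (nat_lit 1) (nat_lit 130) (nat_lit 128))) (Tree.tip (nat_lit 2599) (Node.mv (nat_lit 0x400000400000c000006000000000000000000) (nat_lit 0x200000200000a00000300003800000c000004000004)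 (nat_lit 97) (nat_lit 1) (nat_lit 0xa264019000000ab4218)))))) (Tree.br (nat_lit 2604) (Tree.br (nat_lit 2602) (Tree.br (nat_lit 2601) (Tree.tip (nat_lit 2600) (Node.img (nat_lit 0x3000001000001000000000000000000) (nat_lit 0x2000000000002000000000003000003000002) (nat_lit 53) (nat_lit 1) (nat_lit 129) (nat_lit 128))) (Tree.tip (nat_lit 2601) (Node.mv (nat_lit 0x6000002000002000000000000000000) (nat_lit 0x74000038000075000000000006000006000004) (nat_lit 123) (nat_lit 1) (nat_lit 0x83441800000a284019)))) (Tree.br (nat_lit 2603) (Tree.tip (nat_lit 2602) (Node.mv (nat_lit 0xc00000a00000a000000) (nat_lit 0x400001300003100000000000a) (nat_lit 73) (nat_lit 1) (nat_lit 0x4974218000002d84019))) (Tree.tip (nat_lit 2603) (Node.mv (nat_lit 0x800000800000a000018000000) (nat_lit 0x8000000000000000011000007000004) (nat_lit 52) (nat_lit 1) (nat_lit 0x2e140180000000b411b))))) (Tree.br (nat_lit 2606) (Tree.br (nat_lit 2605) (Tree.tip (nat_lit 2604) (Node.mv (nat_lit 0x800000800000a000008000000) (nat_lit 0x8000000000000000011000017000014)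 (nat_lit 28) (nat_lit 1) (nat_lit 0xa2b401800000039401b))) (Tree.tip (nat_lit 2605) (Node.mv (nat_lit 0x800000a000008000000000000) (nat_lit 0x400000c00000c00000400001100001700001c000004) (nat_lit 123) (nat_lit 2) (nat_lit 0xa2c411800000012401a00000090411a)))) (Tree.br (nat_lit 2607) (Tree.tip (nat_lit 2606) (Node.mv (nat_lit 0x800000a000008000008000000) (nat_lit 0x4000004000005000074000000000008) (nat_lit 74) (nat_lit 1) (nat_lit 0x68e42180000000f401a))) (Tree.tip (nat_lit 2607) (Node.img (nat_lit 0xb000018) (nat_lit 0x4000000) (nat_lit 75) (nat_lit 2) (nat_lit 128) (nat_lit 129))))))) (Tree.br (nat_lit 2616) (Tree.br (nat_lit 2612) (Tree.br (nat_lit 2610) (Tree.br (nat_lit 2609) (Tree.tip (nat_lit 2608) (Node.mv (nat_lit 0x800000800000a000018) (nat_lit 0x1400001c000014000000000005000000) (nat_lit 24) (nat_lit 1) (nat_lit 0xd3401a00000a2f4018))) (Tree.tip (nat_lit 2609) (Node.img (nat_lit 0x800000a000018000008000000000000) (nat_lit 0x400000500000000000400000c000004) (nat_lit 1501) (nat_lit 4) (nat_lit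 128) (nat_lit 128)))) (Tree.br (nat_lit 2611) (Tree.tip (nat_lit 2610) (Node.mv (nat_lit 0x800000800000a000018000000000000000000) (nat_lit 0x1000001000001400000500000000000c00000c000004) (nat_lit 51) (nat_lit 1) (nat_lit 0xa314018000001ee421b))) (Tree.tip (nat_lit 2611) (Node.mv (nat_lit 0x800000800000a000008000000) (nat_lit 0x14000014000070000015000000000008) (nat_lit 98) (nat_lit 1) (nat_lit 0x1ae40180000000e411a))))) (Tree.br (nat_lit 2614) (Tree.br (nat_lit 2613) (Tree.tip (nat_lit 2612) (Node.img (nat_lit 0x1800000a) (nat_lit 0x64000005) (nat_lit 188) (nat_lit 3) (nat_lit 134) (nat_lit 129))) (Tree.tip (nat_lit 2613) (Node.mv (nat_lit 0x800001800000a000008) (nat_lit 0x10000010000064000005000000) (nat_lit 100) (nat_lit 1) (nat_lit 0xa3441180000001b401b)))) (Tree.br (nat_lit 2615) (Tree.tip (nat_lit 2614) (Node.mv (nat_lit 0x800001800000a000008000000) (nat_lit 0x400000c000004000000000015000010000010) (nat_lit 50) (nat_lit 1) (nat_lit 0x90401a000000164218))) (Tree.tip (nat_lit 2615) (Node.img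 (nat_lit 0x800000800000a000008000000) (nat_lit 0x1400001c000014000000000005000010000010) (nat_lit 1958) (nat_lit 7) (nat_lit 132) (nat_lit 134)))))) (Tree.br (nat_lit 2620) (Tree.br (nat_lit 2618) (Tree.br (nat_lit 2617) (Tree.tip (nat_lit 2616) (Node.mv (nat_lit 0x800000a000008000000) (nat_lit 0x1400001c00001c000070000015000010000018) (nat_lit 99) (nat_lit 3) (nat_lit 0xa3740180000009c401b00000a33401800000090401a))) (Tree.tip (nat_lit 2617) (Node.img (nat_lit 0x2000002000003000002000000000000) (nat_lit 0x4000005000005000000000000000002000002) (nat_lit 250) (nat_lit 6) (nat_lit 130) (nat_lit 128)))) (Tree.br (nat_lit 2619) (Tree.tip (nat_lit 2618) (Node.mv (nat_lit 0x800000800000a000018000000000000) (nat_lit 0x10000014000014000005000000000008000008) (nat_lit 74) (nat_lit 1) (nat_lit 0xa39401a000000274218))) (Tree.tip (nat_lit 2619) (Node.mv (nat_lit 0x800000800000a000008000000000000) (nat_lit 0x10000014000014000005000010000018000008) (nat_lit 52) (nat_lit 1) (nat_lit 0xa3a401800000039411b))))) (Tree.br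 (nat_lit 2622) (Tree.br (nat_lit 2621) (Tree.tip (nat_lit 2620) (Node.mv (nat_lit 0x400001800000a000008000000) (nat_lit 0x6000005000000000008) (nat_lit 74) (nat_lit 1) (nat_lit 0x4c421800000008401a))) (Tree.tip (nat_lit 2621) (Node.mv (nat_lit 0x6000004000004000004000000) (nat_lit 0x800000900003a000000000000000004) (nat_lit 75) (nat_lit 2) (nat_lit 0x2884018000000984118000000324019)))) (Tree.br (nat_lit 2623) (Tree.tip (nat_lit 2622) (Node.mv (nat_lit 0x800000e00000a000000000000) (nat_lit 0x10000030000010000001000008000008) (nat_lit 76) (nat_lit 1) (nat_lit 0x5584019000000674218))) (Tree.tip (nat_lit 2623) (Node.mv (nat_lit 0xc00000a00000a000000000000) (nat_lit 0x10000033000034000001000008000008) (nat_lit 74) (nat_lit 1) (nat_lit 0x2784019000006154218))))))))) (Tree.br (nat_lit 2656) (Tree.br (nat_lit 2640) (Tree.br (nat_lit 2632) (Tree.br (nat_lit 2628) (Tree.br (nat_lit 2626) (Tree.br (nat_lit 2625) (Tree.tip (nat_lit 2624) (Node.mv (nat_lit 0x18000014000010000000000000) (nat_lit 0x2000006000000b000020000010000010)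 (nat_lit 75) (nat_lit 1) (nat_lit 0x278401a000001394218))) (Tree.tip (nat_lit 2625) (Node.mv (nat_lit 0x10000010000014000010000000) (nat_lit 0x1800000800002800000b000008000018) (nat_lit 75) (nat_lit 1) (nat_lit 0x47640180000000f401b)))) (Tree.br (nat_lit 2627) (Tree.tip (nat_lit 2626) (Node.mv (nat_lit 0x20000030000028000020) (nat_lit 0x4000004000004c000017000000) (nat_lit 51) (nat_lit 1) (nat_lit 0x178411800000247401a))) (Tree.tip (nat_lit 2627) (Node.img (nat_lit 0x800000800000a000008000000) (nat_lit 0x5000034000014) (nat_lit 1409) (nat_lit 6) (nat_lit 133) (nat_lit 128))))) (Tree.br (nat_lit 2630) (Tree.br (nat_lit 2629) (Tree.tip (nat_lit 2628) (Node.mv (nat_lit 0x800000a000008000000) (nat_lit 0x1400001c00001c000000000005000034000014) (nat_lit 99) (nat_lit 1) (nat_lit 0xa434018000000d3411a))) (Tree.tip (nat_lit 2629) (Node.mv (nat_lit 0x400000e000000000000000000) (nat_lit 0x4000004000003000030000007000002000002) (nat_lit 76) (nat_lit 1) (nat_lit 0x3924018000000c74318)))) (Tree.br (nat_lit 2631)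 (Tree.tip (nat_lit 2630) (Node.mv (nat_lit 0x1000000000001c000010000000) (nat_lit 0x10000000000070000022000067000020) (nat_lit 53) (nat_lit 2) (nat_lit 0x274401a0000052d41180000005f4119))) (Tree.tip (nat_lit 2631) (Node.mv (nat_lit 0x800000000001e000008000000) (nat_lit 0x800000000000b000000000030000010) (nat_lit 72) (nat_lit 1) (nat_lit 0x2744019000002404218)))))) (Tree.br (nat_lit 2636) (Tree.br (nat_lit 2634) (Tree.br (nat_lit 2633) (Tree.tip (nat_lit 2632) (Node.mv (nat_lit 0x800000900000e000008) (nat_lit 0x10000010000006000010000000) (nat_lit 49) (nat_lit 1) (nat_lit 0x3254018000000254118))) (Tree.tip (nat_lit 2633) (Node.mv (nat_lit 0x10000038000020) (nat_lit 0x2e000047000040) (nat_lit 26) (nat_lit 1) (nat_lit 0x4ab411800000028401a)))) (Tree.br (nat_lit 2635) (Tree.tip (nat_lit 2634) (Node.mv (nat_lit 0x800000800001c000010000000000000000000) (nat_lit 0x1000001000001400002000000f00000c000008000008) (nat_lit 75) (nat_lit 1) (nat_lit 0x3e5401a000001484218))) (Tree.tip (nat_lit 2635) (Node.mv (nat_lit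 0x800001c000010000000000000000000) (nat_lit 0x1800001800001400002000000f00000c000008000008) (nat_lit 147) (nat_lit 1) (nat_lit 0xa4a40180000000b431b))))) (Tree.br (nat_lit 2638) (Tree.br (nat_lit 2637) (Tree.tip (nat_lit 2636) (Node.mv (nat_lit 0x800001c000000) (nat_lit 0xe700006200000f) (nat_lit 29) (nat_lit 2) (nat_lit 0xdb4018000001c14019000000c74119))) (Tree.tip (nat_lit 2637) (Node.mv (nat_lit 0x800000800000e000008) (nat_lit 0x4000004000070000011000000) (nat_lit 98) (nat_lit 1) (nat_lit 0x1a411800000030401a)))) (Tree.br (nat_lit 2639) (Tree.tip (nat_lit 2638) (Node.img (nat_lit 0x800000800000e000008000000) (nat_lit 0x10000010000010000001000000000008) (nat_lit 316) (nat_lit 2) (nat_lit 128) (nat_lit 133))) (Tree.tip (nat_lit 2639) (Node.mv (nat_lit 0x800000e000008000000) (nat_lit 0x1400001c00001c000070000011000000000008) (nat_lit 99) (nat_lit 2) (nat_lit 0xa4d4118000000d3411a00000a4e4018))))))) (Tree.br (nat_lit 2648) (Tree.br (nat_lit 2644) (Tree.br (nat_lit 2642) (Tree.br (nat_lit 2641) (Tree.tip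 (nat_lit 2640) (Node.img (nat_lit 0x4000004000007000004000000) (nat_lit 0x8000008000038000008000000000004) (nat_lit 317) (nat_lit 2) (nat_lit 128) (nat_lit 133))) (Tree.tip (nat_lit 2641) (Node.mv (nat_lit 0x4000004000007000004000000) (nat_lit 0xa00000a000038000008000000000004) (nat_lit 121) (nat_lit 1) (nat_lit 0xa504018000000304119)))) (Tree.br (nat_lit 2643) (Tree.tip (nat_lit 2642) (Node.mv (nat_lit 0x1000001c000010000000000000) (nat_lit 0x800000f000023000007000010000010) (nat_lit 99) (nat_lit 1) (nat_lit 0x2f842180000002e401b))) (Tree.tip (nat_lit 2643) (Node.mv (nat_lit 0xc00000e000008000000000000) (nat_lit 0x10000033000030000000000008000008) (nat_lit 76) (nat_lit 1) (nat_lit 0x60f4019000000c74318))))) (Tree.br (nat_lit 2646) (Tree.br (nat_lit 2645) (Tree.tip (nat_lit 2644) (Node.mv (nat_lit 0x800000a00000e000008000000) (nat_lit 0x10000010000031000010000000000008) (nat_lit 76) (nat_lit 1) (nat_lit 0x276421800000099401b))) (Tree.tip (nat_lit 2645) (Node.img (nat_lit 0x2000002000003000002) (nat_lit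 0x1000007000007000004000001000000000000) (nat_lit 417) (nat_lit 6) (nat_lit 130) (nat_lit 128)))) (Tree.br (nat_lit 2647) (Tree.tip (nat_lit 2646) (Node.img (nat_lit 0x1000001000001c000010000000000000) (nat_lit 0x2000002000000f000003000008000018000018) (nat_lit 1594) (nat_lit 5) (nat_lit 128) (nat_lit 134))) (Tree.tip (nat_lit 2647) (Node.mv (nat_lit 0x1000001c000010000000000000) (nat_lit 0x800003800003800003000000f000003000008000018000018) (nat_lit 124) (nat_lit 2) (nat_lit 0xa56401800000a55421b0000003a411b)))))) (Tree.br (nat_lit 2652) (Tree.br (nat_lit 2650) (Tree.br (nat_lit 2649) (Tree.tip (nat_lit 2648) (Node.img (nat_lit 0x800001c000010) (nat_lit 0x30000003000020) (nat_lit 59) (nat_lit 7) (nat_lit 133) (nat_lit 130))) (Tree.tip (nat_lit 2649) (Node.mv (nat_lit 0x800001c000010000000000000) (nat_lit 0x8000008000034000003000024000004000004) (nat_lit 50) (nat_lit 1) (nat_lit 0xa5842180000040d401a)))) (Tree.br (nat_lit 2651) (Tree.tip (nat_lit 2650) (Node.img (nat_lit 0x400000f000004000000) (nat_lit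 0x400000400000000000000001a00000a) (nat_lit 324) (nat_lit 5) (nat_lit 128) (nat_lit 133))) (Tree.tip (nat_lit 2651) (Node.mv (nat_lit 0x800000e000008000000) (nat_lit 0x8000008000070000030000077000014) (nat_lit 52) (nat_lit 3) (nat_lit 0x7c4119000001c1411800000a5a4019000000534118))))) (Tree.br (nat_lit 2654) (Tree.br (nat_lit 2653) (Tree.tip (nat_lit 2652) (Node.img (nat_lit 0x2000005000005000005) (nat_lit 0x2000005000000000000000000) (nat_lit 875) (nat_lit 5) (nat_lit 128) (nat_lit 132))) (Tree.tip (nat_lit 2653) (Node.mv (nat_lit 0x7000005000005000000) (nat_lit 0x2000007000000000000000000000001) (nat_lit 97) (nat_lit 1) (nat_lit 0xa5c4118000000414018)))) (Tree.br (nat_lit 2655) (Tree.tip (nat_lit 2654) (Node.mv (nat_lit 0x2000006000005000005) (nat_lit 0x2000004000000000002000000) (nat_lit 97) (nat_lit 1) (nat_lit 0x2fd4019000002164018))) (Tree.tip (nat_lit 2655) (Node.mv (nat_lit 0x4000004000004000000) (nat_lit 0xa00000e00000f000038000002000002000006) (nat_lit 98) (nat_lit 2) (nat_lit 0x17240190000015b4018000000ea4019))))))))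 (Tree.br (nat_lit 2672) (Tree.br (nat_lit 2664) (Tree.br (nat_lit 2660) (Tree.br (nat_lit 2658) (Tree.br (nat_lit 2657) (Tree.tip (nat_lit 2656) (Node.mv (nat_lit 0x5000004000004000000) (nat_lit 0xa00000e00001e000002000002000002000006) (nat_lit 98) (nat_lit 2) (nat_lit 0x1724019000006134018000000ea4019))) (Tree.tip (nat_lit 2657) (Node.mv (nat_lit 0x2000002000002000002000000) (nat_lit 0x4000007000007000001000004000004000005000001) (nat_lit 24) (nat_lit 1) (nat_lit 0x2c34118000000014018)))) (Tree.br (nat_lit 2659) (Tree.tip (nat_lit 2658) (Node.img (nat_lit 0x400000e000008000008) (nat_lit 0x10000033000030000030000000) (nat_lit 1223) (nat_lit 4) (nat_lit 128) (nat_lit 128))) (Tree.tip (nat_lit 2659) (Node.mv (nat_lit 0xe000008000008) (nat_lit 0x4000014000037000030000034000000) (nat_lit 74) (nat_lit 1) (nat_lit 0xa6240180000000c401a))))) (Tree.br (nat_lit 2662) (Tree.br (nat_lit 2661) (Tree.tip (nat_lit 2660) (Node.mv (nat_lit 0xe000008000008000000) (nat_lit 0x10000037000030000030000000000008) (nat_lit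 98) (nat_lit 1) (nat_lit 0xa62411800000008401a))) (Tree.tip (nat_lit 2661) (Node.mv (nat_lit 0x1e000008000008000000000000) (nat_lit 0x300002000000700000400000c00000c) (nat_lit 74) (nat_lit 1) (nat_lit 0x6394018000000234318)))) (Tree.br (nat_lit 2663) (Tree.tip (nat_lit 2662) (Node.mv (nat_lit 0x4000007000004000006) (nat_lit 0x400000000000800003a000008) (nat_lit 27) (nat_lit 1) (nat_lit 0x1a940180000018d4019))) (Tree.tip (nat_lit 2663) (Node.img (nat_lit 0x7000005000005000000) (nat_lit 0x2000006000000000002000000000001) (nat_lit 1556) (nat_lit 1) (nat_lit 130) (nat_lit 128)))))) (Tree.br (nat_lit 2668) (Tree.br (nat_lit 2666) (Tree.br (nat_lit 2665) (Tree.tip (nat_lit 2664) (Node.img (nat_lit 0x7000005000005000000) (nat_lit 0x2000002000006000000000000000000000001) (nat_lit 1344) (nat_lit 1) (nat_lit 130) (nat_lit 128))) (Tree.tip (nat_lit 2665) (Node.mv (nat_lit 0x1c000014000010000000) (nat_lit 0x800000800001800000000006b000026000004) (nat_lit 26) (nat_lit 2) (nat_lit 0xa68401a000005e1411800000a67401a))))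 (Tree.br (nat_lit 2667) (Tree.tip (nat_lit 2666) (Node.img (nat_lit 0xf000004000004) (nat_lit 0x800001c000000000008000000) (nat_lit 322) (nat_lit 1) (nat_lit 132) (nat_lit 128))) (Tree.tip (nat_lit 2667) (Node.mv (nat_lit 0xe00000a000008) (nat_lit 0x10000038000010000011000000) (nat_lit 52) (nat_lit 1) (nat_lit 0xa6a4019000000674118))))) (Tree.br (nat_lit 2670) (Tree.br (nat_lit 2669) (Tree.tip (nat_lit 2668) (Node.img (nat_lit 0x38000018000010) (nat_lit 0x20000020000070000007000007000000) (nat_lit 938) (nat_lit 7) (nat_lit 134) (nat_lit 133))) (Tree.tip (nat_lit 2669) (Node.mv (nat_lit 0x38000018000000000000000000) (nat_lit 0x20000020000078000007000007000010000010000010) (nat_lit 52) (nat_lit 1) (nat_lit 0xa6c42180000002e401b)))) (Tree.br (nat_lit 2671) (Tree.tip (nat_lit 2670) (Node.img (nat_lit 0x3c000018) (nat_lit 0x70000003000006) (nat_lit 1271) (nat_lit 6) (nat_lit 134) (nat_lit 128))) (Tree.tip (nat_lit 2671) (Node.img (nat_lit 0x1e00000c000000000000000000) (nat_lit 0x200000b000000000003000004000004000004)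 (nat_lit 993) (nat_lit 1) (nat_lit 132) (nat_lit 128))))))) (Tree.br (nat_lit 2680) (Tree.br (nat_lit 2676) (Tree.br (nat_lit 2674) (Tree.br (nat_lit 2673) (Tree.tip (nat_lit 2672) (Node.mv (nat_lit 0x38000018000000000000000000) (nat_lit 0x4000077000007000006000008000008000008) (nat_lit 98) (nat_lit 2) (nat_lit 0xa6f401900000a6e4318000000ec4318))) (Tree.tip (nat_lit 2673) (Node.img (nat_lit 0x1c00000c) (nat_lit 0x77000062000000) (nat_lit 235) (nat_lit 7) (nat_lit 134) (nat_lit 130)))) (Tree.br (nat_lit 2675) (Tree.tip (nat_lit 2674) (Node.mv (nat_lit 0x18000018000000000000000000) (nat_lit 0x40000ff0000e7000006000008000008000008) (nat_lit 101) (nat_lit 2) (nat_lit 0xa70401800000a714319000000234319))) (Tree.tip (nat_lit 2675) (Node.mv (nat_lit 0x1c000018000008000000000000) (nat_lit 0x10000038000003000000000010000010000010) (nat_lit 28) (nat_lit 1) (nat_lit 0x624218000004c1401b))))) (Tree.br (nat_lit 2678) (Tree.br (nat_lit 2677) (Tree.tip (nat_lit 2676) (Node.img (nat_lit 0x1c000018000010000000) (nat_lit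 0x30000003000007000020000020) (nat_lit 1443) (nat_lit 5) (nat_lit 128) (nat_lit 132))) (Tree.tip (nat_lit 2677) (Node.mv (nat_lit 0x1c000018000000000000000000) (nat_lit 0x38000003000007000030000030000010) (nat_lit 52) (nat_lit 1) (nat_lit 0xa7441180000002e401b)))) (Tree.br (nat_lit 2679) (Tree.tip (nat_lit 2678) (Node.mv (nat_lit 0x7000006000000000000000000) (nat_lit 0x600000000001900003c00000c00000c) (nat_lit 50) (nat_lit 1) (nat_lit 0x5fb40180000002e4019))) (Tree.tip (nat_lit 2679) (Node.mv (nat_lit 0x18000018000000000000000000) (nat_lit 0x380000070000670000f0000030000030) (nat_lit 98) (nat_lit 2) (nat_lit 0xa76401a00000a7540180000004d4319)))))) (Tree.br (nat_lit 2684) (Tree.br (nat_lit 2682) (Tree.br (nat_lit 2681) (Tree.tip (nat_lit 2680) (Node.img (nat_lit 0x1a000018000008000000000000) (nat_lit 0x4000005000000000000000008000008) (nat_lit 770) (nat_lit 5) (nat_lit 128) (nat_lit 133))) (Tree.tip (nat_lit 2681) (Node.mv (nat_lit 0x1a000018000008000000000000000000) (nat_lit 0xc00000500000400000400000c00000c000004)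 (nat_lit 74) (nat_lit 2) (nat_lit 0x55a401a00000a78411800000251401a)))) (Tree.br (nat_lit 2683) (Tree.tip (nat_lit 2682) (Node.mv (nat_lit 0x18000018000008000000000000000000) (nat_lit 0xc00000700006400000700000c00000c000004) (nat_lit 121) (nat_lit 2) (nat_lit 0xa794018000003174018000000294418))) (Tree.tip (nat_lit 2683) (Node.mv (nat_lit 0x1a000018000008000000000000000000) (nat_lit 0x10000038000005000004000004000004000004000004) (nat_lit 74) (nat_lit 1) (nat_lit 0x21543180000055a401a))))) (Tree.br (nat_lit 2686) (Tree.br (nat_lit 2685) (Tree.tip (nat_lit 2684) (Node.mv (nat_lit 0xe00001c000000000000) (nat_lit 0x10000037000070000000000008000008) (nat_lit 76) (nat_lit 1) (nat_lit 0x3cc4019000002f64218))) (Tree.tip (nat_lit 2685) (Node.mv (nat_lit 0xe00000c000000000000) (nat_lit 0x10000037000070000030000008000008) (nat_lit 52) (nat_lit 1) (nat_lit 0xa7c4018000000254219)))) (Tree.br (nat_lit 2687) (Tree.tip (nat_lit 2686) (Node.mv (nat_lit 0x1000001e000000000008000000) (nat_lit 0x700002000000f000000000008)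 (nat_lit 51) (nat_lit 1) (nat_lit 0x58421800000041401b))) (Tree.tip (nat_lit 2687) (Node.mv (nat_lit 0x2000003c000000000000000000) (nat_lit 0x1f00004200001f000010000010) (nat_lit 28) (nat_lit 2) (nat_lit 0xa7e4019000000594318000000574218))))))))))
noncomputable def t0_21 : Tree := (Tree.br (nat_lit 2752) (Tree.br (nat_lit 2720) (Tree.br (nat_lit 2704) (Tree.br (nat_lit 2696) (Tree.br (nat_lit 2692) (Tree.br (nat_lit 2690) (Tree.br (nat_lit 2689) (Tree.tip (nat_lit 2688) (Node.img (nat_lit 0x100000100000f000000) (nat_lit 0x1000001000000000002000010000002) (nat_lit 361) (nat_lit 4) (nat_lit 128) (nat_lit 128))) (Tree.tip (nat_lit 2689) (Node.mv (nat_lit 0x200000200000e000000) (nat_lit 0x2000002000000000005000030000004) (nat_lit 28) (nat_lit 1) (nat_lit 0xa804019000000244118)))) (Tree.br (nat_lit 2691) (Tree.tip (nat_lit 2690) (Node.img (nat_lit 0x1400001e000000) (nat_lit 0x8000061000070) (nat_lit 712) (nat_lit 7) (nat_lit 134) (nat_lit 130))) (Tree.tip (nat_lit 2691) (Node.mv (nat_lit 0x28000038000000)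 (nat_lit 0x170000c60000e0) (nat_lit 26) (nat_lit 2) (nat_lit 0x59411800000a824019000000c74119))))) (Tree.br (nat_lit 2694) (Tree.br (nat_lit 2693) (Tree.tip (nat_lit 2692) (Node.mv (nat_lit 0x1400001c000000000000000000) (nat_lit 0x400000400002000000200000f00000a00000a) (nat_lit 122) (nat_lit 2) (nat_lit 0x36d401800000926421800000492401a))) (Tree.tip (nat_lit 2693) (Node.img (nat_lit 0x3c000018) (nat_lit 0x70000003000000) (nat_lit 149) (nat_lit 5) (nat_lit 128) (nat_lit 130)))) (Tree.br (nat_lit 2695) (Tree.tip (nat_lit 2694) (Node.mv (nat_lit 0x1c000018) (nat_lit 0x7e0000e3000000) (nat_lit 29) (nat_lit 1) (nat_lit 0x2f6401900000a854018))) (Tree.tip (nat_lit 2695) (Node.img (nat_lit 0xe00000c000000000000000000) (nat_lit 0x200000200000f000070000070000004000004000004) (nat_lit 2669) (nat_lit 1) (nat_lit 134) (nat_lit 128)))))) (Tree.br (nat_lit 2700) (Tree.br (nat_lit 2698) (Tree.br (nat_lit 2697) (Tree.tip (nat_lit 2696) (Node.mv (nat_lit 0x18000018000000000000000000) (nat_lit 0x400000400007e0000e70000e0000008000008000008)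 (nat_lit 98) (nat_lit 2) (nat_lit 0xa87401900000a8643180000004d4319))) (Tree.tip (nat_lit 2697) (Node.img (nat_lit 0x3000003000003000000000000) (nat_lit 0x2000002000000000000000004000006000006) (nat_lit 622) (nat_lit 6) (nat_lit 130) (nat_lit 128)))) (Tree.br (nat_lit 2699) (Tree.tip (nat_lit 2698) (Node.img (nat_lit 0x6000006000006000000000000) (nat_lit 0x8000039000038000001000004000004) (nat_lit 809) (nat_lit 4) (nat_lit 128) (nat_lit 128))) (Tree.tip (nat_lit 2699) (Node.img (nat_lit 0x6000006000006000000) (nat_lit 0x4000004000001000038000039000008) (nat_lit 809) (nat_lit 5) (nat_lit 128) (nat_lit 133))))) (Tree.br (nat_lit 2702) (Tree.br (nat_lit 2701) (Tree.tip (nat_lit 2700) (Node.mv (nat_lit 0x6000006000002000000000000) (nat_lit 0x400000c00003900003800003d00000c00000c) (nat_lit 50) (nat_lit 2) (nat_lit 0xa8b411800000a8a401800000a894019))) (Tree.tip (nat_lit 2701) (Node.mv (nat_lit 0xc00000c000000000000000000) (nat_lit 0x800001a00007300007000007e00001c00001c) (nat_lit 50) (nat_lit 2) (nat_lit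 0x4f401800000a8c401900000046401a)))) (Tree.br (nat_lit 2703) (Tree.tip (nat_lit 2702) (Node.mv (nat_lit 0x1c00000c000004000000000000) (nat_lit 0x8000002000033000032000010000010) (nat_lit 76) (nat_lit 1) (nat_lit 0x6b040180000045c4219))) (Tree.tip (nat_lit 2703) (Node.img (nat_lit 0xe000006000002) (nat_lit 0x31000038000001) (nat_lit 195) (nat_lit 3) (nat_lit 133) (nat_lit 130))))))) (Tree.br (nat_lit 2712) (Tree.br (nat_lit 2708) (Tree.br (nat_lit 2706) (Tree.br (nat_lit 2705) (Tree.tip (nat_lit 2704) (Node.mv (nat_lit 0xc00000c000004000000000000) (nat_lit 0x8000072000073000032000010000010) (nat_lit 100) (nat_lit 2) (nat_lit 0xa8e401800000a8f4219000000234318))) (Tree.tip (nat_lit 2705) (Node.mv (nat_lit 0xe000006000002000000) (nat_lit 0xc00003c000001000000000004000004) (nat_lit 98) (nat_lit 1) (nat_lit 0x1234018000000444119)))) (Tree.br (nat_lit 2707) (Tree.tip (nat_lit 2706) (Node.mv (nat_lit 0xc00000c000004000000) (nat_lit 0x18000078000032000003000008000008) (nat_lit 76) (nat_lit 1) (nat_lit 0xa914019000000234218)))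 (Tree.tip (nat_lit 2707) (Node.mv (nat_lit 0x7000003000001000000000000) (nat_lit 0x5000018000000000002000003000003) (nat_lit 99) (nat_lit 1) (nat_lit 0x1ff4018000000184318))))) (Tree.br (nat_lit 2710) (Tree.br (nat_lit 2709) (Tree.tip (nat_lit 2708) (Node.img (nat_lit 0x1c00001c000000000000000000) (nat_lit 0x14000000000003000038000018000018) (nat_lit 809) (nat_lit 2) (nat_lit 128) (nat_lit 133))) (Tree.tip (nat_lit 2709) (Node.mv (nat_lit 0x1c000018000000000000000000) (nat_lit 0x4000016000060000007000038000018000018) (nat_lit 74) (nat_lit 2) (nat_lit 0xa944018000004b74119000000894318)))) (Tree.br (nat_lit 2711) (Tree.tip (nat_lit 2710) (Node.mv (nat_lit 0x1e00000c000004) (nat_lit 0x8000038000001000000000000) (nat_lit 76) (nat_lit 1) (nat_lit 0x38940180000002a4219))) (Tree.tip (nat_lit 2711) (Node.mv (nat_lit 0x1c00000c000004) (nat_lit 0x8000038000063000070000000) (nat_lit 49) (nat_lit 2) (nat_lit 0x382411900000a9640180000004d4118)))))) (Tree.br (nat_lit 2716) (Tree.br (nat_lit 2714) (Tree.br (nat_lit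 2713) (Tree.tip (nat_lit 2712) (Node.mv (nat_lit 0xc00000c000004) (nat_lit 0xa00003b000073000073000000) (nat_lit 52) (nat_lit 2) (nat_lit 0x4d6401800000a974018000000234118))) (Tree.tip (nat_lit 2713) (Node.img (nat_lit 0xc00000c000004000000000000) (nat_lit 0x2000033000033000000000004000004) (nat_lit 1208) (nat_lit 7) (nat_lit 133) (nat_lit 133)))) (Tree.br (nat_lit 2715) (Tree.tip (nat_lit 2714) (Node.mv (nat_lit 0xc00000c000000000000000000) (nat_lit 0xa00003b000073000073000004000004000004) (nat_lit 50) (nat_lit 2) (nat_lit 0xa99401800000a98421800000046401a))) (Tree.tip (nat_lit 2715) (Node.img (nat_lit 0x400000f000006000000000000) (nat_lit 0x4000000000000000018000008000008) (nat_lit 781) (nat_lit 1) (nat_lit 132) (nat_lit 128))))) (Tree.br (nat_lit 2718) (Tree.br (nat_lit 2717) (Tree.tip (nat_lit 2716) (Node.mv (nat_lit 0x800000e00000c000000000000) (nat_lit 0x8000000000030000033000010000010) (nat_lit 76) (nat_lit 1) (nat_lit 0xa9b4019000000234218))) (Tree.tip (nat_lit 2717) (Node.mv (nat_lit 0x18000018000000000000000000)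 (nat_lit 0x10000038000060000007000078000038000018) (nat_lit 51) (nat_lit 2) (nat_lit 0x2004019000004f6401800000046401b)))) (Tree.br (nat_lit 2719) (Tree.tip (nat_lit 2718) (Node.img (nat_lit 0x800000c00000c000008) (nat_lit 0x14000034000003000000000000) (nat_lit 797) (nat_lit 4) (nat_lit 128) (nat_lit 128))) (Tree.tip (nat_lit 2719) (Node.mv (nat_lit 0xc00000c000008) (nat_lit 0x1c00001c00003c000003000000000000) (nat_lit 75) (nat_lit 2) (nat_lit 0xa9e40180000049c401a0000019c401a)))))))) (Tree.br (nat_lit 2736) (Tree.br (nat_lit 2728) (Tree.br (nat_lit 2724) (Tree.br (nat_lit 2722) (Tree.br (nat_lit 2721) (Tree.tip (nat_lit 2720) (Node.img (nat_lit 0x6000006000004000000000000) (nat_lit 0x400000400000c00003800000100000800000c00000c) (nat_lit 1010) (nat_lit 7) (nat_lit 133) (nat_lit 135))) (Tree.tip (nat_lit 2721) (Node.mv (nat_lit 0xc00000c000000000000000000) (nat_lit 0x1c00001c00003c000073000002000018000018000018) (nat_lit 51) (nat_lit 2) (nat_lit 0xaa0401900000a9f42180000002e401a)))) (Tree.br (nat_lit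 2723) (Tree.tip (nat_lit 2722) (Node.mv (nat_lit 0x4000006000006000004000000000000) (nat_lit 0x3800000100000800000c00000c) (nat_lit 99) (nat_lit 1) (nat_lit 0x19d4019000000f34318))) (Tree.tip (nat_lit 2723) (Node.mv (nat_lit 0x6000006000004000000000000) (nat_lit 0x400000400003800000100000a00000e00000c) (nat_lit 122) (nat_lit 1) (nat_lit 0xaa240180000003a4119))))) (Tree.br (nat_lit 2726) (Tree.br (nat_lit 2725) (Tree.tip (nat_lit 2724) (Node.img (nat_lit 0x6000006000004000000000000) (nat_lit 0x8000038000001000000000004000004) (nat_lit 72) (nat_lit 7) (nat_lit 133) (nat_lit 133))) (Tree.tip (nat_lit 2725) (Node.mv (nat_lit 0x6000006000004000000000000) (nat_lit 0x400000c000038000001000002000006000004) (nat_lit 122) (nat_lit 1) (nat_lit 0xaa440180000003a4119)))) (Tree.br (nat_lit 2727) (Tree.tip (nat_lit 2726) (Node.mv (nat_lit 0x4000006000006000004) (nat_lit 0x6000006000002000038000001000000) (nat_lit 51) (nat_lit 1) (nat_lit 0x19c4019000000f34118))) (Tree.tip (nat_lit 2727) (Node.mv (nat_lit 0x800000800001c000008000000)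 (nat_lit 0x4000004000000000020000007000004) (nat_lit 98) (nat_lit 1) (nat_lit 0xb540180000000e411a)))))) (Tree.br (nat_lit 2732) (Tree.br (nat_lit 2730) (Tree.br (nat_lit 2729) (Tree.tip (nat_lit 2728) (Node.img (nat_lit 0x400000e000004000004) (nat_lit 0x8000038000001000000000000) (nat_lit 181) (nat_lit 3) (nat_lit 133) (nat_lit 132))) (Tree.tip (nat_lit 2729) (Node.mv (nat_lit 0x400000e000004000004000000) (nat_lit 0x8000038000001000000000002000002) (nat_lit 1) (nat_lit 1) (nat_lit 0xaa84118000000024019)))) (Tree.br (nat_lit 2731) (Tree.tip (nat_lit 2730) (Node.mv (nat_lit 0x400000e000004000000000000000000) (nat_lit 0x800003800000100000000000e00000e00000a) (nat_lit 50) (nat_lit 2) (nat_lit 0xaa9411800000005401900000099411a))) (Tree.tip (nat_lit 2731) (Node.mv (nat_lit 0x400000400000e000004) (nat_lit 0xc00000c000008000038000001000000) (nat_lit 51) (nat_lit 1) (nat_lit 0x39d401a000001224118))))) (Tree.br (nat_lit 2734) (Tree.br (nat_lit 2733) (Tree.tip (nat_lit 2732) (Node.img (nat_lit 0x400000e000006000000000000)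 (nat_lit 0x31000038000003000002) (nat_lit 1247) (nat_lit 2) (nat_lit 128) (nat_lit 132))) (Tree.tip (nat_lit 2733) (Node.img (nat_lit 0x800001c00000c000000000000) (nat_lit 0x2000073000030000010) (nat_lit 643) (nat_lit 1) (nat_lit 134) (nat_lit 128)))) (Tree.br (nat_lit 2735) (Tree.tip (nat_lit 2734) (Node.mv (nat_lit 0x800001c000008000000000000) (nat_lit 0x62000077000036000014) (nat_lit 50) (nat_lit 2) (nat_lit 0xaad401800000aac4019000000234218))) (Tree.tip (nat_lit 2735) (Node.mv (nat_lit 0x800001c000008000000000000) (nat_lit 0x10000070000022000007000008000008) (nat_lit 50) (nat_lit 1) (nat_lit 0x1234019000000234218))))))) (Tree.br (nat_lit 2744) (Tree.br (nat_lit 2740) (Tree.br (nat_lit 2738) (Tree.br (nat_lit 2737) (Tree.tip (nat_lit 2736) (Node.mv (nat_lit 0x800001c000000000000000000000000) (nat_lit 0x1800007000002200000f00001c00001c000014) (nat_lit 75) (nat_lit 2) (nat_lit 0xaaf411800000aaa4019000000384118))) (Tree.tip (nat_lit 2737) (Node.img (nat_lit 0x400001e000002000000000000) (nat_lit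 0x4000003000000000000000002000002) (nat_lit 178) (nat_lit 4) (nat_lit 128) (nat_lit 128)))) (Tree.br (nat_lit 2739) (Tree.tip (nat_lit 2738) (Node.mv (nat_lit 0x400001e000002000000000000) (nat_lit 0x4000003000000000030000002000002) (nat_lit 53) (nat_lit 1) (nat_lit 0xab14018000000204219))) (Tree.tip (nat_lit 2739) (Node.mv (nat_lit 0x400001e000000000000000000) (nat_lit 0x4000003000000000033000002000002) (nat_lit 49) (nat_lit 1) (nat_lit 0xab24018000000674218))))) (Tree.br (nat_lit 2742) (Tree.br (nat_lit 2741) (Tree.tip (nat_lit 2740) (Node.mv (nat_lit 0x400000e000000000000000000) (nat_lit 0x4000073000030000073000002000002) (nat_lit 76) (nat_lit 2) (nat_lit 0xab34018000005a84218000000c74318))) (Tree.tip (nat_lit 2741) (Node.mv (nat_lit 0x600000e000004000000000000) (nat_lit 0x8000038000001000000000004000004) (nat_lit 26) (nat_lit 1) (nat_lit 0xaa84118000000084019)))) (Tree.br (nat_lit 2743) (Tree.tip (nat_lit 2742) (Node.img (nat_lit 0x2000007000005000000000000) (nat_lit 0x2000002000004000000000000000004000004)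 (nat_lit 230) (nat_lit 4) (nat_lit 128) (nat_lit 128))) (Tree.tip (nat_lit 2743) (Node.mv (nat_lit 0x400001e000008000000000000) (nat_lit 0x4000004000008000000000003000008000008) (nat_lit 49) (nat_lit 1) (nat_lit 0xab64019000000674218)))))) (Tree.br (nat_lit 2748) (Tree.br (nat_lit 2746) (Tree.br (nat_lit 2745) (Tree.tip (nat_lit 2744) (Node.img (nat_lit 0x400001e000000000000000000) (nat_lit 0x400000400000800000100003b000008000008) (nat_lit 592) (nat_lit 7) (nat_lit 133) (nat_lit 134))) (Tree.tip (nat_lit 2745) (Node.mv (nat_lit 0x400000e000000000000000000) (nat_lit 0x400000400000b00003100003b000008000008) (nat_lit 76) (nat_lit 1) (nat_lit 0xab84018000000c74318)))) (Tree.br (nat_lit 2747) (Tree.tip (nat_lit 2746) (Node.mv (nat_lit 0x400001e000002) (nat_lit 0x38000061000004) (nat_lit 51) (nat_lit 1) (nat_lit 0x26d4019000000524118))) (Tree.tip (nat_lit 2747) (Node.mv (nat_lit 0x400001e000000) (nat_lit 0x38000061000007) (nat_lit 1) (nat_lit 1) (nat_lit 0xaba4018000000674018))))) (Tree.br (nat_lit 2750)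 (Tree.br (nat_lit 2749) (Tree.tip (nat_lit 2748) (Node.mv (nat_lit 0x1e00000c000000000000) (nat_lit 0x8000038000001000000000004000004) (nat_lit 99) (nat_lit 1) (nat_lit 0x52431800000037401a))) (Tree.tip (nat_lit 2749) (Node.mv (nat_lit 0x2000007000002000000000000000000) (nat_lit 0x600000e00001d000000000004000006000006000002) (nat_lit 74) (nat_lit 2) (nat_lit 0x29b4118000003bf4018000000b74119)))) (Tree.br (nat_lit 2751) (Tree.tip (nat_lit 2750) (Node.mv (nat_lit 0x2800003c000000000000000000) (nat_lit 0x8000008000017000002000070000010000010) (nat_lit 123) (nat_lit 2) (nat_lit 0x7b34219000000594318000003d8401b))) (Tree.tip (nat_lit 2751) (Node.mv (nat_lit 0x800003c000000000000000000) (nat_lit 0x8000008000077000002000070000010000010) (nat_lit 101) (nat_lit 1) (nat_lit 0xabe40180000002a431a))))))))) (Tree.br (nat_lit 2784) (Tree.br (nat_lit 2768) (Tree.br (nat_lit 2760) (Tree.br (nat_lit 2756) (Tree.br (nat_lit 2754) (Tree.br (nat_lit 2753) (Tree.tip (nat_lit 2752) (Node.mv (nat_lit 0x600000f000000000000000000)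 (nat_lit 0x400000600000000000000001e00000e000004) (nat_lit 50) (nat_lit 1) (nat_lit 0xa5a41180000002e4019))) (Tree.tip (nat_lit 2753) (Node.img (nat_lit 0x1000003000002000000000000) (nat_lit 0x1000002000000000001000002000002) (nat_lit 30) (nat_lit 6) (nat_lit 129) (nat_lit 128)))) (Tree.br (nat_lit 2755) (Tree.tip (nat_lit 2754) (Node.mv (nat_lit 0x9000007000000000000000000) (nat_lit 0x1000001000012000018000003000002000002) (nat_lit 49) (nat_lit 3) (nat_lit 0x350401800000234401800000619421800000ac14018))) (Tree.tip (nat_lit 2755) (Node.mv (nat_lit 0x200000f000000000000000000) (nat_lit 0x200000200003c000030000006000004000004) (nat_lit 100) (nat_lit 1) (nat_lit 0xac24019000000214318))))) (Tree.br (nat_lit 2758) (Tree.br (nat_lit 2757) (Tree.tip (nat_lit 2756) (Node.mv (nat_lit 0x400001e000000000000000000) (nat_lit 0x4000033000000000003000002000002) (nat_lit 101) (nat_lit 1) (nat_lit 0x33e4018000000214319))) (Tree.tip (nat_lit 2757) (Node.img (nat_lit 0xc00001c000008000000000000) (nat_lit 0x400000c000000000000000007000006000004)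 (nat_lit 643) (nat_lit 4) (nat_lit 128) (nat_lit 128)))) (Tree.br (nat_lit 2759) (Tree.tip (nat_lit 2758) (Node.img (nat_lit 0xc00001c000008) (nat_lit 0x10000030000073000002000000) (nat_lit 643) (nat_lit 3) (nat_lit 134) (nat_lit 132))) (Tree.tip (nat_lit 2759) (Node.mv (nat_lit 0x800001c000008000000000000) (nat_lit 0x1400003c000077000002000007000006000004) (nat_lit 98) (nat_lit 1) (nat_lit 0xac6421800000ac54018)))))) (Tree.br (nat_lit 2764) (Tree.br (nat_lit 2762) (Tree.br (nat_lit 2761) (Tree.tip (nat_lit 2760) (Node.mv (nat_lit 0xe00000e000004) (nat_lit 0x2000003000010000001000000) (nat_lit 73) (nat_lit 1) (nat_lit 0x3d041180000000b4019))) (Tree.tip (nat_lit 2761) (Node.mv (nat_lit 0x1000006000007000002) (nat_lit 0x2000003000002000000000000000001) (nat_lit 73) (nat_lit 1) (nat_lit 0x48140180000000e4018)))) (Tree.br (nat_lit 2763) (Tree.tip (nat_lit 2762) (Node.mv (nat_lit 0x600000f000000) (nat_lit 0x200000200000200000000003000003c) (nat_lit 73) (nat_lit 1) (nat_lit 0x69e4018000003384019))) (Tree.tip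 (nat_lit 2763) (Node.img (nat_lit 0xc00000c000008000000) (nat_lit 0x1c00003c000003000000000004000004) (nat_lit 1085) (nat_lit 4) (nat_lit 128) (nat_lit 128))))) (Tree.br (nat_lit 2766) (Tree.br (nat_lit 2765) (Tree.tip (nat_lit 2764) (Node.img (nat_lit 0x3000003000002000000000000) (nat_lit 0x6000006000004000000000001000003000002) (nat_lit 777) (nat_lit 5) (nat_lit 128) (nat_lit 134))) (Tree.tip (nat_lit 2765) (Node.mv (nat_lit 0xc00000c000000000000000000) (nat_lit 0x1c00003c00001300000000000c00000c000008) (nat_lit 51) (nat_lit 2) (nat_lit 0xacc401a00000acb41180000002e401a)))) (Tree.br (nat_lit 2767) (Tree.tip (nat_lit 2766) (Node.mv (nat_lit 0xe000006000004) (nat_lit 0x800000a00000b000030000008000000) (nat_lit 75) (nat_lit 1) (nat_lit 0x6ab4018000001dd401a))) (Tree.tip (nat_lit 2767) (Node.mv (nat_lit 0xc00000c000008000000) (nat_lit 0x18000078000013000000000004000004) (nat_lit 99) (nat_lit 1) (nat_lit 0x1d141180000003a401a))))))) (Tree.br (nat_lit 2776) (Tree.br (nat_lit 2772) (Tree.br (nat_lit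 2770) (Tree.br (nat_lit 2769) (Tree.tip (nat_lit 2768) (Node.img (nat_lit 0x400001e000000000000000000) (nat_lit 0x400000400000000000100003c000008000008) (nat_lit 332) (nat_lit 7) (nat_lit 133) (nat_lit 134))) (Tree.tip (nat_lit 2769) (Node.mv (nat_lit 0x1400001c000000000000000000) (nat_lit 0x400000400002000000300003c000008000008) (nat_lit 73) (nat_lit 1) (nat_lit 0xad040180000002a4319)))) (Tree.br (nat_lit 2771) (Tree.tip (nat_lit 2770) (Node.mv (nat_lit 0x1000001c000000) (nat_lit 0x2800000300003b) (nat_lit 25) (nat_lit 1) (nat_lit 0x5bb40180000002a4119))) (Tree.tip (nat_lit 2771) (Node.mv (nat_lit 0xe00000e000000000000) (nat_lit 0x2000003000030000030000007000004) (nat_lit 24) (nat_lit 1) (nat_lit 0x4b740180000026d4118))))) (Tree.br (nat_lit 2774) (Tree.br (nat_lit 2773) (Tree.tip (nat_lit 2772) (Node.img (nat_lit 0xe00000e000000000000) (nat_lit 0x400000400000000003000000b00000a) (nat_lit 969) (nat_lit 1) (nat_lit 133) (nat_lit 128))) (Tree.tip (nat_lit 2773) (Node.mv (nat_lit 0xa00000e000000000000)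 (nat_lit 0x600000700003400003000000f00000e) (nat_lit 74) (nat_lit 3) (nat_lit 0x570401800000ad34018000004b8401800000ad44018)))) (Tree.br (nat_lit 2775) (Tree.tip (nat_lit 2774) (Node.img (nat_lit 0x200001e000000) (nat_lit 0x4000020000073) (nat_lit 755) (nat_lit 3) (nat_lit 134) (nat_lit 130))) (Tree.tip (nat_lit 2775) (Node.img (nat_lit 0x1400003c000000) (nat_lit 0x8000043000070) (nat_lit 1187) (nat_lit 1) (nat_lit 134) (nat_lit 128)))))) (Tree.br (nat_lit 2780) (Tree.br (nat_lit 2778) (Tree.br (nat_lit 2777) (Tree.tip (nat_lit 2776) (Node.img (nat_lit 0x1400003c000000) (nat_lit 0x8000043000007) (nat_lit 712) (nat_lit 5) (nat_lit 128) (nat_lit 130))) (Tree.tip (nat_lit 2777) (Node.mv (nat_lit 0x1400001c000000) (nat_lit 0x80000630000f7) (nat_lit 29) (nat_lit 3) (nat_lit 0xad8401800000ad7401800000ad640190000011f4018)))) (Tree.br (nat_lit 2779) (Tree.tip (nat_lit 2778) (Node.img (nat_lit 0x1000001e000000000000000000) (nat_lit 0x8000008000001000030000010000010) (nat_lit 172) (nat_lit 7) (nat_lit 133)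 (nat_lit 133))) (Tree.tip (nat_lit 2779) (Node.mv (nat_lit 0x1400001c000000000000000000) (nat_lit 0x400000c000008000003000037000012000012) (nat_lit 73) (nat_lit 1) (nat_lit 0xada4018000003924018))))) (Tree.br (nat_lit 2782) (Tree.br (nat_lit 2781) (Tree.tip (nat_lit 2780) (Node.mv (nat_lit 0xa00001e000000000000000000) (nat_lit 0x4000004000021000038000008000008) (nat_lit 98) (nat_lit 1) (nat_lit 0x2644018000000254319))) (Tree.tip (nat_lit 2781) (Node.mv (nat_lit 0xa00000e000000000000000000) (nat_lit 0x4000005000031000038000008000008) (nat_lit 76) (nat_lit 1) (nat_lit 0xadc4018000000244318)))) (Tree.br (nat_lit 2783) (Tree.tip (nat_lit 2782) (Node.mv (nat_lit 0x400001c000000000000000000) (nat_lit 0x4000003000022000007000002000002) (nat_lit 73) (nat_lit 2) (nat_lit 0x3814018000005614018000000c74318))) (Tree.tip (nat_lit 2783) (Node.img (nat_lit 0x40000038000000) (nat_lit 0x27000006000007) (nat_lit 523) (nat_lit 7) (nat_lit 134) (nat_lit 130)))))))) (Tree.br (nat_lit 2800) (Tree.br (nat_lit 2792) (Tree.br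 (nat_lit 2788) (Tree.br (nat_lit 2786) (Tree.br (nat_lit 2785) (Tree.tip (nat_lit 2784) (Node.mv (nat_lit 0x50000070000000000000000000) (nat_lit 0x3000002700018e00001f000018000018) (nat_lit 75) (nat_lit 3) (nat_lit 0x4b9401a00000adf421800000381401a000000574219))) (Tree.tip (nat_lit 2785) (Node.mv (nat_lit 0x400001e000000000000000000) (nat_lit 0x4000002000020000003000002000002) (nat_lit 97) (nat_lit 1) (nat_lit 0x3a74018000000254319)))) (Tree.br (nat_lit 2787) (Tree.tip (nat_lit 2786) (Node.mv (nat_lit 0x7000006000000000000000000) (nat_lit 0x400000e00001e00000000000800000e00000e000006) (nat_lit 122) (nat_lit 2) (nat_lit 0x6014018000002674019000000374119))) (Tree.tip (nat_lit 2787) (Node.img (nat_lit 0x1000002000003000002000000) (nat_lit 0x1000000000001000000000000000002) (nat_lit 81) (nat_lit 7) (nat_lit 129) (nat_lit 133))))) (Tree.br (nat_lit 2790) (Tree.br (nat_lit 2789) (Tree.tip (nat_lit 2788) (Node.img (nat_lit 0x800001000001c000010000000) (nat_lit 0x8000003000020000010) (nat_lit 2595) (nat_lit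 4) (nat_lit 128) (nat_lit 128))) (Tree.tip (nat_lit 2789) (Node.mv (nat_lit 0x1000001c000010000000) (nat_lit 0x8000018000008000003000020000030) (nat_lit 99) (nat_lit 2) (nat_lit 0xae4401800000246401900000ae3401b)))) (Tree.br (nat_lit 2791) (Tree.tip (nat_lit 2790) (Node.img (nat_lit 0x1000002000003000002000000) (nat_lit 0x3000002000000000000000001000001) (nat_lit 104) (nat_lit 5) (nat_lit 128) (nat_lit 133))) (Tree.tip (nat_lit 2791) (Node.mv (nat_lit 0x800000e000008000000) (nat_lit 0xc00000c000000000001000074000014) (nat_lit 98) (nat_lit 2) (nat_lit 0x246401800000ae6401a0000068e4118)))))) (Tree.br (nat_lit 2796) (Tree.br (nat_lit 2794) (Tree.br (nat_lit 2793) (Tree.tip (nat_lit 2792) (Node.mv (nat_lit 0x5000007000004000002) (nat_lit 0x5000002000000000003000000) (nat_lit 25) (nat_lit 1) (nat_lit 0x1044018000000444019))) (Tree.tip (nat_lit 2793) (Node.img (nat_lit 0x2000003000002000001000000) (nat_lit 0x1000001000000000000000002000003) (nat_lit 104) (nat_lit 4) (nat_lit 128) (nat_lit 128)))) (Tree.br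 (nat_lit 2795) (Tree.tip (nat_lit 2794) (Node.mv (nat_lit 0x5000007000004000000000000) (nat_lit 0x7000002000000000003000006000006) (nat_lit 25) (nat_lit 2) (nat_lit 0xae9401900000ae84118000002da4018))) (Tree.tip (nat_lit 2795) (Node.img (nat_lit 0x4000004000005000006000000) (nat_lit 0x4000000000000000002000018000008) (nat_lit 1102) (nat_lit 3) (nat_lit 132) (nat_lit 133))))) (Tree.br (nat_lit 2798) (Tree.br (nat_lit 2797) (Tree.tip (nat_lit 2796) (Node.mv (nat_lit 0x4000005000006000000000000) (nat_lit 0x200000600000600000200000200001800000c000008) (nat_lit 122) (nat_lit 2) (nat_lit 0xaeb4118000000114019000001a64219))) (Tree.tip (nat_lit 2797) (Node.mv (nat_lit 0x800000a00000c000000000000000000) (nat_lit 0x1800001400000500000000000c00000c000008) (nat_lit 51) (nat_lit 1) (nat_lit 0x24840180000003a411a)))) (Tree.br (nat_lit 2799) (Tree.tip (nat_lit 2798) (Node.img (nat_lit 0x4000005000007000000000000000000) (nat_lit 0x4000000000000000000000006000002000002) (nat_lit 426) (nat_lit 5) (nat_lit 128) (nat_lit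 134))) (Tree.tip (nat_lit 2799) (Node.mv (nat_lit 0xa00000e000000000000000000) (nat_lit 0x800000800007000001100000c000004000004) (nat_lit 123) (nat_lit 1) (nat_lit 0xaee40190000001a4318))))))) (Tree.br (nat_lit 2808) (Tree.br (nat_lit 2804) (Tree.br (nat_lit 2802) (Tree.br (nat_lit 2801) (Tree.tip (nat_lit 2800) (Node.mv (nat_lit 0xa00000e000004000000000000) (nat_lit 0x8000008000031000010000008000004000004) (nat_lit 100) (nat_lit 1) (nat_lit 0x5484019000002764318))) (Tree.tip (nat_lit 2801) (Node.mv (nat_lit 0x1400001c000000000000) (nat_lit 0x800000f00006b000060000016000014) (nat_lit 75) (nat_lit 2) (nat_lit 0xad44019000003af4218000000264219)))) (Tree.br (nat_lit 2803) (Tree.tip (nat_lit 2802) (Node.img (nat_lit 0x40000038000000) (nat_lit 0x27000006000070) (nat_lit 271) (nat_lit 7) (nat_lit 134) (nat_lit 130))) (Tree.tip (nat_lit 2803) (Node.mv (nat_lit 0x50000070000000000000000000) (nat_lit 0x1000001000002700000e00007e000008000008) (nat_lit 75) (nat_lit 2) (nat_lit 0x392401a00000af24218000000574219)))))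 (Tree.br (nat_lit 2806) (Tree.br (nat_lit 2805) (Tree.tip (nat_lit 2804) (Node.mv (nat_lit 0x200000f000000000000000000) (nat_lit 0x2000002000001000010000003000001000001) (nat_lit 48) (nat_lit 2) (nat_lit 0x40b40180000040d4018000004104218))) (Tree.tip (nat_lit 2805) (Node.mv (nat_lit 0x50000070000000000000000000) (nat_lit 0x1000001000002800008e00007f000008000008) (nat_lit 75) (nat_lit 2) (nat_lit 0x2c5421800000af4401b000000574219)))) (Tree.br (nat_lit 2807) (Tree.tip (nat_lit 2806) (Node.mv (nat_lit 0x1400000e000000000000000000) (nat_lit 0x400000400000800000100001c000008000008) (nat_lit 51) (nat_lit 1) (nat_lit 0x234401a000008574218))) (Tree.tip (nat_lit 2807) (Node.img (nat_lit 0xe00000c000004000000) (nat_lit 0x6000007000030000000000008000008) (nat_lit 1559) (nat_lit 6) (nat_lit 133) (nat_lit 128)))))) (Tree.br (nat_lit 2812) (Tree.br (nat_lit 2810) (Tree.br (nat_lit 2809) (Tree.tip (nat_lit 2808) (Node.mv (nat_lit 0xe00000c000000000000000000) (nat_lit 0x600000f00003000000000000c00000c000004) (nat_lit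 50) (nat_lit 1) (nat_lit 0xaf7411800000046401a))) (Tree.tip (nat_lit 2809) (Node.mv (nat_lit 0xe00000c000004) (nat_lit 0xc00000e00000f000030000003000000) (nat_lit 74) (nat_lit 1) (nat_lit 0x6a240180000039d401a)))) (Tree.br (nat_lit 2811) (Tree.tip (nat_lit 2810) (Node.mv (nat_lit 0xc00000d000000000000) (nat_lit 0x4000006000070000002000008000008) (nat_lit 98) (nat_lit 1) (nat_lit 0x30f4218000000b7401a))) (Tree.tip (nat_lit 2811) (Node.mv (nat_lit 0x1c000018000000000000) (nat_lit 0x800000c0000e3000007000010000010) (nat_lit 49) (nat_lit 2) (nat_lit 0x3d4421800000afa40190000004c4218))))) (Tree.br (nat_lit 2814) (Tree.br (nat_lit 2813) (Tree.tip (nat_lit 2812) (Node.img (nat_lit 0xe00000c000004) (nat_lit 0x2000073000070000003000000) (nat_lit 1437) (nat_lit 1) (nat_lit 134) (nat_lit 128))) (Tree.tip (nat_lit 2813) (Node.mv (nat_lit 0xe00000c000000000000000000) (nat_lit 0x200007b000070000003000004000004000004) (nat_lit 50) (nat_lit 1) (nat_lit 0xafc421800000046401a)))) (Tree.br (nat_lit 2815) (Tree.tip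 (nat_lit 2814) (Node.img (nat_lit 0x2000003000003000002000000000000) (nat_lit 0x4000004000004000000000000000002000002) (nat_lit 149) (nat_lit 1) (nat_lit 130) (nat_lit 128))) (Tree.tip (nat_lit 2815) (Node.mv (nat_lit 0x800000c00000c000000000000000000) (nat_lit 0x14000034000013000000000008000008000008) (nat_lit 51) (nat_lit 2) (nat_lit 0xafe401a00000a9e42180000002e401a))))))))))
noncomputable def t0_22 : Tree := (Tree.br (nat_lit 2880) (Tree.br (nat_lit 2848) (Tree.br (nat_lit 2832) (Tree.br (nat_lit 2824) (Tree.br (nat_lit 2820) (Tree.br (nat_lit 2818) (Tree.br (nat_lit 2817) (Tree.tip (nat_lit 2816) (Node.mv (nat_lit 0x7000014) (nat_lit 42) (nat_lit 3) (nat_lit 1) (nat_lit 0x2540190000036a4018))) (Tree.tip (nat_lit 2817) (Node.mv (nat_lit 0x800001a000008000000000000) (nat_lit 0x10000030000005000000000008000008) (nat_lit 100) (nat_lit 1) (nat_lit 0x372431800000046401b)))) (Tree.br (nat_lit 2819) (Tree.tip (nat_lit 2818) (Node.mv (nat_lit 0xc00000a000008000008) (nat_lit 0x10000012000005000000000000)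 (nat_lit 76) (nat_lit 1) (nat_lit 0x4c421800000031401b))) (Tree.tip (nat_lit 2819) (Node.mv (nat_lit 0x800000a000008000008) (nat_lit 0x14000016000005000000000000) (nat_lit 74) (nat_lit 1) (nat_lit 0xb0240180000000e401a))))) (Tree.br (nat_lit 2822) (Tree.br (nat_lit 2821) (Tree.tip (nat_lit 2820) (Node.mv (nat_lit 0xc00000a000008000008000000) (nat_lit 0x10000010000005000000000000000008) (nat_lit 74) (nat_lit 1) (nat_lit 0x247411800000008401a))) (Tree.tip (nat_lit 2821) (Node.mv (nat_lit 0x800001e000008000000000000) (nat_lit 0x4000007000020000000000008000008) (nat_lit 98) (nat_lit 1) (nat_lit 0xc743180000002e401a)))) (Tree.br (nat_lit 2823) (Tree.tip (nat_lit 2822) (Node.mv (nat_lit 0x8000018000008000008000000) (nat_lit 0x4000006000064000017000000000008) (nat_lit 77) (nat_lit 2) (nat_lit 0x44740190000017842180000039f411a))) (Tree.tip (nat_lit 2823) (Node.mv (nat_lit 0x8000018000008000008) (nat_lit 0x14000016000060000017000000) (nat_lit 53) (nat_lit 2) (nat_lit 0x34540190000017841180000039f401a))))))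 (Tree.br (nat_lit 2828) (Tree.br (nat_lit 2826) (Tree.br (nat_lit 2825) (Tree.tip (nat_lit 2824) (Node.mv (nat_lit 0x8000018000008000000000000) (nat_lit 0x14000016000064000017000008000008) (nat_lit 27) (nat_lit 2) (nat_lit 0xb07411800000b06401800000099401b))) (Tree.tip (nat_lit 2825) (Node.mv (nat_lit 0x2000002000003000000000002000000) (nat_lit 0x1000001000000000006000004000006) (nat_lit 49) (nat_lit 1) (nat_lit 0x440190000000f4018)))) (Tree.br (nat_lit 2827) (Tree.tip (nat_lit 2826) (Node.mv (nat_lit 0x800000800000a000008000000) (nat_lit 0x1800001000001000000500000400000c) (nat_lit 50) (nat_lit 1) (nat_lit 0xa4e40180000003a401a))) (Tree.tip (nat_lit 2827) (Node.mv (nat_lit 0x2000000000002000006000002) (nat_lit 0x1000001000003000000000000000004) (nat_lit 73) (nat_lit 1) (nat_lit 0x104018000000394019))))) (Tree.br (nat_lit 2830) (Tree.br (nat_lit 2829) (Tree.tip (nat_lit 2828) (Node.img (nat_lit 0x800001e000000000000000000) (nat_lit 0x8000008000004000020000007000004000004) (nat_lit 489) (nat_lit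 5) (nat_lit 128) (nat_lit 134))) (Tree.tip (nat_lit 2829) (Node.mv (nat_lit 0x800001c000000000000000000) (nat_lit 0x8000008000034000023000007000004000004) (nat_lit 73) (nat_lit 1) (nat_lit 0xb0c4018000000524318)))) (Tree.br (nat_lit 2831) (Tree.tip (nat_lit 2830) (Node.img (nat_lit 0x400001e000000000000) (nat_lit 0x400000400000400000300000000000b000002) (nat_lit 297) (nat_lit 3) (nat_lit 132) (nat_lit 134))) (Tree.tip (nat_lit 2831) (Node.mv (nat_lit 0x400000e000000000000) (nat_lit 0x400000400000400007300003000007b000002) (nat_lit 52) (nat_lit 2) (nat_lit 0xb0e40180000007c4119000000c74218))))))) (Tree.br (nat_lit 2840) (Tree.br (nat_lit 2836) (Tree.br (nat_lit 2834) (Tree.br (nat_lit 2833) (Tree.tip (nat_lit 2832) (Node.mv (nat_lit 0x800001c000000) (nat_lit 0x37000023000070) (nat_lit 25) (nat_lit 1) (nat_lit 0xdc4018000000524118))) (Tree.tip (nat_lit 2833) (Node.img (nat_lit 0x10000038000000000000000000) (nat_lit 0x10000067000006000067000020000020) (nat_lit 2740) (nat_lit 1) (nat_lit 134) (nat_lit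 128)))) (Tree.br (nat_lit 2835) (Tree.tip (nat_lit 2834) (Node.mv (nat_lit 0x10000018000000000000000000) (nat_lit 0x100000100000100001ef0000e60001ef000028000028) (nat_lit 77) (nat_lit 4) (nat_lit 0xb0f411a00000b11401800000b10421900000b0d4019000001be4219))) (Tree.tip (nat_lit 2835) (Node.mv (nat_lit 0x800001400001c000000000000) (nat_lit 0x8000000000028000003000004000004) (nat_lit 75) (nat_lit 1) (nat_lit 0x89421800000037401a))))) (Tree.br (nat_lit 2838) (Tree.br (nat_lit 2837) (Tree.tip (nat_lit 2836) (Node.mv (nat_lit 0x400000200000e000000000000) (nat_lit 0x4000000000005000030000002000002) (nat_lit 74) (nat_lit 1) (nat_lit 0x264218000000374019))) (Tree.tip (nat_lit 2837) (Node.img (nat_lit 0xa000018) (nat_lit 0x5000064) (nat_lit 188) (nat_lit 1) (nat_lit 134) (nat_lit 128)))) (Tree.br (nat_lit 2839) (Tree.tip (nat_lit 2838) (Node.img (nat_lit 0x8000018000008000000) (nat_lit 0x8000008000000000064000017000014) (nat_lit 2629) (nat_lit 4) (nat_lit 128) (nat_lit 128))) (Tree.tip (nat_lit 2839) (Node.mv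 (nat_lit 0x8000018000008000000000000) (nat_lit 0x800000c00000700006400001700001c000014) (nat_lit 97) (nat_lit 2) (nat_lit 0xb164118000004c2401800000b154318)))))) (Tree.br (nat_lit 2844) (Tree.br (nat_lit 2842) (Tree.br (nat_lit 2841) (Tree.tip (nat_lit 2840) (Node.mv (nat_lit 0x1400000c000004000000000000) (nat_lit 0x8000028000003000000000004000004) (nat_lit 99) (nat_lit 1) (nat_lit 0x23431800000046401a))) (Tree.tip (nat_lit 2841) (Node.mv (nat_lit 0x2000006000003000002000000000000) (nat_lit 0x1000004000004000006000006) (nat_lit 25) (nat_lit 1) (nat_lit 0x44019000001e54018)))) (Tree.br (nat_lit 2843) (Tree.tip (nat_lit 2842) (Node.mv (nat_lit 0x2000006000002000002000000000000) (nat_lit 0x2000000000001000005000005000007000006) (nat_lit 72) (nat_lit 1) (nat_lit 0xb1940180000003a4118))) (Tree.tip (nat_lit 2843) (Node.img (nat_lit 0x2000002000002000002000000) (nat_lit 0x6000004000000000005000005000005) (nat_lit 155) (nat_lit 1) (nat_lit 130) (nat_lit 128))))) (Tree.br (nat_lit 2846) (Tree.br (nat_lit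 2845) (Tree.tip (nat_lit 2844) (Node.mv (nat_lit 0x2000006000002000000000000000000) (nat_lit 0x6000004000001000005000007000007000006) (nat_lit 49) (nat_lit 2) (nat_lit 0xb1b411800000b1a4018000000994119))) (Tree.tip (nat_lit 2845) (Node.img (nat_lit 0x2000002000002000002000000000000) (nat_lit 0x2000001000001000001000005000007000006) (nat_lit 2053) (nat_lit 4) (nat_lit 128) (nat_lit 128)))) (Tree.br (nat_lit 2847) (Tree.tip (nat_lit 2846) (Node.img (nat_lit 0x2000002000002000002000000) (nat_lit 0x1000007000005000000000001000001000001) (nat_lit 416) (nat_lit 3) (nat_lit 130) (nat_lit 134))) (Tree.tip (nat_lit 2847) (Node.mv (nat_lit 0x2000006000002000000000000000000) (nat_lit 0x1000007000005000001000001000007000007000006) (nat_lit 49) (nat_lit 2) (nat_lit 0xb1e411800000b1d4018000000994119)))))))) (Tree.br (nat_lit 2864) (Tree.br (nat_lit 2856) (Tree.br (nat_lit 2852) (Tree.br (nat_lit 2850) (Tree.br (nat_lit 2849) (Tree.tip (nat_lit 2848) (Node.mv (nat_lit 0x2000006000002000000000000000000) (nat_lit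 0x1000007000005000000000004000007000007000003) (nat_lit 49) (nat_lit 2) (nat_lit 0x914118000000934018000000994119))) (Tree.tip (nat_lit 2849) (Node.mv (nat_lit 0x8000008000018000008000000) (nat_lit 0x400000c000004000017000064000004000004) (nat_lit 74) (nat_lit 2) (nat_lit 0xb34218000000ea401a000001e84218)))) (Tree.br (nat_lit 2851) (Tree.tip (nat_lit 2850) (Node.img (nat_lit 0x400000400000c000004000000) (nat_lit 0x200007000000b00000a) (nat_lit 297) (nat_lit 7) (nat_lit 134) (nat_lit 132))) (Tree.tip (nat_lit 2851) (Node.mv (nat_lit 0x8000018000008000000) (nat_lit 0x400000c00000c0000170000e4000016000014) (nat_lit 99) (nat_lit 2) (nat_lit 0xb22401900000b2140180000008d401b))))) (Tree.br (nat_lit 2854) (Tree.br (nat_lit 2853) (Tree.tip (nat_lit 2852) (Node.mv (nat_lit 0x8000018000000000000000000000000) (nat_lit 0x400000c00001c0000170000e400001f00001c00001c00001c) (nat_lit 75) (nat_lit 5) (nat_lit 0xb23421800000b1f401a00000b20401a00000b17411800000b08411800000b1c401a))) (Tree.tip (nat_lit 2853) (Node.img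 (nat_lit 0x200001a000002000002) (nat_lit 0x1000001000004000000000000) (nat_lit 587) (nat_lit 5) (nat_lit 128) (nat_lit 132)))) (Tree.br (nat_lit 2855) (Tree.tip (nat_lit 2854) (Node.mv (nat_lit 0x2000012000002000002000000000000) (nat_lit 0x100000100000c000000000005000007000005) (nat_lit 99) (nat_lit 1) (nat_lit 0x5401800000b254218))) (Tree.tip (nat_lit 2855) (Node.img (nat_lit 0xb000007) (nat_lit 0x10000018) (nat_lit 66) (nat_lit 6) (nat_lit 132) (nat_lit 128)))))) (Tree.br (nat_lit 2860) (Tree.br (nat_lit 2858) (Tree.br (nat_lit 2857) (Tree.tip (nat_lit 2856) (Node.mv (nat_lit 0x9000007000001000000000000) (nat_lit 0x2000012000018000000000001000001) (nat_lit 97) (nat_lit 1) (nat_lit 0xb274318000000464018))) (Tree.tip (nat_lit 2857) (Node.img (nat_lit 0x8000007000003) (nat_lit 0x10000018000000) (nat_lit 240) (nat_lit 1) (nat_lit 132) (nat_lit 128)))) (Tree.br (nat_lit 2859) (Tree.tip (nat_lit 2858) (Node.mv (nat_lit 0x1000009000007000001000000) (nat_lit 0x10000018000002000002) (nat_lit 25) (nat_lit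 1) (nat_lit 0xb294118000000394018))) (Tree.tip (nat_lit 2859) (Node.mv (nat_lit 0x1000009000003000001000000000000) (nat_lit 0x200001200001c000002000003000003) (nat_lit 74) (nat_lit 2) (nat_lit 0xb28401800000195401800000b2a4118))))) (Tree.br (nat_lit 2862) (Tree.br (nat_lit 2861) (Tree.tip (nat_lit 2860) (Node.img (nat_lit 0x200001a000002000002) (nat_lit 0x500000d000000000000000000) (nat_lit 768) (nat_lit 4) (nat_lit 128) (nat_lit 128))) (Tree.tip (nat_lit 2861) (Node.mv (nat_lit 0x200001a000002000002) (nat_lit 0x500000d00006000001d000000) (nat_lit 27) (nat_lit 1) (nat_lit 0xb2c4018000001ad4118)))) (Tree.br (nat_lit 2863) (Tree.tip (nat_lit 2862) (Node.mv (nat_lit 0x300000d000001000001000000) (nat_lit 0x12000000000000000001) (nat_lit 73) (nat_lit 1) (nat_lit 0x254318000000414018))) (Tree.tip (nat_lit 2863) (Node.mv (nat_lit 0x100000d000001000001000000) (nat_lit 0x2000002000012000000000000000001) (nat_lit 97) (nat_lit 1) (nat_lit 0xb2e4018000000314118))))))) (Tree.br (nat_lit 2872) (Tree.br (nat_lit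 2868) (Tree.br (nat_lit 2866) (Tree.br (nat_lit 2865) (Tree.tip (nat_lit 2864) (Node.mv (nat_lit 0x200001a000002000002000000) (nat_lit 0x400000400006400001d000000000002) (nat_lit 51) (nat_lit 2) (nat_lit 0x1ad421800000b2f4019000006a74218))) (Tree.tip (nat_lit 2865) (Node.mv (nat_lit 0x2000012000002000002000000) (nat_lit 0x500000d00006c00001d000000000002) (nat_lit 75) (nat_lit 2) (nat_lit 0xb2d411800000b30401800000b254118)))) (Tree.br (nat_lit 2867) (Tree.tip (nat_lit 2866) (Node.img (nat_lit 0x200001a00000a000002000000) (nat_lit 0x15000001000001) (nat_lit 1488) (nat_lit 5) (nat_lit 128) (nat_lit 132))) (Tree.tip (nat_lit 2867) (Node.mv (nat_lit 0x200001a000002000002000000) (nat_lit 0x500000d00000000001d000001000001) (nat_lit 51) (nat_lit 1) (nat_lit 0xb32401800000b2c4118))))) (Tree.br (nat_lit 2870) (Tree.br (nat_lit 2869) (Tree.tip (nat_lit 2868) (Node.mv (nat_lit 0x200001a00000a000002000000) (nat_lit 0x64000014000001000001) (nat_lit 50) (nat_lit 2) (nat_lit 0x1b44219000002a14018000000154219)))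 (Tree.tip (nat_lit 2869) (Node.img (nat_lit 0x200001a000002000002) (nat_lit 0x4000004000024000001000000) (nat_lit 2333) (nat_lit 5) (nat_lit 128) (nat_lit 132)))) (Tree.br (nat_lit 2871) (Tree.tip (nat_lit 2870) (Node.mv (nat_lit 0x200001a000002000002000000) (nat_lit 0x400000400006400001d000001000001) (nat_lit 51) (nat_lit 3) (nat_lit 0xb34401800000b32401800000b354118000006a74218))) (Tree.tip (nat_lit 2871) (Node.mv (nat_lit 0x2000012000002000002000000) (nat_lit 0x500000d00006c00001d000001000001) (nat_lit 75) (nat_lit 2) (nat_lit 0xb33401800000b36401800000b254118)))))) (Tree.br (nat_lit 2876) (Tree.br (nat_lit 2874) (Tree.br (nat_lit 2873) (Tree.tip (nat_lit 2872) (Node.mv (nat_lit 0x2000012000002000002000000000000) (nat_lit 0x500000d00006800001d000005000007000005) (nat_lit 99) (nat_lit 1) (nat_lit 0xb2d4218000000054018))) (Tree.tip (nat_lit 2873) (Node.mv (nat_lit 0x400002400000c000004000000) (nat_lit 0x4000007000000b00000a) (nat_lit 52) (nat_lit 2) (nat_lit 0x56c401800000b2a401a000002a14019))))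 (Tree.br (nat_lit 2875) (Tree.tip (nat_lit 2874) (Node.img (nat_lit 0x2000002000006000002000000000000) (nat_lit 0x4000004000000000001000003000003) (nat_lit 106) (nat_lit 6) (nat_lit 130) (nat_lit 128))) (Tree.tip (nat_lit 2875) (Node.mv (nat_lit 0x4000024000004000004000000000000) (nat_lit 0x800004800007800000b00000e00000e) (nat_lit 75) (nat_lit 2) (nat_lit 0xb2b401a00000b39411800000b3a4019))))) (Tree.br (nat_lit 2878) (Tree.br (nat_lit 2877) (Tree.tip (nat_lit 2876) (Node.mv (nat_lit 0x4000004000004000004000000000000) (nat_lit 0xa00001a0000f800007a00000b00000e00000e) (nat_lit 101) (nat_lit 4) (nat_lit 0xb38401900000b37411900000b3b401800000b31411900000b264019))) (Tree.tip (nat_lit 2877) (Node.img (nat_lit 0x3000006000002000000000000) (nat_lit 0x1000004000001000000000002000002) (nat_lit 517) (nat_lit 4) (nat_lit 128) (nat_lit 128)))) (Tree.br (nat_lit 2879) (Tree.tip (nat_lit 2878) (Node.mv (nat_lit 0x8000018000008000000000000) (nat_lit 0x4000017000064000000000008000008) (nat_lit 98) (nat_lit 2) (nat_lit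 0xb3431800000b3d401a000001e84318))) (Tree.tip (nat_lit 2879) (Node.mv (nat_lit 0x2000000000002000006000002000000) (nat_lit 0x2000000000001000005000001) (nat_lit 97) (nat_lit 1) (nat_lit 0x34018000000394119))))))))) (Tree.br (nat_lit 2912) (Tree.br (nat_lit 2896) (Tree.br (nat_lit 2888) (Tree.br (nat_lit 2884) (Tree.br (nat_lit 2882) (Tree.br (nat_lit 2881) (Tree.tip (nat_lit 2880) (Node.img (nat_lit 0x200000e000002) (nat_lit 0x4000030000005) (nat_lit 94) (nat_lit 7) (nat_lit 133) (nat_lit 130))) (Tree.tip (nat_lit 2881) (Node.img (nat_lit 0x1000003000001000002000000) (nat_lit 0x2000002000000000000000001000003) (nat_lit 104) (nat_lit 6) (nat_lit 129) (nat_lit 128)))) (Tree.br (nat_lit 2883) (Tree.tip (nat_lit 2882) (Node.mv (nat_lit 0x200000e000002000000000000) (nat_lit 0x4000004000030000005000006000006) (nat_lit 26) (nat_lit 2) (nat_lit 0xb41401900000b404218000004c04019))) (Tree.tip (nat_lit 2883) (Node.mv (nat_lit 0x400001c000004000000000000) (nat_lit 0xa00000b000002000000000004000004) (nat_lit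 26) (nat_lit 2) (nat_lit 0x345411800000447401800000099401a))))) (Tree.br (nat_lit 2886) (Tree.br (nat_lit 2885) (Tree.tip (nat_lit 2884) (Node.mv (nat_lit 0x400000c000004000000000000) (nat_lit 0xa00000b00007200000a00000c00000c) (nat_lit 76) (nat_lit 2) (nat_lit 0xb42401900000b4340180000045c4219))) (Tree.tip (nat_lit 2885) (Node.img (nat_lit 0x400000400000f000000000000000000) (nat_lit 0x8000000000018000008000008) (nat_lit 109) (nat_lit 3) (nat_lit 132) (nat_lit 133)))) (Tree.br (nat_lit 2887) (Tree.tip (nat_lit 2886) (Node.mv (nat_lit 0x10000010000038000000000000000000) (nat_lit 0x27000006000067000020000020) (nat_lit 74) (nat_lit 2) (nat_lit 0xdb421800000b45401a000006d54218))) (Tree.tip (nat_lit 2887) (Node.img (nat_lit 0x800000800000800001e) (nat_lit 0x8000000000000000010000001) (nat_lit 530) (nat_lit 2) (nat_lit 128) (nat_lit 132)))))) (Tree.br (nat_lit 2892) (Tree.br (nat_lit 2890) (Tree.br (nat_lit 2889) (Tree.tip (nat_lit 2888) (Node.mv (nat_lit 0x800000800001e000000) (nat_lit 0x8000008000000000010000001000004)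 (nat_lit 99) (nat_lit 1) (nat_lit 0xb47411800000001401a))) (Tree.tip (nat_lit 2889) (Node.mv (nat_lit 0x2000000000003000006000002000000) (nat_lit 0x1000003000000000000000004000002) (nat_lit 97) (nat_lit 1) (nat_lit 0xf4018000000394119)))) (Tree.br (nat_lit 2891) (Tree.tip (nat_lit 2890) (Node.mv (nat_lit 0x8000000000008000018000008000000) (nat_lit 0x400000c000017000060000010000008) (nat_lit 74) (nat_lit 1) (nat_lit 0xb49401a000000b34218))) (Tree.tip (nat_lit 2891) (Node.mv (nat_lit 0x8000018000008000000000000) (nat_lit 0xc00000c00001700006400001400000c000008) (nat_lit 147) (nat_lit 2) (nat_lit 0xb4a411800000b3e401800000b3f411a))))) (Tree.br (nat_lit 2894) (Tree.br (nat_lit 2893) (Tree.tip (nat_lit 2892) (Node.img (nat_lit 0x1000000000001000003000001) (nat_lit 0x2000002000003000000000000000002) (nat_lit 455) (nat_lit 7) (nat_lit 129) (nat_lit 133))) (Tree.tip (nat_lit 2893) (Node.mv (nat_lit 0x8000018000008000000000000) (nat_lit 0x1400001c00001c000017000064000010000008000008) (nat_lit 147) (nat_lit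 2) (nat_lit 0xb4c421b00000b3e401800000b0b421a)))) (Tree.br (nat_lit 2895) (Tree.tip (nat_lit 2894) (Node.img (nat_lit 0x2000000000002000002000002000000) (nat_lit 0x4000004000006000000000001000001000001) (nat_lit 493) (nat_lit 6) (nat_lit 130) (nat_lit 128))) (Tree.tip (nat_lit 2895) (Node.mv (nat_lit 0x8000000000008000018000008000000) (nat_lit 0x10000010000018000017000064000004000004) (nat_lit 74) (nat_lit 2) (nat_lit 0xb3421800000b4e401a000001e84218))))))) (Tree.br (nat_lit 2904) (Tree.br (nat_lit 2900) (Tree.br (nat_lit 2898) (Tree.br (nat_lit 2897) (Tree.tip (nat_lit 2896) (Node.img (nat_lit 0x2000000000002000002000002000000) (nat_lit 0x1000001000003000000000001000001000001) (nat_lit 299) (nat_lit 6) (nat_lit 129) (nat_lit 128))) (Tree.tip (nat_lit 2897) (Node.mv (nat_lit 0x8000018000008000000000000) (nat_lit 0x1400001c00001c00001700006400000400000c000008) (nat_lit 147) (nat_lit 3) (nat_lit 0xb4f41180000061e421a00000b3e401800000b50411a)))) (Tree.br (nat_lit 2899) (Tree.tip (nat_lit 2898) (Node.mv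 (nat_lit 0x2000002000006000002000000000000) (nat_lit 0x4000004000000000005000007000006) (nat_lit 48) (nat_lit 1) (nat_lit 0x1954019000000014118))) (Tree.tip (nat_lit 2899) (Node.mv (nat_lit 0x2000006000002000000000000) (nat_lit 0x4000006000006000004000001000005000007000006) (nat_lit 121) (nat_lit 2) (nat_lit 0xb5240180000017241180000008d4119))))) (Tree.br (nat_lit 2902) (Tree.br (nat_lit 2901) (Tree.tip (nat_lit 2900) (Node.img (nat_lit 0x1000003c000000) (nat_lit 0x80000c30000e7) (nat_lit 563) (nat_lit 3) (nat_lit 135) (nat_lit 130))) (Tree.tip (nat_lit 2901) (Node.mv (nat_lit 0x10000038000000) (nat_lit 0xf0000c70000ef) (nat_lit 26) (nat_lit 3) (nat_lit 0xb544018000000db4018000000dc4019000000584019)))) (Tree.br (nat_lit 2903) (Tree.tip (nat_lit 2902) (Node.mv (nat_lit 0x800001e000008000000000000) (nat_lit 0x10000010000001000000000008000008) (nat_lit 100) (nat_lit 1) (nat_lit 0x46401b000000164318))) (Tree.tip (nat_lit 2903) (Node.img (nat_lit 0x300000c000006) (nat_lit 0x32000000) (nat_lit 890) (nat_lit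 5) (nat_lit 128) (nat_lit 130)))))) (Tree.br (nat_lit 2908) (Tree.br (nat_lit 2906) (Tree.br (nat_lit 2905) (Tree.tip (nat_lit 2904) (Node.mv (nat_lit 0xe00000800000c) (nat_lit 0x1000074000000) (nat_lit 28) (nat_lit 1) (nat_lit 0xb574019000000274118))) (Tree.tip (nat_lit 2905) (Node.img (nat_lit 0xf000008000008000000) (nat_lit 0x38000010000000000000000008) (nat_lit 277) (nat_lit 7) (nat_lit 133) (nat_lit 132)))) (Tree.br (nat_lit 2907) (Tree.tip (nat_lit 2906) (Node.mv (nat_lit 0x38000020000020000000) (nat_lit 0xe0000046000017000000000020) (nat_lit 74) (nat_lit 1) (nat_lit 0xb59401a0000026a4218))) (Tree.tip (nat_lit 2907) (Node.img (nat_lit 0x3000002000002000001000000) (nat_lit 0x1000000000000000000000002000001) (nat_lit 186) (nat_lit 3) (nat_lit 129) (nat_lit 133))))) (Tree.br (nat_lit 2910) (Tree.br (nat_lit 2909) (Tree.tip (nat_lit 2908) (Node.mv (nat_lit 0x2000003000002000000000001000000) (nat_lit 0x1000000000000000003000002000001) (nat_lit 49) (nat_lit 1) (nat_lit 0xb5b4018000000024118))) (Tree.tip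 (nat_lit 2909) (Node.mv (nat_lit 0x1c000018000010000010) (nat_lit 0x20000023000007000000000000) (nat_lit 49) (nat_lit 1) (nat_lit 0x3d442180000028c4019)))) (Tree.br (nat_lit 2911) (Tree.tip (nat_lit 2910) (Node.img (nat_lit 0x800000c00000e000008000000) (nat_lit 0x3000030000030000010) (nat_lit 869) (nat_lit 2) (nat_lit 128) (nat_lit 132))) (Tree.tip (nat_lit 2911) (Node.mv (nat_lit 0x10000018000018000010000000) (nat_lit 0x26000067000060000020) (nat_lit 50) (nat_lit 1) (nat_lit 0xb5e4019000000894218)))))))) (Tree.br (nat_lit 2928) (Tree.br (nat_lit 2920) (Tree.br (nat_lit 2916) (Tree.br (nat_lit 2914) (Tree.br (nat_lit 2913) (Tree.tip (nat_lit 2912) (Node.img (nat_lit 0x300000a000002000002000000) (nat_lit 0x4000015000000000000000002) (nat_lit 1469) (nat_lit 6) (nat_lit 132) (nat_lit 128))) (Tree.tip (nat_lit 2913) (Node.mv (nat_lit 0x200000a000002000002000000) (nat_lit 0x1000005000015000000000000000002) (nat_lit 96) (nat_lit 1) (nat_lit 0xb6040180000000e4118)))) (Tree.br (nat_lit 2915) (Tree.tip (nat_lit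 2914) (Node.mv (nat_lit 0x400000400000400000e000000000000000000) (nat_lit 0x800000800000a000003000030000004000004000004) (nat_lit 50) (nat_lit 1) (nat_lit 0x2f4018000001ee421a))) (Tree.tip (nat_lit 2915) (Node.mv (nat_lit 0x4000004000004000006000000000000000000) (nat_lit 0x800000800000a00000300003800000c000004000004) (nat_lit 75) (nat_lit 1) (nat_lit 0xb62401800000039421a))))) (Tree.br (nat_lit 2918) (Tree.br (nat_lit 2917) (Tree.tip (nat_lit 2916) (Node.mv (nat_lit 0x4000004000004000004000000000000000000) (nat_lit 0x800000800000a00000300003a00000e000004000004) (nat_lit 73) (nat_lit 1) (nat_lit 0xb634018000000014219))) (Tree.tip (nat_lit 2917) (Node.img (nat_lit 0x2000002000002000002000000000000) (nat_lit 0x5000005000004000000000004000006000004) (nat_lit 157) (nat_lit 2) (nat_lit 128) (nat_lit 134)))) (Tree.br (nat_lit 2919) (Tree.tip (nat_lit 2918) (Node.mv (nat_lit 0x2000002000002000002000000000000) (nat_lit 0x5000005000004000000000005000007000004) (nat_lit 48) (nat_lit 1) (nat_lit 0xb654018000000014118)))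 (Tree.tip (nat_lit 2919) (Node.img (nat_lit 0x6000014000004000004) (nat_lit 0x8000009000028000000000000) (nat_lit 573) (nat_lit 3) (nat_lit 133) (nat_lit 132)))))) (Tree.br (nat_lit 2924) (Tree.br (nat_lit 2922) (Tree.br (nat_lit 2921) (Tree.tip (nat_lit 2920) (Node.mv (nat_lit 0x6000014000004000004000000) (nat_lit 0x8000009000028000000000008000008) (nat_lit 27) (nat_lit 1) (nat_lit 0xb67411800000039401a))) (Tree.tip (nat_lit 2921) (Node.mv (nat_lit 0x4000014000004000004000000) (nat_lit 0xa00000b000028000000000008000008) (nat_lit 97) (nat_lit 1) (nat_lit 0xb6840180000000e4119)))) (Tree.br (nat_lit 2923) (Tree.tip (nat_lit 2922) (Node.img (nat_lit 0x38000008000018) (nat_lit 0x40000017000000) (nat_lit 2904) (nat_lit 1) (nat_lit 134) (nat_lit 128))) (Tree.tip (nat_lit 2923) (Node.mv (nat_lit 0x8000028000008000018000000) (nat_lit 0x10000010000050000017000000000008) (nat_lit 76) (nat_lit 1) (nat_lit 0xb6a411800000099401b))))) (Tree.br (nat_lit 2926) (Tree.br (nat_lit 2925) (Tree.tip (nat_lit 2924) (Node.mv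 (nat_lit 0x8000028000008000008000000) (nat_lit 0x10000010000050000017000010000018) (nat_lit 28) (nat_lit 1) (nat_lit 0xb6b401800000039401b))) (Tree.tip (nat_lit 2925) (Node.mv (nat_lit 0x8000008000008000008000000000000) (nat_lit 0x14000016000074000017000010000018000010) (nat_lit 101) (nat_lit 3) (nat_lit 0xb69411900000b61411a00000b6c411800000011401a)))) (Tree.br (nat_lit 2927) (Tree.tip (nat_lit 2926) (Node.img (nat_lit 0x8000028000008000008000000) (nat_lit 0x10000010000050000017000000000008) (nat_lit 2606) (nat_lit 1) (nat_lit 134) (nat_lit 128))) (Tree.tip (nat_lit 2927) (Node.img (nat_lit 0x4000014000004000004) (nat_lit 0xa00000b000028000000000000) (nat_lit 1409) (nat_lit 5) (nat_lit 128) (nat_lit 132))))))) (Tree.br (nat_lit 2936) (Tree.br (nat_lit 2932) (Tree.br (nat_lit 2930) (Tree.br (nat_lit 2929) (Tree.tip (nat_lit 2928) (Node.mv (nat_lit 0x8000008000008000008000000000000) (nat_lit 0x1400001600007400001700000400000c000004) (nat_lit 101) (nat_lit 2) (nat_lit 0xb6f421900000b6e411800000012401a)))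 (Tree.tip (nat_lit 2929) (Node.img (nat_lit 0x400000400000c00000c000000) (nat_lit 0x2000070000003000002) (nat_lit 296) (nat_lit 7) (nat_lit 134) (nat_lit 132)))) (Tree.br (nat_lit 2931) (Tree.tip (nat_lit 2930) (Node.mv (nat_lit 0x400000c00000400000c000000) (nat_lit 0x800000800000200007a000073000012) (nat_lit 51) (nat_lit 1) (nat_lit 0xb714018000000b84019))) (Tree.tip (nat_lit 2931) (Node.img (nat_lit 0x8000018000008000008) (nat_lit 0x4000007000064000000000000) (nat_lit 180) (nat_lit 3) (nat_lit 134) (nat_lit 132))))) (Tree.br (nat_lit 2934) (Tree.br (nat_lit 2933) (Tree.tip (nat_lit 2932) (Node.mv (nat_lit 0x8000008000008000018000000) (nat_lit 0x140000170000740000f40000e6000024) (nat_lit 76) (nat_lit 2) (nat_lit 0xb73411800000b724019000000644119))) (Tree.tip (nat_lit 2933) (Node.mv (nat_lit 0x8000008000008000008000000) (nat_lit 0x140000170000740000f40000f6000034) (nat_lit 28) (nat_lit 1) (nat_lit 0xb74401800000039401b)))) (Tree.br (nat_lit 2935) (Tree.tip (nat_lit 2934) (Node.img (nat_lit 0x2000002000002000002000000000000)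 (nat_lit 0x1000001000001000000000005000007000004) (nat_lit 145) (nat_lit 3) (nat_lit 130) (nat_lit 134))) (Tree.tip (nat_lit 2935) (Node.mv (nat_lit 0x8000008000008000000000000000000000000) (nat_lit 0x140000170000740000f70000fe00003c00001c000008) (nat_lit 75) (nat_lit 5) (nat_lit 0xb75421800000b66411a00000b70411800000b6d411800000b64401900000b76411a)))))) (Tree.br (nat_lit 2940) (Tree.br (nat_lit 2938) (Tree.br (nat_lit 2937) (Tree.tip (nat_lit 2936) (Node.img (nat_lit 0x2000002000002000006000000) (nat_lit 0x4000007000005000001000004000000000002) (nat_lit 917) (nat_lit 5) (nat_lit 128) (nat_lit 134))) (Tree.tip (nat_lit 2937) (Node.mv (nat_lit 0x2000002000002000002000000) (nat_lit 0x4000007000005000001000004000004000006) (nat_lit 26) (nat_lit 1) (nat_lit 0xb784018000000394019)))) (Tree.br (nat_lit 2939) (Tree.tip (nat_lit 2938) (Node.img (nat_lit 0x2000002000002000002000000) (nat_lit 0x2000006000007000005000001000001000000000002) (nat_lit 1305) (nat_lit 1) (nat_lit 130) (nat_lit 128))) (Tree.tip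 (nat_lit 2939) (Node.mv (nat_lit 0x2000002000002000002000000000000) (nat_lit 0x2000006000007000005000009000001000001000003000001) (nat_lit 99) (nat_lit 2) (nat_lit 0xb7a4118000001724118000000124018))))) (Tree.br (nat_lit 2942) (Tree.br (nat_lit 2941) (Tree.tip (nat_lit 2940) (Node.mv (nat_lit 0x2000002000002000000000000000000) (nat_lit 0x2000006000007000005000009000005000007000007000005) (nat_lit 49) (nat_lit 3) (nat_lit 0xb7b401800000b79411800000b764018000000064118))) (Tree.tip (nat_lit 2941) (Node.img (nat_lit 0x2000003000006000002) (nat_lit 0x3000003000001000004000001000000) (nat_lit 537) (nat_lit 3) (nat_lit 130) (nat_lit 133)))) (Tree.br (nat_lit 2943) (Tree.tip (nat_lit 2942) (Node.mv (nat_lit 0x8000008000018000008) (nat_lit 0xc00000c000004000017000064000000) (nat_lit 50) (nat_lit 2) (nat_lit 0xb3411800000b7d401a000001e84118))) (Tree.tip (nat_lit 2943) (Node.mv (nat_lit 0x1c000005000004000004) (nat_lit 0x2000002000002000000000000) (nat_lit 73) (nat_lit 1) (nat_lit 0x12c42180000000e4019))))))))))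
noncomputable def t0_23 : Tree := (Tree.br (nat_lit 3008) (Tree.br (nat_lit 2976) (Tree.br (nat_lit 2960) (Tree.br (nat_lit 2952) (Tree.br (nat_lit 2948) (Tree.br (nat_lit 2946) (Tree.br (nat_lit 2945) (Tree.tip (nat_lit 2944) (Node.mv (nat_lit 0x1c000008000008000000000000) (nat_lit 0x4000020000007000000000008000008) (nat_lit 74) (nat_lit 1) (nat_lit 0x2343180000002e401a))) (Tree.tip (nat_lit 2945) (Node.mv (nat_lit 0xc00000c000004000000000000) (nat_lit 0x600000300003000000800000c00000c) (nat_lit 51) (nat_lit 1) (nat_lit 0x4f4018000000b7401a)))) (Tree.br (nat_lit 2947) (Tree.tip (nat_lit 2946) (Node.mv (nat_lit 0x800000c00000c000000000000) (nat_lit 0x8000000000032000073000010000010) (nat_lit 76) (nat_lit 1) (nat_lit 0xc64019000000234218))) (Tree.tip (nat_lit 2947) (Node.mv (nat_lit 0xc00000c000004000000000000) (nat_lit 0xc00000000003200007b000018000018) (nat_lit 51) (nat_lit 1) (nat_lit 0xb824018000000b7401a))))) (Tree.br (nat_lit 2950) (Tree.br (nat_lit 2949) (Tree.tip (nat_lit 2948) (Node.mv (nat_lit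 0xc00000c000000000000000000) (nat_lit 0xe00000300003200007f00001c00001c) (nat_lit 50) (nat_lit 2) (nat_lit 0xb81401800000b83401800000046401a))) (Tree.tip (nat_lit 2949) (Node.img (nat_lit 0x1e000008000008) (nat_lit 0x4000004000007000020000004000000) (nat_lit 437) (nat_lit 6) (nat_lit 133) (nat_lit 128)))) (Tree.br (nat_lit 2951) (Tree.tip (nat_lit 2950) (Node.img (nat_lit 0x78000020) (nat_lit 0x18600001f) (nat_lit 698) (nat_lit 7) (nat_lit 136) (nat_lit 129))) (Tree.tip (nat_lit 2951) (Node.mv (nat_lit 0x70000020000020) (nat_lit 0x1000001000001e00018e00001f000000) (nat_lit 51) (nat_lit 2) (nat_lit 0xb86411800000b85401a000000db4119)))))) (Tree.br (nat_lit 2956) (Tree.br (nat_lit 2954) (Tree.br (nat_lit 2953) (Tree.tip (nat_lit 2952) (Node.mv (nat_lit 0x38000010000010000000) (nat_lit 0x67000006000007000000000010) (nat_lit 74) (nat_lit 1) (nat_lit 0xdb421800000075401a))) (Tree.tip (nat_lit 2953) (Node.mv (nat_lit 0x60000020000020000000) (nat_lit 0x100000100000de00019e00001f000000000020) (nat_lit 76)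 (nat_lit 2) (nat_lit 0xb88401900000b87411800000033401c)))) (Tree.br (nat_lit 2955) (Tree.tip (nat_lit 2954) (Node.mv (nat_lit 0x1e000008000008) (nat_lit 0x1000001000003b000000000000000000) (nat_lit 72) (nat_lit 1) (nat_lit 0x60c4019000002404218))) (Tree.tip (nat_lit 2955) (Node.mv (nat_lit 0x38000010000010) (nat_lit 0x20000020000077000006000007000000) (nat_lit 50) (nat_lit 2) (nat_lit 0x52d411800000b8a4019000000db4118))))) (Tree.br (nat_lit 2958) (Tree.br (nat_lit 2957) (Tree.tip (nat_lit 2956) (Node.mv (nat_lit 0x1e000008000008000000) (nat_lit 0x400000400000f000000000000000000000008) (nat_lit 96) (nat_lit 1) (nat_lit 0x512401a000002404318))) (Tree.tip (nat_lit 2957) (Node.mv (nat_lit 0x3c000010000010000000) (nat_lit 0x8000008000018000002000007000000000010) (nat_lit 73) (nat_lit 1) (nat_lit 0x512401b0000006e4218)))) (Tree.br (nat_lit 2959) (Tree.tip (nat_lit 2958) (Node.mv (nat_lit 0x38000010000010000000) (nat_lit 0x800000800001f000006000007000000000010) (nat_lit 74) (nat_lit 2) (nat_lit 0xb8d401800000b8c4019000000db4218)))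 (Tree.tip (nat_lit 2959) (Node.mv (nat_lit 0x30000010000010000000) (nat_lit 0x2800002800007f00000e000007000000000010) (nat_lit 75) (nat_lit 2) (nat_lit 0xb8e401800000b8b411800000033401b))))))) (Tree.br (nat_lit 2968) (Tree.br (nat_lit 2964) (Tree.br (nat_lit 2962) (Tree.br (nat_lit 2961) (Tree.tip (nat_lit 2960) (Node.mv (nat_lit 0xc000004000004000000) (nat_lit 0xc00000c00000000000300003a00000e) (nat_lit 98) (nat_lit 1) (nat_lit 0xad401800000099401a))) (Tree.tip (nat_lit 2961) (Node.img (nat_lit 0x400000c000004000004000000) (nat_lit 0x2000003000032000000000000000004) (nat_lit 468) (nat_lit 1) (nat_lit 133) (nat_lit 128)))) (Tree.br (nat_lit 2963) (Tree.tip (nat_lit 2962) (Node.mv (nat_lit 0xc000004000004000000) (nat_lit 0x600000700003200000300003a00000e) (nat_lit 98) (nat_lit 1) (nat_lit 0xad401800000b914018))) (Tree.tip (nat_lit 2963) (Node.img (nat_lit 0xf000004000004000000000000) (nat_lit 0x2000000000018000000000004000004) (nat_lit 129) (nat_lit 1) (nat_lit 132) (nat_lit 128))))) (Tree.br (nat_lit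 2966) (Tree.br (nat_lit 2965) (Tree.tip (nat_lit 2964) (Node.mv (nat_lit 0x1e000008000008000000000000) (nat_lit 0x7000000000030000000000008000008) (nat_lit 120) (nat_lit 1) (nat_lit 0xb934019000002404418))) (Tree.tip (nat_lit 2965) (Node.mv (nat_lit 0x38000010000010000000000000) (nat_lit 0xf000006000067000000000010000010) (nat_lit 98) (nat_lit 2) (nat_lit 0xb944019000000db43180000005f4319)))) (Tree.br (nat_lit 2967) (Tree.tip (nat_lit 2966) (Node.img (nat_lit 0x38000010000010) (nat_lit 0x20000067000006000067000000) (nat_lit 443) (nat_lit 3) (nat_lit 134) (nat_lit 132))) (Tree.tip (nat_lit 2967) (Node.mv (nat_lit 0x30000010000010000000000000) (nat_lit 0x2000006f00000e000067000000000010000010) (nat_lit 99) (nat_lit 2) (nat_lit 0xb95401800000b96421800000033411b)))))) (Tree.br (nat_lit 2972) (Tree.br (nat_lit 2970) (Tree.br (nat_lit 2969) (Tree.tip (nat_lit 2968) (Node.mv (nat_lit 0x3c000010000010000000000000) (nat_lit 0xf000003000008000000000010000010) (nat_lit 75) (nat_lit 1) (nat_lit 0xec43180000002e401b)))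 (Tree.tip (nat_lit 2969) (Node.mv (nat_lit 0xf000004000004000000000000) (nat_lit 0x200003000003a000000000004000004) (nat_lit 73) (nat_lit 1) (nat_lit 0x38243180000002e4019)))) (Tree.br (nat_lit 2971) (Tree.tip (nat_lit 2970) (Node.mv (nat_lit 0x38000010000010000000000000) (nat_lit 0xf0000c70000e8000000000010000010) (nat_lit 98) (nat_lit 2) (nat_lit 0xb99401a00000b9840180000005f4319))) (Tree.tip (nat_lit 2971) (Node.img (nat_lit 0x1c000008000008000008000000) (nat_lit 0x20000007000000000000000008) (nat_lit 280) (nat_lit 1) (nat_lit 133) (nat_lit 128))))) (Tree.br (nat_lit 2974) (Tree.br (nat_lit 2973) (Tree.tip (nat_lit 2972) (Node.img (nat_lit 0x3c000010000010000010000000) (nat_lit 0x7000003000008000000000000000010) (nat_lit 1839) (nat_lit 2) (nat_lit 128) (nat_lit 133))) (Tree.tip (nat_lit 2973) (Node.mv (nat_lit 0x3c000010000010000000000000) (nat_lit 0x700004300000f000000000010000010) (nat_lit 28) (nat_lit 2) (nat_lit 0xb9c4018000000db431800000b9b4019)))) (Tree.br (nat_lit 2975) (Tree.tip (nat_lit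 2974) (Node.mv (nat_lit 0x38000010000010000000000000) (nat_lit 0x70000470000ef000000000010000010) (nat_lit 98) (nat_lit 2) (nat_lit 0x53431900000b9d40180000005f4319))) (Tree.tip (nat_lit 2975) (Node.mv (nat_lit 0x30000010000010000000000000) (nat_lit 0xf0000cf0000ef000000000010000010) (nat_lit 99) (nat_lit 4) (nat_lit 0xb9e401800000b9a401800000b95401800000060431900000b804019)))))))) (Tree.br (nat_lit 2992) (Tree.br (nat_lit 2984) (Tree.br (nat_lit 2980) (Tree.br (nat_lit 2978) (Tree.br (nat_lit 2977) (Tree.tip (nat_lit 2976) (Node.mv (nat_lit 0x400000f000000000000000008) (nat_lit 0x18000008000000) (nat_lit 51) (nat_lit 1) (nat_lit 0x28421800000135401a))) (Tree.tip (nat_lit 2977) (Node.img (nat_lit 0x8000018000008000000) (nat_lit 0x1400001c00001c000000000020000017000014) (nat_lit 2740) (nat_lit 4) (nat_lit 128) (nat_lit 128)))) (Tree.br (nat_lit 2979) (Tree.tip (nat_lit 2978) (Node.mv (nat_lit 0x18000008000000000000) (nat_lit 0x1400001c00001c00001f0000e400001700001c000018) (nat_lit 99) (nat_lit 5)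 (nat_lit 0xb4d401800000b51401800000b4b401800000b44401900000ba1411800000b53401a))) (Tree.tip (nat_lit 2979) (Node.mv (nat_lit 0xa00001a000008000000000000) (nat_lit 0x10000014000005000000000008000008) (nat_lit 100) (nat_lit 1) (nat_lit 0x6a7431800000046401b))))) (Tree.br (nat_lit 2982) (Tree.br (nat_lit 2981) (Tree.tip (nat_lit 2980) (Node.mv (nat_lit 0x900001c) (nat_lit 0x6000002) (nat_lit 25) (nat_lit 1) (nat_lit 0xa2f40180000036a4018))) (Tree.tip (nat_lit 2981) (Node.mv (nat_lit 0x2000000000002000002000006) (nat_lit 0x1000001000003000000000004000000) (nat_lit 73) (nat_lit 1) (nat_lit 0x104018000000434019)))) (Tree.br (nat_lit 2983) (Tree.tip (nat_lit 2982) (Node.mv (nat_lit 0x1000001000003c000000000000) (nat_lit 0xf0000c300000c000008) (nat_lit 75) (nat_lit 2) (nat_lit 0x33f421800000282401a000000c74219))) (Tree.tip (nat_lit 2983) (Node.mv (nat_lit 0x800000800001c000000) (nat_lit 0x80000000000300000e30000e6) (nat_lit 29) (nat_lit 1) (nat_lit 0x89740180000025b4019)))))) (Tree.br (nat_lit 2988) (Tree.br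 (nat_lit 2986) (Tree.br (nat_lit 2985) (Tree.tip (nat_lit 2984) (Node.mv (nat_lit 0x200000200000f000000000000000000) (nat_lit 0x200000000003400001000003c000004000004) (nat_lit 100) (nat_lit 1) (nat_lit 0x8e64218000003d84019))) (Tree.tip (nat_lit 2985) (Node.mv (nat_lit 0x800000800001c000000000000000000) (nat_lit 0x80000000000f00000630000f0000010000010) (nat_lit 77) (nat_lit 2) (nat_lit 0xba8401a000000d041180000007c421a)))) (Tree.br (nat_lit 2987) (Tree.tip (nat_lit 2986) (Node.img (nat_lit 0x800001c000000) (nat_lit 0xf00000e30000f7) (nat_lit 2901) (nat_lit 1) (nat_lit 135) (nat_lit 128))) (Tree.tip (nat_lit 2987) (Node.mv (nat_lit 0x8000008000018000000000000000000) (nat_lit 0x80000000000f00000e70000f7000010000010) (nat_lit 74) (nat_lit 3) (nat_lit 0xba9401800000ba7421800000baa4218000001c3421a))))) (Tree.br (nat_lit 2990) (Tree.br (nat_lit 2989) (Tree.tip (nat_lit 2988) (Node.mv (nat_lit 0x400000400001e000000) (nat_lit 0x4000000000030000001000038) (nat_lit 53) (nat_lit 1) (nat_lit 0x7b34018000000214119)))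 (Tree.tip (nat_lit 2989) (Node.mv (nat_lit 0x400000400000e000000) (nat_lit 0x4000000000033000031000038) (nat_lit 28) (nat_lit 1) (nat_lit 0xbac4018000000c74118)))) (Tree.br (nat_lit 2991) (Tree.tip (nat_lit 2990) (Node.img (nat_lit 0x400000400000e000000) (nat_lit 0x4000000000003000030000003) (nat_lit 118) (nat_lit 3) (nat_lit 133) (nat_lit 132))) (Tree.tip (nat_lit 2991) (Node.mv (nat_lit 0x10000010000030000000) (nat_lit 0x100000000000cf0000cf0000ef) (nat_lit 27) (nat_lit 3) (nat_lit 0xbad401a00000bae401a00000b554018000001c3401b))))))) (Tree.br (nat_lit 3000) (Tree.br (nat_lit 2996) (Tree.br (nat_lit 2994) (Tree.br (nat_lit 2993) (Tree.tip (nat_lit 2992) (Node.img (nat_lit 0x200000e000000) (nat_lit 0x71000030000070) (nat_lit 91) (nat_lit 7) (nat_lit 134) (nat_lit 130))) (Tree.tip (nat_lit 2993) (Node.mv (nat_lit 0x2000002000002000006000000) (nat_lit 0x1000003000001000000000075000038000070) (nat_lit 27) (nat_lit 1) (nat_lit 0xbb04018000003e94118)))) (Tree.br (nat_lit 2995) (Tree.tip (nat_lit 2994)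 (Node.img (nat_lit 0x8000008000008000018000000) (nat_lit 0x400000c000004000000000034000007000004) (nat_lit 2351) (nat_lit 7) (nat_lit 133) (nat_lit 134))) (Tree.tip (nat_lit 2995) (Node.mv (nat_lit 0x8000008000018000000) (nat_lit 0x400000c00000c000000000034000007000014) (nat_lit 99) (nat_lit 1) (nat_lit 0xbb2401800000039401b))))) (Tree.br (nat_lit 2998) (Tree.br (nat_lit 2997) (Tree.tip (nat_lit 2996) (Node.img (nat_lit 0x200000200000200000e000000) (nat_lit 0x1000001000001000001000010000003) (nat_lit 122) (nat_lit 6) (nat_lit 132) (nat_lit 128))) (Tree.tip (nat_lit 2997) (Node.mv (nat_lit 0x2000002000002000006000000) (nat_lit 0x1000003000001000001000005000038000003) (nat_lit 27) (nat_lit 2) (nat_lit 0x169411800000bb44018000003e94118)))) (Tree.br (nat_lit 2999) (Tree.tip (nat_lit 2998) (Node.mv (nat_lit 0x2000002000006000000) (nat_lit 0x1000003000003000001000005000038000007) (nat_lit 97) (nat_lit 1) (nat_lit 0xbb54018000000394019))) (Tree.tip (nat_lit 2999) (Node.img (nat_lit 0x2000001000003000001000000)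 (nat_lit 0x3000001000000000000000002000002) (nat_lit 104) (nat_lit 7) (nat_lit 129) (nat_lit 133)))))) (Tree.br (nat_lit 3004) (Tree.br (nat_lit 3002) (Tree.br (nat_lit 3001) (Tree.tip (nat_lit 3000) (Node.mv (nat_lit 0x400000200001e000000000000) (nat_lit 0x6000002000000000000000007000004) (nat_lit 25) (nat_lit 1) (nat_lit 0xbb74019000000674118))) (Tree.tip (nat_lit 3001) (Node.mv (nat_lit 0x1c00000000001c) (nat_lit 0x22000007000022) (nat_lit 25) (nat_lit 1) (nat_lit 0x4e640190000036b4018)))) (Tree.br (nat_lit 3003) (Tree.tip (nat_lit 3002) (Node.mv (nat_lit 0x800000800001e000000000000) (nat_lit 0x37000020000030000010) (nat_lit 74) (nat_lit 1) (nat_lit 0xde4019000000c74218))) (Tree.tip (nat_lit 3003) (Node.mv (nat_lit 0x1000001000001c000000000000) (nat_lit 0x6f0000e300006c000028) (nat_lit 53) (nat_lit 2) (nat_lit 0xbba401900000ba64018000000524219))))) (Tree.br (nat_lit 3006) (Tree.br (nat_lit 3005) (Tree.tip (nat_lit 3004) (Node.mv (nat_lit 0x10000078000000) (nat_lit 0x200000060000e7) (nat_lit 26)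 (nat_lit 1) (nat_lit 0x6d5401800000077401a))) (Tree.tip (nat_lit 3005) (Node.img (nat_lit 0x18000014000010000010000000) (nat_lit 0xb000020000000000010) (nat_lit 1420) (nat_lit 7) (nat_lit 133) (nat_lit 132)))) (Tree.br (nat_lit 3007) (Tree.tip (nat_lit 3006) (Node.mv (nat_lit 0x10000014000010000010000000) (nat_lit 0x800000800000b000020000000000010) (nat_lit 99) (nat_lit 1) (nat_lit 0xbbd40180000000e411b))) (Tree.tip (nat_lit 3007) (Node.img (nat_lit 0x400000c00000c000004) (nat_lit 0xa00000b000030000000000000) (nat_lit 797) (nat_lit 6) (nat_lit 133) (nat_lit 128))))))))) (Tree.br (nat_lit 3040) (Tree.br (nat_lit 3024) (Tree.br (nat_lit 3016) (Tree.br (nat_lit 3012) (Tree.br (nat_lit 3010) (Tree.br (nat_lit 3009) (Tree.tip (nat_lit 3008) (Node.img (nat_lit 0x2000006000006000002000000) (nat_lit 0x400000400000000000100003c00000c) (nat_lit 794) (nat_lit 6) (nat_lit 133) (nat_lit 128))) (Tree.tip (nat_lit 3009) (Node.img (nat_lit 0x8000018000018000008) (nat_lit 0x4000007000064000006000000) (nat_lit 1262)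 (nat_lit 4) (nat_lit 128) (nat_lit 128)))) (Tree.br (nat_lit 3011) (Tree.tip (nat_lit 3010) (Node.mv (nat_lit 0x8000008000018000008000000) (nat_lit 0x140000170000740000060000f0000030) (nat_lit 76) (nat_lit 2) (nat_lit 0xbc1411800000bc0401a00000bbf4119))) (Tree.tip (nat_lit 3011) (Node.img (nat_lit 0x600001c000004000004) (nat_lit 0x8000009000000000000000000) (nat_lit 175) (nat_lit 1) (nat_lit 132) (nat_lit 128))))) (Tree.br (nat_lit 3014) (Tree.br (nat_lit 3013) (Tree.tip (nat_lit 3012) (Node.mv (nat_lit 0x600000c000006000004) (nat_lit 0x8000009000030000000000000) (nat_lit 52) (nat_lit 1) (nat_lit 0xbc34018000000184119))) (Tree.tip (nat_lit 3013) (Node.img (nat_lit 0x1200001c) (nat_lit 0x21000002) (nat_lit 186) (nat_lit 6) (nat_lit 133) (nat_lit 128)))) (Tree.br (nat_lit 3015) (Tree.tip (nat_lit 3014) (Node.mv (nat_lit 0x28000038) (nat_lit 0x1d7000004) (nat_lit 26) (nat_lit 2) (nat_lit 0x6c9401a000000e5401800000bc54019))) (Tree.tip (nat_lit 3015) (Node.mv (nat_lit 0x2000000000002000002000002000002)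 (nat_lit 0x1000005000007000004000000000000000000) (nat_lit 97) (nat_lit 1) (nat_lit 0x104118000001ee4019)))))) (Tree.br (nat_lit 3020) (Tree.br (nat_lit 3018) (Tree.br (nat_lit 3017) (Tree.tip (nat_lit 3016) (Node.mv (nat_lit 0x4000004000007000008000000000000) (nat_lit 0x8000008000010000008000008) (nat_lit 75) (nat_lit 1) (nat_lit 0x4ba401a000000284218))) (Tree.tip (nat_lit 3017) (Node.mv (nat_lit 0x2000000000002000002000005) (nat_lit 0x2000000000005000000) (nat_lit 73) (nat_lit 1) (nat_lit 0x434019000000024018)))) (Tree.br (nat_lit 3019) (Tree.tip (nat_lit 3018) (Node.img (nat_lit 0x10000010000018000018000000) (nat_lit 0x20000007000060000020) (nat_lit 296) (nat_lit 5) (nat_lit 128) (nat_lit 132))) (Tree.tip (nat_lit 3019) (Node.img (nat_lit 0x2000002000003000003000000000000000000) (nat_lit 0x4000004000005000000000000000002000002000002) (nat_lit 244) (nat_lit 5) (nat_lit 128) (nat_lit 135))))) (Tree.br (nat_lit 3022) (Tree.br (nat_lit 3021) (Tree.tip (nat_lit 3020) (Node.img (nat_lit 0x2000002000003000003000000000000000000)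 (nat_lit 0x1000000000004000006000006000002) (nat_lit 283) (nat_lit 1) (nat_lit 130) (nat_lit 128))) (Tree.tip (nat_lit 3021) (Node.mv (nat_lit 0x10000010000018000008000000000000000000) (nat_lit 0x20000020000028000007000070000030000030000010) (nat_lit 76) (nat_lit 2) (nat_lit 0xbcc401b00000bcb401b00000bca4218)))) (Tree.br (nat_lit 3023) (Tree.tip (nat_lit 3022) (Node.mv (nat_lit 0x10000010000018000000000000000000000000) (nat_lit 0x20000020000028000007000078000038000038000010) (nat_lit 75) (nat_lit 2) (nat_lit 0x20c411b00000bcd401800000189411b))) (Tree.tip (nat_lit 3023) (Node.img (nat_lit 0x20000034000000) (nat_lit 0x4700000a000007) (nat_lit 312) (nat_lit 4) (nat_lit 128) (nat_lit 128))))))) (Tree.br (nat_lit 3032) (Tree.br (nat_lit 3028) (Tree.br (nat_lit 3026) (Tree.br (nat_lit 3025) (Tree.tip (nat_lit 3024) (Node.mv (nat_lit 0x20000020000020000030000000) (nat_lit 0x1000003000001000000000005700000e000007) (nat_lit 26) (nat_lit 1) (nat_lit 0xbcf4018000001a6411c))) (Tree.tip (nat_lit 3025) (Node.mv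 (nat_lit 0x20000020000020000030000000) (nat_lit 0x5000007000005000000000004700000e000007) (nat_lit 26) (nat_lit 1) (nat_lit 0xbcf4018000000d3411c)))) (Tree.br (nat_lit 3027) (Tree.tip (nat_lit 3026) (Node.img (nat_lit 0x2000002000003000002000000000000000000) (nat_lit 0x1000000000004000007000007000001) (nat_lit 666) (nat_lit 1) (nat_lit 130) (nat_lit 128))) (Tree.tip (nat_lit 3027) (Node.mv (nat_lit 0x2000002000002000003000000000000000000000000) (nat_lit 0x4000004000004000001000000000006000007000007000001) (nat_lit 73) (nat_lit 1) (nat_lit 0xbd24018000001ee4319))))) (Tree.br (nat_lit 3030) (Tree.br (nat_lit 3029) (Tree.tip (nat_lit 3028) (Node.img (nat_lit 0x2000002000002000003000000000000000000) (nat_lit 0x6000004000004000001000000000006000006000006) (nat_lit 2358) (nat_lit 7) (nat_lit 130) (nat_lit 135))) (Tree.tip (nat_lit 3029) (Node.mv (nat_lit 0x20000020000030000000000000000000000000) (nat_lit 0x5000007000007000004000005700000e000067000070000070000010) (nat_lit 173) (nat_lit 3) (nat_lit 0xbd1431800000bd3401c00000bd0431800000bd4411c))))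 (Tree.br (nat_lit 3031) (Tree.tip (nat_lit 3030) (Node.mv (nat_lit 0x2000002000003000000000000000000) (nat_lit 0x6000006000004000001000000000007000006000006) (nat_lit 145) (nat_lit 1) (nat_lit 0xbd44018000000014218))) (Tree.tip (nat_lit 3031) (Node.mv (nat_lit 0x20000020000020000000000000000000000000) (nat_lit 0x5000007000007000004000005700001e0000f7000070000070000030) (nat_lit 100) (nat_lit 4) (nat_lit 0xbd5401800000bce40190000055a411c00000bd6411c00000251411c)))))) (Tree.br (nat_lit 3036) (Tree.br (nat_lit 3034) (Tree.br (nat_lit 3033) (Tree.tip (nat_lit 3032) (Node.img (nat_lit 0x1e000000) (nat_lit 0x3000020000077) (nat_lit 157) (nat_lit 5) (nat_lit 128) (nat_lit 130))) (Tree.tip (nat_lit 3033) (Node.img (nat_lit 0x1e000000) (nat_lit 0x73000020000007) (nat_lit 166) (nat_lit 5) (nat_lit 128) (nat_lit 130)))) (Tree.br (nat_lit 3035) (Tree.tip (nat_lit 3034) (Node.mv (nat_lit 0x800000800000e000000000000) (nat_lit 0x73000030000077000010) (nat_lit 52) (nat_lit 2) (nat_lit 0xbd9411800000bd84118000000de4019)))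 (Tree.tip (nat_lit 3035) (Node.mv (nat_lit 0x20000020000030000000000000) (nat_lit 0x1df0001ce0001df000050) (nat_lit 51) (nat_lit 3) (nat_lit 0xbbb40190000005a411800000bda401a000000d94118))))) (Tree.br (nat_lit 3038) (Tree.br (nat_lit 3037) (Tree.tip (nat_lit 3036) (Node.img (nat_lit 0x800000800000900000e000000) (nat_lit 0x2000010000010) (nat_lit 386) (nat_lit 1) (nat_lit 132) (nat_lit 128))) (Tree.tip (nat_lit 3037) (Node.mv (nat_lit 0x800000900000e000000) (nat_lit 0x8000000000002000010000014) (nat_lit 99) (nat_lit 1) (nat_lit 0xbdc401800000001401a)))) (Tree.br (nat_lit 3039) (Tree.tip (nat_lit 3038) (Node.mv (nat_lit 0x800000800001e000000000000000000) (nat_lit 0x13000000000030000010000010) (nat_lit 96) (nat_lit 1) (nat_lit 0xb454019000002404318))) (Tree.tip (nat_lit 3039) (Node.img (nat_lit 0x400000400000f000000) (nat_lit 0x4000004000000000018000000000002) (nat_lit 129) (nat_lit 3) (nat_lit 132) (nat_lit 133)))))))) (Tree.br (nat_lit 3056) (Tree.br (nat_lit 3048) (Tree.br (nat_lit 3044) (Tree.br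 (nat_lit 3042) (Tree.br (nat_lit 3041) (Tree.tip (nat_lit 3040) (Node.mv (nat_lit 0x800000800001e000000) (nat_lit 0x8000008000000000033000000000004) (nat_lit 48) (nat_lit 1) (nat_lit 0xbdf4019000002404118))) (Tree.tip (nat_lit 3041) (Node.mv (nat_lit 0x800000800000e000000000000000000) (nat_lit 0x8000008000000000033000010000034000010000010) (nat_lit 76) (nat_lit 2) (nat_lit 0xbe0421800000bde4018000001c3421a)))) (Tree.br (nat_lit 3043) (Tree.tip (nat_lit 3042) (Node.img (nat_lit 0x800000800000e000000) (nat_lit 0x8000000000030000011000014) (nat_lit 746) (nat_lit 3) (nat_lit 133) (nat_lit 132))) (Tree.tip (nat_lit 3043) (Node.img (nat_lit 0x20000038000000) (nat_lit 0x47000006000007) (nat_lit 91) (nat_lit 5) (nat_lit 128) (nat_lit 130))))) (Tree.br (nat_lit 3046) (Tree.br (nat_lit 3045) (Tree.tip (nat_lit 3044) (Node.img (nat_lit 0x20000020000038000000) (nat_lit 0x2000000000000f00004600005f) (nat_lit 125) (nat_lit 3) (nat_lit 134) (nat_lit 132))) (Tree.tip (nat_lit 3045) (Node.mv (nat_lit 0x20000020000030000000000000000000)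 (nat_lit 0x200000200000000000cf00004e0000df000040000040) (nat_lit 75) (nat_lit 3) (nat_lit 0xbe1401a00000be4421800000be3421800000be2421a)))) (Tree.br (nat_lit 3047) (Tree.tip (nat_lit 3046) (Node.img (nat_lit 0x1000001000001000001e000000) (nat_lit 0x7000020000020) (nat_lit 372) (nat_lit 3) (nat_lit 133) (nat_lit 132))) (Tree.tip (nat_lit 3047) (Node.mv (nat_lit 0x1000001000001e000000) (nat_lit 0x1000001000000000000f000021000020) (nat_lit 100) (nat_lit 1) (nat_lit 0xbe640180000072e4118)))))) (Tree.br (nat_lit 3052) (Tree.br (nat_lit 3050) (Tree.br (nat_lit 3049) (Tree.tip (nat_lit 3048) (Node.img (nat_lit 0x1000001000001e000000) (nat_lit 0x10000010000000000008000021000027) (nat_lit 1661) (nat_lit 2) (nat_lit 128) (nat_lit 133))) (Tree.tip (nat_lit 3049) (Node.mv (nat_lit 0x20000020000038000000) (nat_lit 0x2000002000000000001e00004600004f) (nat_lit 26) (nat_lit 3) (nat_lit 0xbe7401900000be84019000003374018000000584019)))) (Tree.br (nat_lit 3051) (Tree.tip (nat_lit 3050) (Node.img (nat_lit 0x800000800001e)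 (nat_lit 0x8000008000000000077000020) (nat_lit 1632) (nat_lit 5) (nat_lit 128) (nat_lit 132))) (Tree.tip (nat_lit 3051) (Node.img (nat_lit 0x800000800001e000000000000) (nat_lit 0x33000000000030000010) (nat_lit 1005) (nat_lit 7) (nat_lit 133) (nat_lit 132))))) (Tree.br (nat_lit 3054) (Tree.br (nat_lit 3053) (Tree.tip (nat_lit 3052) (Node.mv (nat_lit 0x800000800000e000000000000) (nat_lit 0x8000008000000000077000030000030000010) (nat_lit 52) (nat_lit 2) (nat_lit 0xbeb401800000bea4218000000c84119))) (Tree.tip (nat_lit 3053) (Node.img (nat_lit 0x800000800000e000000) (nat_lit 0x8000000000030000011000030) (nat_lit 508) (nat_lit 2) (nat_lit 128) (nat_lit 132)))) (Tree.br (nat_lit 3055) (Tree.tip (nat_lit 3054) (Node.mv (nat_lit 0x20000020000030000000000000) (nat_lit 0x200000200000000001de0000ce0000cf000040) (nat_lit 51) (nat_lit 3) (nat_lit 0xbec401a00000be94118000004a1411800000bed411a))) (Tree.tip (nat_lit 3055) (Node.mv (nat_lit 0x20000020000020000000000000000000) (nat_lit 0x200000200000000001df0001de0001df000050000050)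 (nat_lit 76) (nat_lit 3) (nat_lit 0xbdb411800000bee411800000be540180000055a401c))))))) (Tree.br (nat_lit 3064) (Tree.br (nat_lit 3060) (Tree.br (nat_lit 3058) (Tree.br (nat_lit 3057) (Tree.tip (nat_lit 3056) (Node.mv (nat_lit 0x800000a000008000008000000000000) (nat_lit 0x400001500007000000400000c000004) (nat_lit 98) (nat_lit 1) (nat_lit 0x1e1401a000005ae4318))) (Tree.tip (nat_lit 3057) (Node.mv (nat_lit 0x800000800000a000008000000000000000000) (nat_lit 0x400001500007000001c00001c000014) (nat_lit 51) (nat_lit 2) (nat_lit 0x5401a00000bf0401800000004411b)))) (Tree.br (nat_lit 3059) (Tree.tip (nat_lit 3058) (Node.img (nat_lit 0x500001c) (nat_lit 0xa000020) (nat_lit 228) (nat_lit 1) (nat_lit 133) (nat_lit 128))) (Tree.tip (nat_lit 3059) (Node.img (nat_lit 0x400000400000500001c000000) (nat_lit 0x2000002000002) (nat_lit 2943) (nat_lit 2) (nat_lit 128) (nat_lit 132))))) (Tree.br (nat_lit 3062) (Tree.br (nat_lit 3061) (Tree.tip (nat_lit 3060) (Node.mv (nat_lit 0x400000400000500000c000000000000) (nat_lit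 0xa000032000006000002) (nat_lit 52) (nat_lit 2) (nat_lit 0xbf3411800000115401900000bf24218))) (Tree.tip (nat_lit 3061) (Node.mv (nat_lit 0x800000800000a000008000000000000) (nat_lit 0x3500007700000c000004) (nat_lit 52) (nat_lit 3) (nat_lit 0xbf440190000023d41180000048c4118000000fc4218)))) (Tree.br (nat_lit 3063) (Tree.tip (nat_lit 3062) (Node.img (nat_lit 0x800000800000a000008000000) (nat_lit 0x5000074000010) (nat_lit 2054) (nat_lit 6) (nat_lit 134) (nat_lit 128))) (Tree.tip (nat_lit 3063) (Node.img (nat_lit 0x2000002000002000002000000000000000000000000) (nat_lit 0x1000001000001000007000007000007000001) (nat_lit 2268) (nat_lit 4) (nat_lit 128) (nat_lit 128)))))) (Tree.br (nat_lit 3068) (Tree.br (nat_lit 3066) (Tree.br (nat_lit 3065) (Tree.tip (nat_lit 3064) (Node.mv (nat_lit 0x8000008000008000008000000000000000000000000) (nat_lit 0x400003700007700001c00001c00001c000004) (nat_lit 121) (nat_lit 4) (nat_lit 0xbf5421800000bf1411800000bf7401a00000bf6431800000005421a))) (Tree.tip (nat_lit 3065) (Node.mv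 (nat_lit 0x20000020000020000000000000000000) (nat_lit 0x400000400000400001df0000fe00007f000050) (nat_lit 53) (nat_lit 2) (nat_lit 0x19f401d0000057541180000014d401c)))) (Tree.br (nat_lit 3067) (Tree.tip (nat_lit 3066) (Node.img (nat_lit 0x1000001000003000001000001000001000000) (nat_lit 0x2000002000000000001) (nat_lit 1030) (nat_lit 6) (nat_lit 129) (nat_lit 128))) (Tree.tip (nat_lit 3067) (Node.mv (nat_lit 0x2000006000002000002000002000000) (nat_lit 0x1000003000001000000000004000004000000000002) (nat_lit 145) (nat_lit 1) (nat_lit 0xbfa4019000000104218))))) (Tree.br (nat_lit 3070) (Tree.br (nat_lit 3069) (Tree.tip (nat_lit 3068) (Node.mv (nat_lit 0x2000000000002000003000002000002000002000000) (nat_lit 0x2000000000000000001000000000000000002) (nat_lit 72) (nat_lit 1) (nat_lit 0x3614318000000084018))) (Tree.tip (nat_lit 3069) (Node.img (nat_lit 0x2000002000002000002000002000002000000000000) (nat_lit 0x1000001000001000004000006000004) (nat_lit 815) (nat_lit 7) (nat_lit 130) (nat_lit 135)))) (Tree.br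 (nat_lit 3071) (Tree.tip (nat_lit 3070) (Node.mv (nat_lit 0x2000006000002000002000002000000000000000000) (nat_lit 0x5000001000001000006000006000004) (nat_lit 49) (nat_lit 1) (nat_lit 0xbfd40180000001b4219))) (Tree.tip (nat_lit 3071) (Node.mv (nat_lit 0x6000002000002000002000000000000000000) (nat_lit 0x1000003000003000000000005000005000001000006000006000004) (nat_lit 169) (nat_lit 2) (nat_lit 0xbfb421800000bfe4018000000ea4318))))))))))
noncomputable def t0_24 : Tree := (Tree.br (nat_lit 3074) (Tree.br (nat_lit 3073) (Tree.tip (nat_lit 3072) (Node.mv (nat_lit 0x2000002000002000002000000000000000000) (nat_lit 0x1000003000007000004000005000005000001000006000006000004) (nat_lit 146) (nat_lit 1) (nat_lit 0xbff4018000000314319))) (Tree.tip (nat_lit 3073) (Node.img (nat_lit 0x1000001000003000001000001000001000000) (nat_lit 0x1000000000000000000000002000000000000000001) (nat_lit 298) (nat_lit 7) (nat_lit 129) (nat_lit 135)))) (Tree.br (nat_lit 3075) (Tree.tip (nat_lit 3074) (Node.img (nat_lit 0x1000001000003000001)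 (nat_lit 0x2000003000002000000000000000002) (nat_lit 150) (nat_lit 1) (nat_lit 129) (nat_lit 128))) (Tree.tip (nat_lit 3075) (Node.mv (nat_lit 0x2000002000002000002000002000002000000000000) (nat_lit 0x4000006000004000000000004000004000000000005000007000005) (nat_lit 122) (nat_lit 2) (nat_lit 0xc02441900000005401800000c014119)))))
noncomputable def part0 : Tree := (Tree.br (nat_lit 1536) (Tree.br (nat_lit 768) (Tree.br (nat_lit 384) (Tree.br (nat_lit 128) t0_0 (Tree.br (nat_lit 256) t0_1 t0_2)) (Tree.br (nat_lit 512) t0_3 (Tree.br (nat_lit 640) t0_4 t0_5))) (Tree.br (nat_lit 1152) (Tree.br (nat_lit 896) t0_6 (Tree.br (nat_lit 1024) t0_7 t0_8)) (Tree.br (nat_lit 1280) t0_9 (Tree.br (nat_lit 1408) t0_10 t0_11)))) (Tree.br (nat_lit 2304) (Tree.br (nat_lit 1920) (Tree.br (nat_lit 1664) t0_12 (Tree.br (nat_lit 1792) t0_13 t0_14)) (Tree.br (nat_lit 2048) t0_15 (Tree.br (nat_lit 2176) t0_16 t0_17))) (Tree.br (nat_lit 2688) (Tree.br (nat_lit 2432) t0_18 (Tree.br (nat_lit 2560) t0_19 t0_20)) (Tree.br (nat_lit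 2944) (Tree.br (nat_lit 2816) t0_21 t0_22) (Tree.br (nat_lit 3072) t0_23 t0_24)))))

end Vale.Agent.P062.Data
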