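import Vale.Agent.P062.Data.Table

namespace Vale.Agent.P062.Data
open Vale.Agent.P062

theorem ok0_0 : checkTree table t0_0 = true := by decide +kernel
theorem ok0_1 : checkTree table t0_1 = true := by decide +kernel
theorem ok0_2 : checkTree table t0_2 = true := by decide +kernel
theorem ok0_3 : checkTree table t0_3 = true := by decide +kernel
theorem ok0_4 : checkTree table t0_4 = true := by decide +kernel
theorem ok0_5 : checkTree table t0_5 = true := by decide +kernel
theorem ok0_6 : checkTree table t0_6 = true := by decide +kernel
theorem ok0_7 : checkTree table t0_7 = true := by decide +kernel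
theorem ok0_8 : checkTree table t0_8 = true := by decide +kernel
theorem ok0_9 : checkTree table t0_9 = true := by decide +kernel
theorem ok0_10 : checkTree table t0_10 = true := by decide +kernel
theorem ok0_11 : checkTree table t0_11 = true := by decide +kernel
theorem ok0_12 : checkTree table t0_12 = true := by decide +kernel
theorem ok0_13 : checkTree table t0_13 = true := by decide +kernel
theorem ok0_14 : checkTree table t0_14 = true := by decide +kernel
theorem ok0_15 : checkTree table t0_15 = true := by decide +kernel
theorem ok0_16 : checkTree table t0_16 = true := by decide +kernel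
theorem ok0_17 : checkTree table t0_17 = true := by decide +kernel
theorem ok0_18 : checkTree table t0_18 = true := by decide +kernel
theorem ok0_19 : checkTree table t0_19 = true := by decide +kernel
theorem ok0_20 : checkTree table t0_20 = true := by decide +kernel
theorem ok0_21 : checkTree table t0_21 = true := by decide +kernel
theorem ok0_22 : checkTree table t0_22 = true := by decide +kernel
theorem ok0_23 : checkTree table t0_23 = true := by decide +kernel
theorem ok0_24 : checkTree table t0_24 = true := by decide +kernel
theorem okPart0 : checkTree table part0 = true := (checkTree_br (checkTree_br (checkTree_br (checkTree_br ok0_0 (checkTree_br ok0_1 ok0_2)) (checkTree_br ok0_3 (checkTree_br ok0_4 ok0_5))) (checkTree_br (checkTree_br ok0_6 (checkTree_br ok0_7 ok0_8)) (checkTree_br ok0_9 (checkTree_br ok0_10 ok0_11)))) (checkTree_br (checkTree_br (checkTree_br ok0_12 (checkTree_br ok0_13 ok0_14)) (checkTree_br ok0_15 (checkTree_br ok0_16 ok0_17))) (checkTree_br (checkTree_br ok0_18 (checkTree_br ok0_19 ok0_20)) (checkTree_br (checkTree_br ok0_21 ok0_22) (checkTree_br ok0_23 ok0_24)))))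

end Vale.Agent.P062.Data
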