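import Vale.Agent.P062.Data.Table

namespace Vale.Agent.P062.Data
open Vale.Agent.P062

theorem ok1_0 : checkTree table t1_0 = true := by decide +kernel
theorem ok1_1 : checkTree table t1_1 = true := by decide +kernel
theorem ok1_2 : checkTree table t1_2 = true := by decide +kernel
theorem ok1_3 : checkTree table t1_3 = true := by decide +kernel
theorem ok1_4 : checkTree table t1_4 = true := by decide +kernel
theorem ok1_5 : checkTree table t1_5 = true := by decide +kernel
theorem ok1_6 : checkTree table t1_6 = true := by decide +kernel
theorem ok1_7 : checkTree table t1_7 = true := by decide +kernel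
theorem ok1_8 : checkTree table t1_8 = true := by decide +kernel
theorem ok1_9 : checkTree table t1_9 = true := by decide +kernel
theorem ok1_10 : checkTree table t1_10 = true := by decide +kernel
theorem ok1_11 : checkTree table t1_11 = true := by decide +kernel
theorem ok1_12 : checkTree table t1_12 = true := by decide +kernel
theorem ok1_13 : checkTree table t1_13 = true := by decide +kernel
theorem ok1_14 : checkTree table t1_14 = true := by decide +kernel
theorem ok1_15 : checkTree table t1_15 = true := by decide +kernel
theorem ok1_16 : checkTree table t1_16 = true := by decide +kernel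
theorem ok1_17 : checkTree table t1_17 = true := by decide +kernel
theorem ok1_18 : checkTree table t1_18 = true := by decide +kernel
theorem ok1_19 : checkTree table t1_19 = true := by decide +kernel
theorem ok1_20 : checkTree table t1_20 = true := by decide +kernel
theorem ok1_21 : checkTree table t1_21 = true := by decide +kernel
theorem ok1_22 : checkTree table t1_22 = true := by decide +kernel
theorem okPart1 : checkTree table part1 = true := (checkTree_br (checkTree_br (checkTree_br (checkTree_br ok1_0 ok1_1) (checkTree_br ok1_2 (checkTree_br ok1_3 ok1_4))) (checkTree_br (checkTree_br ok1_5 (checkTree_br ok1_6 ok1_7)) (checkTree_br ok1_8 (checkTree_br ok1_9 ok1_10)))) (checkTree_br (checkTree_br (checkTree_br ok1_11 (checkTree_br ok1_12 ok1_13)) (checkTree_br ok1_14 (checkTree_br ok1_15 ok1_16))) (checkTree_br (checkTree_br ok1_17 (checkTree_br ok1_18 ok1_19)) (checkTree_br ok1_20 (checkTree_br ok1_21 ok1_22)))))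

end Vale.Agent.P062.Data
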