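import Vale.Agent.P062.Data.Table

namespace Vale.Agent.P062.Data
open Vale.Agent.P062

theorem ok10_0 : checkTree table t10_0 = true := by decide +kernel
theorem ok10_1 : checkTree table t10_1 = true := by decide +kernel
theorem ok10_2 : checkTree table t10_2 = true := by decide +kernel
theorem ok10_3 : checkTree table t10_3 = true := by decide +kernel
theorem ok10_4 : checkTree table t10_4 = true := by decide +kernel
theorem ok10_5 : checkTree table t10_5 = true := by decide +kernel
theorem ok10_6 : checkTree table t10_6 = true := by decide +kernel
theorem ok10_7 : checkTree table t10_7 = true := by decide +kernel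
theorem ok10_8 : checkTree table t10_8 = true := by decide +kernel
theorem ok10_9 : checkTree table t10_9 = true := by decide +kernel
theorem ok10_10 : checkTree table t10_10 = true := by decide +kernel
theorem ok10_11 : checkTree table t10_11 = true := by decide +kernel
theorem ok10_12 : checkTree table t10_12 = true := by decide +kernel
theorem ok10_13 : checkTree table t10_13 = true := by decide +kernel
theorem ok10_14 : checkTree table t10_14 = true := by decide +kernel
theorem ok10_15 : checkTree table t10_15 = true := by decide +kernel
theorem ok10_16 : checkTree table t10_16 = true := by decide +kernel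
theorem ok10_17 : checkTree table t10_17 = true := by decide +kernel
theorem ok10_18 : checkTree table t10_18 = true := by decide +kernel
theorem ok10_19 : checkTree table t10_19 = true := by decide +kernel
theorem ok10_20 : checkTree table t10_20 = true := by decide +kernel
theorem ok10_21 : checkTree table t10_21 = true := by decide +kernel
theorem okPart10 : checkTree table part10 = true := (checkTree_br (checkTree_br (checkTree_br (checkTree_br ok10_0 ok10_1) (checkTree_br ok10_2 (checkTree_br ok10_3 ok10_4))) (checkTree_br (checkTree_br ok10_5 (checkTree_br ok10_6 ok10_7)) (checkTree_br ok10_8 (checkTree_br ok10_9 ok10_10)))) (checkTree_br (checkTree_br (checkTree_br ok10_11 ok10_12) (checkTree_br ok10_13 (checkTree_br ok10_14 ok10_15))) (checkTree_br (checkTree_br ok10_16 (checkTree_br ok10_17 ok10_18)) (checkTree_br ok10_19 (checkTree_br ok10_20 ok10_21)))))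

end Vale.Agent.P062.Data
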