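import Vale.Agent.P062.Data.Table

namespace Vale.Agent.P062.Data
open Vale.Agent.P062

theorem ok11_0 : checkTree table t11_0 = true := by decide +kernel
theorem ok11_1 : checkTree table t11_1 = true := by decide +kernel
theorem ok11_2 : checkTree table t11_2 = true := by decide +kernel
theorem ok11_3 : checkTree table t11_3 = true := by decide +kernel
theorem ok11_4 : checkTree table t11_4 = true := by decide +kernel
theorem ok11_5 : checkTree table t11_5 = true := by decide +kernel
theorem ok11_6 : checkTree table t11_6 = true := by decide +kernel
theorem ok11_7 : checkTree table t11_7 = true := by decide +kernel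
theorem ok11_8 : checkTree table t11_8 = true := by decide +kernel
theorem ok11_9 : checkTree table t11_9 = true := by decide +kernel
theorem ok11_10 : checkTree table t11_10 = true := by decide +kernel
theorem ok11_11 : checkTree table t11_11 = true := by decide +kernel
theorem ok11_12 : checkTree table t11_12 = true := by decide +kernel
theorem ok11_13 : checkTree table t11_13 = true := by decide +kernel
theorem ok11_14 : checkTree table t11_14 = true := by decide +kernel
theorem ok11_15 : checkTree table t11_15 = true := by decide +kernel
theorem ok11_16 : checkTree table t11_16 = true := by decide +kernel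
theorem ok11_17 : checkTree table t11_17 = true := by decide +kernel
theorem ok11_18 : checkTree table t11_18 = true := by decide +kernel
theorem ok11_19 : checkTree table t11_19 = true := by decide +kernel
theorem okPart11 : checkTree table part11 = true := (checkTree_br (checkTree_br (checkTree_br (checkTree_br ok11_0 ok11_1) (checkTree_br ok11_2 (checkTree_br ok11_3 ok11_4))) (checkTree_br (checkTree_br ok11_5 ok11_6) (checkTree_br ok11_7 (checkTree_br ok11_8 ok11_9)))) (checkTree_br (checkTree_br (checkTree_br ok11_10 ok11_11) (checkTree_br ok11_12 (checkTree_br ok11_13 ok11_14))) (checkTree_br (checkTree_br ok11_15 ok11_16) (checkTree_br ok11_17 (checkTree_br ok11_18 ok11_19)))))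

end Vale.Agent.P062.Data
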