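import Vale.Agent.P062.Data.Table

namespace Vale.Agent.P062.Data
open Vale.Agent.P062

theorem ok12_0 : checkTree table t12_0 = true := by decide +kernel
theorem ok12_1 : checkTree table t12_1 = true := by decide +kernel
theorem ok12_2 : checkTree table t12_2 = true := by decide +kernel
theorem ok12_3 : checkTree table t12_3 = true := by decide +kernel
theorem ok12_4 : checkTree table t12_4 = true := by decide +kernel
theorem ok12_5 : checkTree table t12_5 = true := by decide +kernel
theorem ok12_6 : checkTree table t12_6 = true := by decide +kernel
theorem ok12_7 : checkTree table t12_7 = true := by decide +kernel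
theorem ok12_8 : checkTree table t12_8 = true := by decide +kernel
theorem ok12_9 : checkTree table t12_9 = true := by decide +kernel
theorem ok12_10 : checkTree table t12_10 = true := by decide +kernel
theorem ok12_11 : checkTree table t12_11 = true := by decide +kernel
theorem ok12_12 : checkTree table t12_12 = true := by decide +kernel
theorem ok12_13 : checkTree table t12_13 = true := by decide +kernel
theorem ok12_14 : checkTree table t12_14 = true := by decide +kernel
theorem ok12_15 : checkTree table t12_15 = true := by decide +kernel
theorem ok12_16 : checkTree table t12_16 = true := by decide +kernel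
theorem ok12_17 : checkTree table t12_17 = true := by decide +kernel
theorem ok12_18 : checkTree table t12_18 = true := by decide +kernel
theorem ok12_19 : checkTree table t12_19 = true := by decide +kernel
theorem ok12_20 : checkTree table t12_20 = true := by decide +kernel
theorem okPart12 : checkTree table part12 = true := (checkTree_br (checkTree_br (checkTree_br (checkTree_br ok12_0 ok12_1) (checkTree_br ok12_2 (checkTree_br ok12_3 ok12_4))) (checkTree_br (checkTree_br ok12_5 ok12_6) (checkTree_br ok12_7 (checkTree_br ok12_8 ok12_9)))) (checkTree_br (checkTree_br (checkTree_br ok12_10 ok12_11) (checkTree_br ok12_12 (checkTree_br ok12_13 ok12_14))) (checkTree_br (checkTree_br ok12_15 (checkTree_br ok12_16 ok12_17)) (checkTree_br ok12_18 (checkTree_br ok12_19 ok12_20)))))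

end Vale.Agent.P062.Data
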