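import Vale.Agent.P062.Data.Table

namespace Vale.Agent.P062.Data
open Vale.Agent.P062

theorem ok13_0 : checkTree table t13_0 = true := by decide +kernel
theorem ok13_1 : checkTree table t13_1 = true := by decide +kernel
theorem ok13_2 : checkTree table t13_2 = true := by decide +kernel
theorem ok13_3 : checkTree table t13_3 = true := by decide +kernel
theorem ok13_4 : checkTree table t13_4 = true := by decide +kernel
theorem ok13_5 : checkTree table t13_5 = true := by decide +kernel
theorem ok13_6 : checkTree table t13_6 = true := by decide +kernel
theorem ok13_7 : checkTree table t13_7 = true := by decide +kernel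
theorem ok13_8 : checkTree table t13_8 = true := by decide +kernel
theorem ok13_9 : checkTree table t13_9 = true := by decide +kernel
theorem ok13_10 : checkTree table t13_10 = true := by decide +kernel
theorem ok13_11 : checkTree table t13_11 = true := by decide +kernel
theorem ok13_12 : checkTree table t13_12 = true := by decide +kernel
theorem ok13_13 : checkTree table t13_13 = true := by decide +kernel
theorem ok13_14 : checkTree table t13_14 = true := by decide +kernel
theorem okPart13 : checkTree table part13 = true := (checkTree_br (checkTree_br (checkTree_br ok13_0 (checkTree_br ok13_1 ok13_2)) (checkTree_br (checkTree_br ok13_3 ok13_4) (checkTree_br ok13_5 ok13_6))) (checkTree_br (checkTree_br (checkTree_br ok13_7 ok13_8) (checkTree_br ok13_9 ok13_10)) (checkTree_br (checkTree_br ok13_11 ok13_12) (checkTree_br ok13_13 ok13_14))))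

end Vale.Agent.P062.Data
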