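import Vale.Agent.P062.Data.Table

namespace Vale.Agent.P062.Data
open Vale.Agent.P062

theorem ok2_0 : checkTree table t2_0 = true := by decide +kernel
theorem ok2_1 : checkTree table t2_1 = true := by decide +kernel
theorem ok2_2 : checkTree table t2_2 = true := by decide +kernel
theorem ok2_3 : checkTree table t2_3 = true := by decide +kernel
theorem ok2_4 : checkTree table t2_4 = true := by decide +kernel
theorem ok2_5 : checkTree table t2_5 = true := by decide +kernel
theorem ok2_6 : checkTree table t2_6 = true := by decide +kernel
theorem ok2_7 : checkTree table t2_7 = true := by decide +kernel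
theorem ok2_8 : checkTree table t2_8 = true := by decide +kernel
theorem ok2_9 : checkTree table t2_9 = true := by decide +kernel
theorem ok2_10 : checkTree table t2_10 = true := by decide +kernel
theorem ok2_11 : checkTree table t2_11 = true := by decide +kernel
theorem ok2_12 : checkTree table t2_12 = true := by decide +kernel
theorem ok2_13 : checkTree table t2_13 = true := by decide +kernel
theorem ok2_14 : checkTree table t2_14 = true := by decide +kernel
theorem ok2_15 : checkTree table t2_15 = true := by decide +kernel
theorem ok2_16 : checkTree table t2_16 = true := by decide +kernel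
theorem ok2_17 : checkTree table t2_17 = true := by decide +kernel
theorem ok2_18 : checkTree table t2_18 = true := by decide +kernel
theorem ok2_19 : checkTree table t2_19 = true := by decide +kernel
theorem ok2_20 : checkTree table t2_20 = true := by decide +kernel
theorem ok2_21 : checkTree table t2_21 = true := by decide +kernel
theorem ok2_22 : checkTree table t2_22 = true := by decide +kernel
theorem ok2_23 : checkTree table t2_23 = true := by decide +kernel
theorem okPart2 : checkTree table part2 = true := (checkTree_br (checkTree_br (checkTree_br (checkTree_br ok2_0 (checkTree_br ok2_1 ok2_2)) (checkTree_br ok2_3 (checkTree_br ok2_4 ok2_5))) (checkTree_br (checkTree_br ok2_6 (checkTree_br ok2_7 ok2_8)) (checkTree_br ok2_9 (checkTree_br ok2_10 ok2_11)))) (checkTree_br (checkTree_br (checkTree_br ok2_12 (checkTree_br ok2_13 ok2_14)) (checkTree_br ok2_15 (checkTree_br ok2_16 ok2_17))) (checkTree_br (checkTree_br ok2_18 (checkTree_br ok2_19 ok2_20)) (checkTree_br ok2_21 (checkTree_br ok2_22 ok2_23)))))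

end Vale.Agent.P062.Data
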