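import Vale.Agent.P062.Data.Table

namespace Vale.Agent.P062.Data
open Vale.Agent.P062

theorem ok3_0 : checkTree table t3_0 = true := by decide +kernel
theorem ok3_1 : checkTree table t3_1 = true := by decide +kernel
theorem ok3_2 : checkTree table t3_2 = true := by decide +kernel
theorem ok3_3 : checkTree table t3_3 = true := by decide +kernel
theorem ok3_4 : checkTree table t3_4 = true := by decide +kernel
theorem ok3_5 : checkTree table t3_5 = true := by decide +kernel
theorem ok3_6 : checkTree table t3_6 = true := by decide +kernel
theorem ok3_7 : checkTree table t3_7 = true := by decide +kernel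
theorem ok3_8 : checkTree table t3_8 = true := by decide +kernel
theorem ok3_9 : checkTree table t3_9 = true := by decide +kernel
theorem ok3_10 : checkTree table t3_10 = true := by decide +kernel
theorem ok3_11 : checkTree table t3_11 = true := by decide +kernel
theorem ok3_12 : checkTree table t3_12 = true := by decide +kernel
theorem ok3_13 : checkTree table t3_13 = true := by decide +kernel
theorem ok3_14 : checkTree table t3_14 = true := by decide +kernel
theorem ok3_15 : checkTree table t3_15 = true := by decide +kernel
theorem ok3_16 : checkTree table t3_16 = true := by decide +kernel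
theorem ok3_17 : checkTree table t3_17 = true := by decide +kernel
theorem ok3_18 : checkTree table t3_18 = true := by decide +kernel
theorem ok3_19 : checkTree table t3_19 = true := by decide +kernel
theorem ok3_20 : checkTree table t3_20 = true := by decide +kernel
theorem ok3_21 : checkTree table t3_21 = true := by decide +kernel
theorem okPart3 : checkTree table part3 = true := (checkTree_br (checkTree_br (checkTree_br (checkTree_br ok3_0 ok3_1) (checkTree_br ok3_2 (checkTree_br ok3_3 ok3_4))) (checkTree_br (checkTree_br ok3_5 (checkTree_br ok3_6 ok3_7)) (checkTree_br ok3_8 (checkTree_br ok3_9 ok3_10)))) (checkTree_br (checkTree_br (checkTree_br ok3_11 ok3_12) (checkTree_br ok3_13 (checkTree_br ok3_14 ok3_15))) (checkTree_br (checkTree_br ok3_16 (checkTree_br ok3_17 ok3_18)) (checkTree_br ok3_19 (checkTree_br ok3_20 ok3_21)))))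

end Vale.Agent.P062.Data
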