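import Vale.Agent.P062.Data.Table

namespace Vale.Agent.P062.Data
open Vale.Agent.P062

theorem ok4_0 : checkTree table t4_0 = true := by decide +kernel
theorem ok4_1 : checkTree table t4_1 = true := by decide +kernel
theorem ok4_2 : checkTree table t4_2 = true := by decide +kernel
theorem ok4_3 : checkTree table t4_3 = true := by decide +kernel
theorem ok4_4 : checkTree table t4_4 = true := by decide +kernel
theorem ok4_5 : checkTree table t4_5 = true := by decide +kernel
theorem ok4_6 : checkTree table t4_6 = true := by decide +kernel
theorem ok4_7 : checkTree table t4_7 = true := by decide +kernel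
theorem ok4_8 : checkTree table t4_8 = true := by decide +kernel
theorem ok4_9 : checkTree table t4_9 = true := by decide +kernel
theorem ok4_10 : checkTree table t4_10 = true := by decide +kernel
theorem ok4_11 : checkTree table t4_11 = true := by decide +kernel
theorem ok4_12 : checkTree table t4_12 = true := by decide +kernel
theorem ok4_13 : checkTree table t4_13 = true := by decide +kernel
theorem ok4_14 : checkTree table t4_14 = true := by decide +kernel
theorem ok4_15 : checkTree table t4_15 = true := by decide +kernel
theorem ok4_16 : checkTree table t4_16 = true := by decide +kernel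
theorem ok4_17 : checkTree table t4_17 = true := by decide +kernel
theorem ok4_18 : checkTree table t4_18 = true := by decide +kernel
theorem ok4_19 : checkTree table t4_19 = true := by decide +kernel
theorem ok4_20 : checkTree table t4_20 = true := by decide +kernel
theorem ok4_21 : checkTree table t4_21 = true := by decide +kernel
theorem ok4_22 : checkTree table t4_22 = true := by decide +kernel
theorem okPart4 : checkTree table part4 = true := (checkTree_br (checkTree_br (checkTree_br (checkTree_br ok4_0 ok4_1) (checkTree_br ok4_2 (checkTree_br ok4_3 ok4_4))) (checkTree_br (checkTree_br ok4_5 (checkTree_br ok4_6 ok4_7)) (checkTree_br ok4_8 (checkTree_br ok4_9 ok4_10)))) (checkTree_br (checkTree_br (checkTree_br ok4_11 (checkTree_br ok4_12 ok4_13)) (checkTree_br ok4_14 (checkTree_br ok4_15 ok4_16))) (checkTree_br (checkTree_br ok4_17 (checkTree_br ok4_18 ok4_19)) (checkTree_br ok4_20 (checkTree_br ok4_21 ok4_22)))))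

end Vale.Agent.P062.Data
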