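import Vale.Agent.P062.Data.Table

namespace Vale.Agent.P062.Data
open Vale.Agent.P062

theorem ok5_0 : checkTree table t5_0 = true := by decide +kernel
theorem ok5_1 : checkTree table t5_1 = true := by decide +kernel
theorem ok5_2 : checkTree table t5_2 = true := by decide +kernel
theorem ok5_3 : checkTree table t5_3 = true := by decide +kernel
theorem ok5_4 : checkTree table t5_4 = true := by decide +kernel
theorem ok5_5 : checkTree table t5_5 = true := by decide +kernel
theorem ok5_6 : checkTree table t5_6 = true := by decide +kernel
theorem ok5_7 : checkTree table t5_7 = true := by decide +kernel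
theorem ok5_8 : checkTree table t5_8 = true := by decide +kernel
theorem ok5_9 : checkTree table t5_9 = true := by decide +kernel
theorem ok5_10 : checkTree table t5_10 = true := by decide +kernel
theorem ok5_11 : checkTree table t5_11 = true := by decide +kernel
theorem ok5_12 : checkTree table t5_12 = true := by decide +kernel
theorem ok5_13 : checkTree table t5_13 = true := by decide +kernel
theorem ok5_14 : checkTree table t5_14 = true := by decide +kernel
theorem ok5_15 : checkTree table t5_15 = true := by decide +kernel
theorem ok5_16 : checkTree table t5_16 = true := by decide +kernel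
theorem ok5_17 : checkTree table t5_17 = true := by decide +kernel
theorem ok5_18 : checkTree table t5_18 = true := by decide +kernel
theorem ok5_19 : checkTree table t5_19 = true := by decide +kernel
theorem ok5_20 : checkTree table t5_20 = true := by decide +kernel
theorem ok5_21 : checkTree table t5_21 = true := by decide +kernel
theorem okPart5 : checkTree table part5 = true := (checkTree_br (checkTree_br (checkTree_br (checkTree_br ok5_0 ok5_1) (checkTree_br ok5_2 (checkTree_br ok5_3 ok5_4))) (checkTree_br (checkTree_br ok5_5 (checkTree_br ok5_6 ok5_7)) (checkTree_br ok5_8 (checkTree_br ok5_9 ok5_10)))) (checkTree_br (checkTree_br (checkTree_br ok5_11 ok5_12) (checkTree_br ok5_13 (checkTree_br ok5_14 ok5_15))) (checkTree_br (checkTree_br ok5_16 (checkTree_br ok5_17 ok5_18)) (checkTree_br ok5_19 (checkTree_br ok5_20 ok5_21)))))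

end Vale.Agent.P062.Data
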