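import Vale.Agent.P062.Data.Table

namespace Vale.Agent.P062.Data
open Vale.Agent.P062

theorem ok6_0 : checkTree table t6_0 = true := by decide +kernel
theorem ok6_1 : checkTree table t6_1 = true := by decide +kernel
theorem ok6_2 : checkTree table t6_2 = true := by decide +kernel
theorem ok6_3 : checkTree table t6_3 = true := by decide +kernel
theorem ok6_4 : checkTree table t6_4 = true := by decide +kernel
theorem ok6_5 : checkTree table t6_5 = true := by decide +kernel
theorem ok6_6 : checkTree table t6_6 = true := by decide +kernel
theorem ok6_7 : checkTree table t6_7 = true := by decide +kernel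
theorem ok6_8 : checkTree table t6_8 = true := by decide +kernel
theorem ok6_9 : checkTree table t6_9 = true := by decide +kernel
theorem ok6_10 : checkTree table t6_10 = true := by decide +kernel
theorem ok6_11 : checkTree table t6_11 = true := by decide +kernel
theorem ok6_12 : checkTree table t6_12 = true := by decide +kernel
theorem ok6_13 : checkTree table t6_13 = true := by decide +kernel
theorem ok6_14 : checkTree table t6_14 = true := by decide +kernel
theorem ok6_15 : checkTree table t6_15 = true := by decide +kernel
theorem ok6_16 : checkTree table t6_16 = true := by decide +kernel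
theorem ok6_17 : checkTree table t6_17 = true := by decide +kernel
theorem ok6_18 : checkTree table t6_18 = true := by decide +kernel
theorem ok6_19 : checkTree table t6_19 = true := by decide +kernel
theorem ok6_20 : checkTree table t6_20 = true := by decide +kernel
theorem okPart6 : checkTree table part6 = true := (checkTree_br (checkTree_br (checkTree_br (checkTree_br ok6_0 ok6_1) (checkTree_br ok6_2 (checkTree_br ok6_3 ok6_4))) (checkTree_br (checkTree_br ok6_5 ok6_6) (checkTree_br ok6_7 (checkTree_br ok6_8 ok6_9)))) (checkTree_br (checkTree_br (checkTree_br ok6_10 ok6_11) (checkTree_br ok6_12 (checkTree_br ok6_13 ok6_14))) (checkTree_br (checkTree_br ok6_15 (checkTree_br ok6_16 ok6_17)) (checkTree_br ok6_18 (checkTree_br ok6_19 ok6_20)))))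

end Vale.Agent.P062.Data
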