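import Vale.Agent.P062.Data.Table

namespace Vale.Agent.P062.Data
open Vale.Agent.P062

theorem ok7_0 : checkTree table t7_0 = true := by decide +kernel
theorem ok7_1 : checkTree table t7_1 = true := by decide +kernel
theorem ok7_2 : checkTree table t7_2 = true := by decide +kernel
theorem ok7_3 : checkTree table t7_3 = true := by decide +kernel
theorem ok7_4 : checkTree table t7_4 = true := by decide +kernel
theorem ok7_5 : checkTree table t7_5 = true := by decide +kernel
theorem ok7_6 : checkTree table t7_6 = true := by decide +kernel
theorem ok7_7 : checkTree table t7_7 = true := by decide +kernel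
theorem ok7_8 : checkTree table t7_8 = true := by decide +kernel
theorem ok7_9 : checkTree table t7_9 = true := by decide +kernel
theorem ok7_10 : checkTree table t7_10 = true := by decide +kernel
theorem ok7_11 : checkTree table t7_11 = true := by decide +kernel
theorem ok7_12 : checkTree table t7_12 = true := by decide +kernel
theorem ok7_13 : checkTree table t7_13 = true := by decide +kernel
theorem ok7_14 : checkTree table t7_14 = true := by decide +kernel
theorem ok7_15 : checkTree table t7_15 = true := by decide +kernel
theorem ok7_16 : checkTree table t7_16 = true := by decide +kernel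
theorem ok7_17 : checkTree table t7_17 = true := by decide +kernel
theorem ok7_18 : checkTree table t7_18 = true := by decide +kernel
theorem ok7_19 : checkTree table t7_19 = true := by decide +kernel
theorem ok7_20 : checkTree table t7_20 = true := by decide +kernel
theorem ok7_21 : checkTree table t7_21 = true := by decide +kernel
theorem ok7_22 : checkTree table t7_22 = true := by decide +kernel
theorem okPart7 : checkTree table part7 = true := (checkTree_br (checkTree_br (checkTree_br (checkTree_br ok7_0 ok7_1) (checkTree_br ok7_2 (checkTree_br ok7_3 ok7_4))) (checkTree_br (checkTree_br ok7_5 (checkTree_br ok7_6 ok7_7)) (checkTree_br ok7_8 (checkTree_br ok7_9 ok7_10)))) (checkTree_br (checkTree_br (checkTree_br ok7_11 (checkTree_br ok7_12 ok7_13)) (checkTree_br ok7_14 (checkTree_br ok7_15 ok7_16))) (checkTree_br (checkTree_br ok7_17 (checkTree_br ok7_18 ok7_19)) (checkTree_br ok7_20 (checkTree_br ok7_21 ok7_22)))))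

end Vale.Agent.P062.Data
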