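import Vale.Agent.P062.Data.Table

namespace Vale.Agent.P062.Data
open Vale.Agent.P062

theorem ok8_0 : checkTree table t8_0 = true := by decide +kernel
theorem ok8_1 : checkTree table t8_1 = true := by decide +kernel
theorem ok8_2 : checkTree table t8_2 = true := by decide +kernel
theorem ok8_3 : checkTree table t8_3 = true := by decide +kernel
theorem ok8_4 : checkTree table t8_4 = true := by decide +kernel
theorem ok8_5 : checkTree table t8_5 = true := by decide +kernel
theorem ok8_6 : checkTree table t8_6 = true := by decide +kernel
theorem ok8_7 : checkTree table t8_7 = true := by decide +kernel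
theorem ok8_8 : checkTree table t8_8 = true := by decide +kernel
theorem ok8_9 : checkTree table t8_9 = true := by decide +kernel
theorem ok8_10 : checkTree table t8_10 = true := by decide +kernel
theorem ok8_11 : checkTree table t8_11 = true := by decide +kernel
theorem ok8_12 : checkTree table t8_12 = true := by decide +kernel
theorem ok8_13 : checkTree table t8_13 = true := by decide +kernel
theorem ok8_14 : checkTree table t8_14 = true := by decide +kernel
theorem ok8_15 : checkTree table t8_15 = true := by decide +kernel
theorem ok8_16 : checkTree table t8_16 = true := by decide +kernel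
theorem ok8_17 : checkTree table t8_17 = true := by decide +kernel
theorem ok8_18 : checkTree table t8_18 = true := by decide +kernel
theorem ok8_19 : checkTree table t8_19 = true := by decide +kernel
theorem ok8_20 : checkTree table t8_20 = true := by decide +kernel
theorem okPart8 : checkTree table part8 = true := (checkTree_br (checkTree_br (checkTree_br (checkTree_br ok8_0 ok8_1) (checkTree_br ok8_2 (checkTree_br ok8_3 ok8_4))) (checkTree_br (checkTree_br ok8_5 ok8_6) (checkTree_br ok8_7 (checkTree_br ok8_8 ok8_9)))) (checkTree_br (checkTree_br (checkTree_br ok8_10 ok8_11) (checkTree_br ok8_12 (checkTree_br ok8_13 ok8_14))) (checkTree_br (checkTree_br ok8_15 (checkTree_br ok8_16 ok8_17)) (checkTree_br ok8_18 (checkTree_br ok8_19 ok8_20)))))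

end Vale.Agent.P062.Data
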