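import Vale.Agent.P062.Data.Table

namespace Vale.Agent.P062.Data
open Vale.Agent.P062

theorem ok9_0 : checkTree table t9_0 = true := by decide +kernel
theorem ok9_1 : checkTree table t9_1 = true := by decide +kernel
theorem ok9_2 : checkTree table t9_2 = true := by decide +kernel
theorem ok9_3 : checkTree table t9_3 = true := by decide +kernel
theorem ok9_4 : checkTree table t9_4 = true := by decide +kernel
theorem ok9_5 : checkTree table t9_5 = true := by decide +kernel
theorem ok9_6 : checkTree table t9_6 = true := by decide +kernel
theorem ok9_7 : checkTree table t9_7 = true := by decide +kernel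
theorem ok9_8 : checkTree table t9_8 = true := by decide +kernel
theorem ok9_9 : checkTree table t9_9 = true := by decide +kernel
theorem ok9_10 : checkTree table t9_10 = true := by decide +kernel
theorem ok9_11 : checkTree table t9_11 = true := by decide +kernel
theorem ok9_12 : checkTree table t9_12 = true := by decide +kernel
theorem ok9_13 : checkTree table t9_13 = true := by decide +kernel
theorem ok9_14 : checkTree table t9_14 = true := by decide +kernel
theorem ok9_15 : checkTree table t9_15 = true := by decide +kernel
theorem ok9_16 : checkTree table t9_16 = true := by decide +kernel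
theorem ok9_17 : checkTree table t9_17 = true := by decide +kernel
theorem ok9_18 : checkTree table t9_18 = true := by decide +kernel
theorem ok9_19 : checkTree table t9_19 = true := by decide +kernel
theorem ok9_20 : checkTree table t9_20 = true := by decide +kernel
theorem ok9_21 : checkTree table t9_21 = true := by decide +kernel
theorem ok9_22 : checkTree table t9_22 = true := by decide +kernel
theorem okPart9 : checkTree table part9 = true := (checkTree_br (checkTree_br (checkTree_br (checkTree_br ok9_0 ok9_1) (checkTree_br ok9_2 (checkTree_br ok9_3 ok9_4))) (checkTree_br (checkTree_br ok9_5 (checkTree_br ok9_6 ok9_7)) (checkTree_br ok9_8 (checkTree_br ok9_9 ok9_10)))) (checkTree_br (checkTree_br (checkTree_br ok9_11 (checkTree_br ok9_12 ok9_13)) (checkTree_br ok9_14 (checkTree_br ok9_15 ok9_16))) (checkTree_br (checkTree_br ok9_17 (checkTree_br ok9_18 ok9_19)) (checkTree_br ok9_20 (checkTree_br ok9_21 ok9_22)))))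

end Vale.Agent.P062.Data
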