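import Vale.Agent.P062.Check
import Vale.Agent.P062.Data.Ok0
import Vale.Agent.P062.Data.Ok1
import Vale.Agent.P062.Data.Ok2
import Vale.Agent.P062.Data.Ok3
import Vale.Agent.P062.Data.Ok4
import Vale.Agent.P062.Data.Ok5
import Vale.Agent.P062.Data.Ok6
import Vale.Agent.P062.Data.Ok7
import Vale.Agent.P062.Data.Ok8
import Vale.Agent.P062.Data.Ok9
import Vale.Agent.P062.Data.Ok10
import Vale.Agent.P062.Data.Ok11
import Vale.Agent.P062.Data.Ok12
import Vale.Agent.P062.Data.Ok13

namespace Vale.Agent.P062.Data
open Vale.Agent.P062

theorem table_ok : checkTree table table = true := (checkTree_br (checkTree_br (checkTree_br okPart0 (checkTree_br okPart1 okPart2)) (checkTree_br (checkTree_br okPart3 okPart4) (checkTree_br okPart5 okPart6))) (checkTree_br (checkTree_br okPart7 (checkTree_br okPart8 okPart9)) (checkTree_br (checkTree_br okPart10 okPart11) (checkTree_br okPart12 okPart13))))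

theorem root_get : (table.get 38020).map Node.mk' = some 0 := by decide +kernel

theorem makerWins : MakerWins := by
  obtain ⟨n, hn, h0⟩ := Option.map_eq_some_iff.1 root_get
  exact makerWins_of_check table_ok hn h0

end Vale.Agent.P062.Data
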