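import Vale.Agent.P062.Data.Nodes0
import Vale.Agent.P062.Data.Nodes1
import Vale.Agent.P062.Data.Nodes2
import Vale.Agent.P062.Data.Nodes3
import Vale.Agent.P062.Data.Nodes4
import Vale.Agent.P062.Data.Nodes5
import Vale.Agent.P062.Data.Nodes6
import Vale.Agent.P062.Data.Nodes7
import Vale.Agent.P062.Data.Nodes8
import Vale.Agent.P062.Data.Nodes9
import Vale.Agent.P062.Data.Nodes10
import Vale.Agent.P062.Data.Nodes11
import Vale.Agent.P062.Data.Nodes12
import Vale.Agent.P062.Data.Nodes13

namespace Vale.Agent.P062.Data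
open Vale.Agent.P062

noncomputable def table : Tree := (Tree.br (nat_lit 20074) (Tree.br (nat_lit 8993) (Tree.br (nat_lit 3076) part0 (Tree.br (nat_lit 6019) part1 part2)) (Tree.br (nat_lit 14714) (Tree.br (nat_lit 11801) part3 part4) (Tree.br (nat_lit 17491) part5 part6))) (Tree.br (nat_lit 28444) (Tree.br (nat_lit 22941) part7 (Tree.br (nat_lit 25523) part8 part9)) (Tree.br (nat_lit 33618) (Tree.br (nat_lit 31181) part10 part11) (Tree.br (nat_lit 36201) part12 part13))))

end Vale.Agent.P062.Data
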